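import Vale.Agent.P084.Map
import Mathlib.Analysis.Convex.Caratheodory
import Mathlib.Analysis.Convex.Topology
import Mathlib.Analysis.Convex.StdSimplex
import Mathlib.Analysis.InnerProductSpace.EuclideanDist
import Mathlib.Analysis.LocallyConvex.Separation
import Mathlib.Analysis.Normed.Affine.AddTorsorBases
import Mathlib.Analysis.Normed.Module.HahnBanach
import Mathlib.Analysis.InnerProductSpace.Dual
import Mathlib.MeasureTheory.Measure.Hausdorff
import Mathlib.MeasureTheory.Measure.Lebesgue.EqHaar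

/-!
Isometric self-maps of a compact convex set are affine, and Tingley's antipodal theorem for
arbitrary finite-dimensional norms.
-/

namespace Vale.Agent.P084

open Set Filter Topology Metric MeasureTheory

section Sets

variable {E : Type*} [NormedAddCommGroup E] [NormedSpace ℝ E] {K : Set E} {σ : E → E}

omit [NormedSpace ℝ E] in
lemma continuousOn_of_isometry (hiso : ∀ x ∈ K, ∀ y ∈ K, ‖σ x - σ y‖ = ‖x - y‖) :
    ContinuousOn σ K := by
  rw [Metric.continuousOn_iff]
  intro x hx ε hε
  exact ⟨ε, hε, fun y hy h => by rwa [dist_eq_norm, hiso y hy x hx, ← dist_eq_norm]⟩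

omit [NormedSpace ℝ E] in
/-- An isometric map of a compact set into itself is onto. -/
lemma surjOn_of_isometry (hK : IsCompact K) (hmaps : MapsTo σ K K)
    (hiso : ∀ x ∈ K, ∀ y ∈ K, ‖σ x - σ y‖ = ‖x - y‖) : SurjOn σ K K := by
  intro x hx
  by_contra hnot
  have hcl : IsClosed (σ '' K) :=
    (hK.image_of_continuousOn (continuousOn_of_isometry hiso)).isClosed
  obtain ⟨δ, hδ, hball⟩ := Metric.isOpen_iff.1 hcl.isOpen_compl x hnot
  have hmem : ∀ n, σ^[n] x ∈ K := fun n => hmaps.iterate n hx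
  have hfar : ∀ m k, δ ≤ ‖σ^[m + (k + 1)] x - σ^[m] x‖ := by
    intro m
    induction m with
    | zero =>
      intro k
      rw [zero_add, Function.iterate_succ_apply']
      by_contra h
      refine hball (show σ (σ^[k] x) ∈ ball x δ from ?_) (mem_image_of_mem σ (hmem k))
      rw [mem_ball, dist_eq_norm]
      simpa using not_le.1 h
    | succ m ih =>
      intro k
      rw [show m + 1 + (k + 1) = (m + (k + 1)) + 1 by omega, Function.iterate_succ_apply',
        Function.iterate_succ_apply', hiso _ (hmem _) _ (hmem _)]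
      exact ih k
  obtain ⟨a, -, φ, hφ, hlim⟩ := hK.tendsto_subseq hmem
  obtain ⟨N, hN⟩ := Metric.tendsto_atTop.1 hlim (δ / 2) (by linarith)
  obtain ⟨k, hk⟩ := Nat.exists_eq_add_of_lt (hφ (show N < N + 1 by omega))
  have h1 := hN N le_rfl
  have h2 := hN (N + 1) (Nat.le_succ N)
  have h3 := hfar (φ N) k
  rw [show φ N + (k + 1) = φ (N + 1) by omega, ← dist_eq_norm] at h3
  have := dist_triangle_right ((σ^[φ (N + 1)]) x) ((σ^[φ N]) x) a
  simp only [Function.comp_apply] at h1 h2
  linarith

/-- The shrinking sets around the midpoint of two points. -/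
def midSet (x y : E) : ℕ → Set E
  | 0 => {z | ‖z - x‖ ≤ ‖x - y‖ / 2 ∧ ‖z - y‖ ≤ ‖x - y‖ / 2}
  | n + 1 => {z | z ∈ midSet x y n ∧ ∀ w ∈ midSet x y n, ‖z - w‖ ≤ ‖x - y‖ / 2 ^ (n + 1)}

omit [NormedSpace ℝ E] in
lemma midSet_subset (x y : E) : ∀ n, midSet x y n ⊆ midSet x y 0
  | 0 => subset_rfl
  | n + 1 => fun _ hz => midSet_subset x y n hz.1

omit [NormedSpace ℝ E] in
lemma midSet_diam (x y : E) : ∀ n, ∀ z ∈ midSet x y n, ∀ w ∈ midSet x y n,
    ‖z - w‖ ≤ ‖x - y‖ / 2 ^ n
  | 0 => fun z hz w hw => by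
    have := norm_sub_le_norm_sub_add_norm_sub z x w
    rw [norm_sub_rev x w] at this
    rw [pow_zero, div_one]
    linarith [hz.1, hw.1]
  | n + 1 => fun z hz w hw => hz.2 w hw.1

omit [NormedSpace ℝ E] in
lemma midSet_symm (x y : E) : ∀ n, ∀ z ∈ midSet x y n, x + y - z ∈ midSet x y n
  | 0 => fun z hz => by
    refine ⟨?_, ?_⟩
    · rw [show x + y - z - x = -(z - y) by abel, norm_neg]
      exact hz.2
    · rw [show x + y - z - y = -(z - x) by abel, norm_neg]
      exact hz.1
  | n + 1 => fun z hz => by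
    refine ⟨midSet_symm x y n z hz.1, fun w hw => ?_⟩
    rw [show x + y - z - w = -(z - (x + y - w)) by abel, norm_neg]
    exact hz.2 _ (midSet_symm x y n w hw)

lemma midpoint_mem_midSet (x y : E) : ∀ n, (1 / 2 : ℝ) • (x + y) ∈ midSet x y n
  | 0 => by
    refine ⟨?_, ?_⟩
    · rw [show (1 / 2 : ℝ) • (x + y) - x = (1 / 2 : ℝ) • (y - x) by module, norm_smul,
        norm_sub_rev]
      norm_num
      linarith
    · rw [show (1 / 2 : ℝ) • (x + y) - y = (1 / 2 : ℝ) • (x - y) by module, norm_smul]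
      norm_num
      linarith
  | n + 1 => by
    refine ⟨midpoint_mem_midSet x y n, fun w hw => ?_⟩
    rw [show (1 / 2 : ℝ) • (x + y) - w = (1 / 2 : ℝ) • (x + y - w - w) by module, norm_smul]
    have h := midSet_diam x y n _ (midSet_symm x y n w hw) w hw
    norm_num
    rw [pow_succ, ← div_div]
    linarith

/-- Midpoints are preserved when the two pairs of balls around the endpoints lie in the set. -/
lemma map_midpoint_of_balls (hsurj : SurjOn σ K K)
    (hiso : ∀ x ∈ K, ∀ y ∈ K, ‖σ x - σ y‖ = ‖x - y‖) {x y : E} (hx : x ∈ K) (hy : y ∈ K)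
    (h1 : closedBall x ‖x - y‖ ⊆ K) (h2 : closedBall (σ x) ‖x - y‖ ⊆ K) :
    σ ((1 / 2 : ℝ) • (x + y)) = (1 / 2 : ℝ) • (σ x + σ y) := by
  have hxy := hiso x hx y hy
  have sub : ∀ n, midSet x y n ⊆ K := fun n z hz => h1 <| by
    rw [mem_closedBall, dist_eq_norm]
    linarith [(midSet_subset x y n hz).1, norm_nonneg (x - y)]
  have sub' : ∀ n, midSet (σ x) (σ y) n ⊆ K := fun n z hz => h2 <| by
    rw [mem_closedBall, dist_eq_norm]
    linarith [(midSet_subset _ _ n hz).1, norm_nonneg (σ x - σ y)]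
  have key : ∀ n, ∀ z ∈ K, (z ∈ midSet x y n ↔ σ z ∈ midSet (σ x) (σ y) n) := by
    intro n
    induction n with
    | zero =>
      intro z hz
      simp only [midSet, mem_ofPred_eq, hiso z hz x hx, hiso z hz y hy, hxy]
    | succ n ih =>
      intro z hz
      simp only [midSet, mem_ofPred_eq, hxy]
      refine and_congr (ih z hz) ⟨fun h w hw => ?_, fun h w hw => ?_⟩
      · obtain ⟨v, hv, rfl⟩ := hsurj (sub' n hw)
        rw [hiso z hz v hv]
        exact h v ((ih v hv).2 hw)
      · have := h (σ w) ((ih w (sub n hw)).1 hw)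
        rwa [hiso z hz w (sub n hw)] at this
  have hlim : Tendsto (fun n : ℕ => ‖σ x - σ y‖ / 2 ^ n) atTop (𝓝 0) := by
    simpa [div_eq_mul_inv, inv_pow] using
      (tendsto_pow_atTop_nhds_zero_of_lt_one (r := (2 : ℝ)⁻¹) (by norm_num) (by norm_num)).const_mul
        ‖σ x - σ y‖
  have hle := ge_of_tendsto hlim (Eventually.of_forall fun n => midSet_diam (σ x) (σ y) n _
    ((key n _ (sub n (midpoint_mem_midSet x y n))).1 (midpoint_mem_midSet x y n)) _
    (midpoint_mem_midSet (σ x) (σ y) n))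
  exact eq_of_sub_eq_zero (norm_le_zero_iff.1 hle)

/-- An isometric map of a convex body onto itself moves balls inside the body to such balls. -/
lemma ball_subset_of_isometry [FiniteDimensional ℝ E] (hK : IsCompact K)
    (hmaps : MapsTo σ K K) (hsurj : SurjOn σ K K)
    (hiso : ∀ x ∈ K, ∀ y ∈ K, ‖σ x - σ y‖ = ‖x - y‖) {a : E} {r : ℝ} (hr : 0 < r)
    (hball : ball a r ⊆ K) : ball (σ a) r ⊆ K := by
  let : MeasurableSpace E := borel E
  have : BorelSpace E := ⟨rfl⟩
  set μ : Measure E := Measure.hausdorffMeasure (Module.finrank ℝ E : ℝ) with hμ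
  set b := σ a with hb
  have ha : a ∈ K := hball (mem_ball_self hr)
  by_contra hnot
  obtain ⟨w, hw, hwK⟩ := not_subset.1 hnot
  have hopen : IsOpen (ball b r \ K) := isOpen_ball.sdiff hK.isClosed
  have hpos : 0 < μ (ball b r \ K) := hopen.measure_pos μ ⟨w, hw, hwK⟩
  -- the inverse map is isometric on `K`
  classical
  let τ := Function.invFunOn σ K
  have hτK : ∀ z ∈ K, τ z ∈ K ∧ σ (τ z) = z := fun z hz =>
    ⟨Function.invFunOn_mem (hsurj hz), Function.invFunOn_eq (hsurj hz)⟩
  have hlip : LipschitzOnWith 1 τ (ball b r ∩ K) :=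
    LipschitzOnWith.of_dist_le_mul fun u hu v hv => by
    rw [NNReal.coe_one, one_mul, dist_eq_norm, dist_eq_norm,
      ← hiso _ (hτK u hu.2).1 _ (hτK v hv.2).1,
      (hτK u hu.2).2, (hτK v hv.2).2]
  have hsub : ball a r ⊆ τ '' (ball b r ∩ K) := by
    intro z hz
    have hzK := hball hz
    refine ⟨σ z, ⟨?_, hmaps hzK⟩, ?_⟩
    · rw [mem_ball, dist_eq_norm, hb, hiso z hzK a ha, ← dist_eq_norm]
      exact hz
    · have h := hτK (σ z) (hmaps hzK)
      have h' := hiso _ h.1 z hzK
      rw [h.2, sub_self, norm_zero, eq_comm, norm_eq_zero, sub_eq_zero] at h'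
      exact h'
  have h1 : μ (ball a r) ≤ μ (ball b r ∩ K) := by
    refine (measure_mono hsub).trans ?_
    simpa [hμ] using hlip.hausdorffMeasure_image_le (Nat.cast_nonneg (Module.finrank ℝ E))
  have h2 : μ (ball b r) = μ (ball b r ∩ K) + μ (ball b r \ K) :=
    (measure_inter_add_sdiff _ hK.isClosed.measurableSet).symm
  have h3 : μ (ball a r) = μ (ball b r) := by
    rw [Measure.addHaar_ball_center μ a r, Measure.addHaar_ball_center μ b r]
  have hfin : μ (ball b r) < ⊤ := measure_ball_lt_top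
  have h4 : μ (ball b r ∩ K) < μ (ball b r ∩ K) + μ (ball b r \ K) :=
    ENNReal.lt_add_right ((measure_mono inter_subset_left).trans_lt hfin).ne hpos.ne'
  exact lt_irrefl _ ((h3 ▸ h1).trans_lt (h2 ▸ h4))

/-- The affine identity on a segment whose endpoints are interior. -/
lemma affine_segment_interior [FiniteDimensional ℝ E] (hK : IsCompact K) (hc : Convex ℝ K)
    (hmaps : MapsTo σ K K) (hiso : ∀ x ∈ K, ∀ y ∈ K, ‖σ x - σ y‖ = ‖x - y‖)
    {x y : E} {r : ℝ} (hr : 0 < r) (hx : ball x r ⊆ K) (hy : ball y r ⊆ K) {t : ℝ}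
    (ht : t ∈ Icc (0 : ℝ) 1) : σ ((1 - t) • x + t • y) = (1 - t) • σ x + t • σ y := by
  have hsurj := surjOn_of_isometry hK hmaps hiso
  set p : ℝ → E := fun s => (1 - s) • x + s • y with hp
  have hball : ∀ s ∈ Icc (0 : ℝ) 1, ball (p s) r ⊆ K := by
    intro s hs z hz
    rw [mem_ball, dist_eq_norm] at hz
    have h := hc (hx (show x + (z - p s) ∈ ball x r by simpa using hz))
      (hy (show y + (z - p s) ∈ ball y r by simpa using hz)) (by linarith [hs.2] : 0 ≤ 1 - s) hs.1
      (sub_add_cancel 1 s)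
    have e : (1 - s) • (x + (z - p s)) + s • (y + (z - p s)) = z := by simp only [hp]; module
    rwa [e] at h
  have hpK : ∀ s ∈ Icc (0 : ℝ) 1, p s ∈ K := fun s hs => hball s hs (mem_ball_self hr)
  have hmid : ∀ s ∈ Icc (0 : ℝ) 1, ∀ u ∈ Icc (0 : ℝ) 1, ‖p s - p u‖ < r →
      σ ((1 / 2 : ℝ) • (p s + p u)) = (1 / 2 : ℝ) • (σ (p s) + σ (p u)) := fun s hs u hu h =>
    map_midpoint_of_balls hsurj hiso (hpK s hs) (hpK u hu)
      ((closedBall_subset_ball h).trans (hball s hs))
      ((closedBall_subset_ball h).trans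
        (ball_subset_of_isometry hK hmaps hsurj hiso hr (hball s hs)))
  -- equal steps
  have hstep : ∀ᶠ N : ℕ in atTop, ∀ k ≤ N,
      σ (p (k / N)) = (1 - (k / N : ℝ)) • σ x + (k / N : ℝ) • σ y := by
    obtain ⟨N₀, hN₀⟩ := exists_nat_gt (2 * ‖x - y‖ / r)
    filter_upwards [eventually_ge_atTop (N₀ + 1)] with N hN
    have hNpos : (0 : ℝ) < N := by exact_mod_cast (show 0 < N by omega)
    have hmem : ∀ k ≤ N, (k / N : ℝ) ∈ Icc (0 : ℝ) 1 := fun k hk =>
      ⟨by positivity, (div_le_one hNpos).2 (by exact_mod_cast hk)⟩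
    have hclose : 2 * ‖x - y‖ / N < r := by
      rw [div_lt_iff₀ hNpos]
      have : (N₀ : ℝ) < N := by exact_mod_cast (show N₀ < N by omega)
      rw [div_lt_iff₀ hr] at hN₀
      nlinarith
    set g : ℕ → E := fun k => σ (p (k / N)) with hg
    have hsd : ∀ k, k + 2 ≤ N → g (k + 2) = (2 : ℝ) • g (k + 1) - g k := by
      intro k hk
      have h := hmid _ (hmem k (by omega)) _ (hmem (k + 2) hk) (by
        have e : p (k / N : ℝ) - p ((k + 2 : ℕ) / N : ℝ) = (2 / N : ℝ) • (x - y) := by
          simp only [hp]; push_cast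
          rw [add_div]; module
        rw [e, norm_smul, Real.norm_of_nonneg (by positivity), div_mul_eq_mul_div]
        exact hclose)
      have e : (1 / 2 : ℝ) • (p (k / N : ℝ) + p ((k + 2 : ℕ) / N : ℝ)) =
          p ((k + 1 : ℕ) / N : ℝ) := by
        simp only [hp]; push_cast
        rw [add_div, add_div]; module
      rw [e] at h
      simp only [hg]
      rw [h]
      module
    have hlin : ∀ k, (k ≤ N → g k = g 0 + (k : ℝ) • (g 1 - g 0)) ∧
        (k + 1 ≤ N → g (k + 1) = g 0 + ((k + 1 : ℕ) : ℝ) • (g 1 - g 0)) := by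
      intro k
      induction k with
      | zero =>
        refine ⟨fun _ => by simp, fun _ => ?_⟩
        push_cast; module
      | succ k ih =>
        refine ⟨ih.2, fun hk => ?_⟩
        rw [hsd k hk, ih.2 (by omega), ih.1 (by omega)]
        push_cast; module
    have g0 : g 0 = σ x := by simp [hg, hp]
    have gN : g N = σ y := by simp [hg, hp, div_self hNpos.ne']
    have hd : (N : ℝ) • (g 1 - g 0) = σ y - σ x := by
      rw [eq_sub_iff_add_eq', ← g0, ← gN]
      exact ((hlin N).1 le_rfl).symm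
    intro k hk
    show g k = _
    rw [(hlin k).1 hk, show (k : ℝ) = (k / N : ℝ) * N by field_simp, mul_smul, hd, g0,
      show ((k / N : ℝ) * N / N : ℝ) = k / N by field_simp]
    module
  -- the limit
  set u : ℕ → ℝ := fun N => (⌊t * N⌋₊ : ℝ) / N with hu
  have hulim : Tendsto u atTop (𝓝 t) :=
    (tendsto_nat_floor_mul_div_atTop ht.1).comp tendsto_natCast_atTop_atTop
  have hkN : ∀ N : ℕ, ⌊t * N⌋₊ ≤ N := fun N =>
    Nat.floor_le_of_le (mul_le_of_le_one_left (Nat.cast_nonneg N) ht.2)
  have humem : ∀ N, u N ∈ Icc (0 : ℝ) 1 := fun N =>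
    ⟨by positivity, div_le_one_of_le₀ (by exact_mod_cast hkN N) (Nat.cast_nonneg N)⟩
  have hpc : Continuous p := by rw [hp]; fun_prop
  have h1 : Tendsto (fun N => σ (p (u N))) atTop (𝓝 (σ (p t))) :=
    ((continuousOn_of_isometry hiso).continuousWithinAt (hpK t ht)).tendsto.comp
      (tendsto_nhdsWithin_iff.2 ⟨(hpc.tendsto t).comp hulim,
        Eventually.of_forall fun N => hpK _ (humem N)⟩)
  refine tendsto_nhds_unique h1 ((((tendsto_const_nhds.sub hulim).smul_const (σ x)).add
    (hulim.smul_const (σ y))).congr' ?_)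
  filter_upwards [hstep] with N hN
  exact (hN _ (hkN N)).symm

/-- An isometric self-map of a convex body is affine. -/
lemma affine_of_isometry_body [FiniteDimensional ℝ E] (hK : IsCompact K) (hc : Convex ℝ K)
    (hint : (interior K).Nonempty) (hmaps : MapsTo σ K K)
    (hiso : ∀ x ∈ K, ∀ y ∈ K, ‖σ x - σ y‖ = ‖x - y‖) :
    ∀ x ∈ K, ∀ y ∈ K, ∀ t ∈ Icc (0 : ℝ) 1,
      σ ((1 - t) • x + t • y) = (1 - t) • σ x + t • σ y := by
  intro x hx y hy t ht
  obtain ⟨c, hc'⟩ := hint
  set q : E → ℕ → E := fun z n => (1 / (n + 1 : ℝ)) • c + (1 - 1 / (n + 1 : ℝ)) • z with hq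
  have h01 : ∀ n : ℕ, 0 < 1 / (n + 1 : ℝ) ∧ 1 / (n + 1 : ℝ) ≤ 1 := fun n =>
    ⟨by positivity, (div_le_one (by positivity)).2 (by linarith [(n.cast_nonneg : (0 : ℝ) ≤ n)])⟩
  have hqi : ∀ z ∈ K, ∀ n, q z n ∈ interior K := fun z hz n =>
    hc.combo_interior_self_mem_interior hc' hz (h01 n).1 (by linarith [(h01 n).2]) (by ring)
  have hql : ∀ z ∈ K, Tendsto (q z) atTop (𝓝 z) := fun z _ => by
    have h := (tendsto_one_div_add_atTop_nhds_zero_nat (𝕜 := ℝ))
    simpa [hq] using (h.smul_const c).add (((tendsto_const_nhds (x := (1 : ℝ))).sub h).smul_const z)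
  have hσ : ∀ z ∈ K, Tendsto (fun n => σ (q z n)) atTop (𝓝 (σ z)) := fun z hz =>
    ((continuousOn_of_isometry hiso).continuousWithinAt hz).tendsto.comp
      (tendsto_nhdsWithin_iff.2
        ⟨hql z hz, Eventually.of_forall fun n => interior_subset (hqi z hz n)⟩)
  have hxy : (1 - t) • x + t • y ∈ K := hc hx hy (by linarith [ht.2]) ht.1 (by ring)
  refine tendsto_nhds_unique (hσ _ hxy) ((((hσ x hx).const_smul (1 - t)).add
    ((hσ y hy).const_smul t)).congr' (Eventually.of_forall fun n => ?_))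
  obtain ⟨r, hr, hrx⟩ := Metric.isOpen_iff.1 isOpen_interior _ (hqi x hx n)
  obtain ⟨r', hr', hry⟩ := Metric.isOpen_iff.1 isOpen_interior _ (hqi y hy n)
  rw [← affine_segment_interior hK hc hmaps hiso (lt_min hr hr')
    ((ball_subset_ball (min_le_left _ _)).trans (hrx.trans interior_subset))
    ((ball_subset_ball (min_le_right _ _)).trans (hry.trans interior_subset)) ht]
  congr 1
  simp only [hq]
  module

/-- Isometric self-maps of a compact convex set are affine. -/
theorem affine_of_isometry_convex {E : Type*} [NormedAddCommGroup E] [NormedSpace ℝ E]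
    [FiniteDimensional ℝ E] {K : Set E} (hK : IsCompact K) (hc : Convex ℝ K) {σ : E → E}
    (hmaps : Set.MapsTo σ K K) (hiso : ∀ x ∈ K, ∀ y ∈ K, ‖σ x - σ y‖ = ‖x - y‖) :
    ∀ x ∈ K, ∀ y ∈ K, ∀ t ∈ Set.Icc (0 : ℝ) 1,
      σ ((1 - t) • x + t • y) = (1 - t) • σ x + t • σ y := by
  intro x hx y hy t ht
  set V : Submodule ℝ E := Submodule.span ℝ ((fun z => z - x) '' K) with hV
  have hsub : ∀ z ∈ K, z - x ∈ V := fun z hz => Submodule.subset_span ⟨z, hz, rfl⟩
  set K' : Set V := {v | x + (v : E) ∈ K} with hK'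
  classical
  let σ' : V → V := fun v =>
    if h : x + (v : E) ∈ K then ⟨σ (x + v) - x, hsub _ (hmaps h)⟩ else 0
  have hσ' : ∀ v ∈ K', (σ' v : E) = σ (x + v) - x := fun v hv => by
    simp only [σ', dif_pos (show x + (v : E) ∈ K from hv)]
  have himg : ((↑) : V → E) '' K' = (fun z => z - x) '' K := by
    ext w
    refine ⟨?_, ?_⟩
    · rintro ⟨v, hv, rfl⟩
      exact ⟨x + v, hv, add_sub_cancel_left x _⟩
    · rintro ⟨z, hz, rfl⟩
      exact ⟨⟨z - x, hsub z hz⟩, by simpa [hK'] using hz, rfl⟩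
  have hcomp : IsCompact K' := by
    rw [Subtype.isCompact_iff, himg]
    exact hK.image (continuous_id.sub continuous_const)
  have hconv : Convex ℝ K' := fun u hu v hv a b ha hb hab => by
    have h := hc (x := x + (u : E)) hu (y := x + (v : E)) hv ha hb hab
    show x + ((a • u + b • v : V) : E) ∈ K
    convert h using 1
    obtain rfl : b = 1 - a := by linarith
    simp only [Submodule.coe_add, Submodule.coe_smul]
    module
  have h0 : (0 : V) ∈ K' := by simpa [hK'] using hx
  have hint : (interior K').Nonempty := by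
    rw [hconv.interior_nonempty_iff_affineSpan_eq_top,
      AffineSubspace.affineSpan_eq_top_iff_vectorSpan_eq_top_of_nonempty ℝ V V ⟨0, h0⟩, eq_top_iff]
    have htop : Submodule.span ℝ ((↑) ⁻¹' ((fun z => z - x) '' K) : Set V) = ⊤ :=
      Submodule.span_span_coe_preimage
    rw [← himg, preimage_image_eq _ Subtype.val_injective] at htop
    rw [← htop]
    refine Submodule.span_le.2 fun v hv => ?_
    simpa using vsub_mem_vectorSpan ℝ hv h0
  have h := affine_of_isometry_body hcomp hconv hint (σ := σ')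
    (fun v hv => by
      show x + (σ' v : E) ∈ K
      rw [hσ' v hv, add_sub_cancel]
      exact hmaps hv)
    (fun u hu v hv => by
      rw [← Submodule.norm_coe, ← Submodule.norm_coe, Submodule.coe_sub, Submodule.coe_sub,
        hσ' u hu, hσ' v hv, sub_sub_sub_cancel_right, hiso _ hu _ hv, add_sub_add_left_eq_sub])
    0 h0 ⟨y - x, hsub y hy⟩ (by simpa [hK'] using hy) t ht
  have h' := congrArg ((↑) : V → E) h
  have hz : (1 - t) • (0 : V) + t • (⟨y - x, hsub y hy⟩ : V) ∈ K' :=
    hconv h0 (by simpa [hK'] using hy) (by linarith [ht.2]) ht.1 (by ring)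
  rw [hσ' _ hz, Submodule.coe_add, Submodule.coe_add, Submodule.coe_smul, Submodule.coe_smul,
    Submodule.coe_smul, Submodule.coe_smul, hσ' _ h0,
    hσ' _ (show (⟨y - x, hsub y hy⟩ : V) ∈ K' by simpa [hK'] using hy)] at h'
  simp only [ZeroMemClass.coe_zero, add_zero, smul_zero, zero_add, add_sub_cancel] at h'
  rw [show x + t • (y - x) = (1 - t) • x + t • y by module, sub_eq_iff_eq_add] at h'
  rw [h']
  module

end Sets

section Hull

variable {E : Type*} [NormedAddCommGroup E] [NormedSpace ℝ E]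

/-- The convex hull of a compact set in finite dimension is compact. -/
lemma isCompact_convexHull_of_compact [FiniteDimensional ℝ E] {s : Set E} (hs : IsCompact s) :
    IsCompact (convexHull ℝ s) := by
  rcases s.eq_empty_or_nonempty with rfl | ⟨s₀, hs₀⟩
  · simp
  set n := Module.finrank ℝ E + 1 with hn
  have heq : convexHull ℝ s = (fun p : (Fin n → ℝ) × (Fin n → E) => ∑ i, p.1 i • p.2 i) ''
      (stdSimplex ℝ (Fin n) ×ˢ Set.univ.pi fun _ => s) := by
    apply subset_antisymm
    · intro z hz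
      obtain ⟨ι, _, q, w, hq, hind, hw, hw1, hz'⟩ := eq_pos_convex_span_of_mem_convexHull hz
      have hcard : Fintype.card ι ≤ Fintype.card (Fin n) := by
        rw [Fintype.card_fin, hn]
        exact hind.card_le_finrank_succ.trans (by gcongr; exact Submodule.finrank_le _)
      obtain ⟨e⟩ := Function.Embedding.nonempty_of_card_le hcard
      refine ⟨⟨Function.extend e w 0, Function.extend e q fun _ => s₀⟩, ⟨⟨fun i => ?_, ?_⟩, ?_⟩, ?_⟩
      · show 0 ≤ Function.extend (⇑e) w 0 i
        by_cases hi : ∃ j, e j = i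
        · obtain ⟨j, rfl⟩ := hi
          rw [e.injective.extend_apply]
          exact (hw j).le
        · rw [Function.extend_apply' _ _ _ hi]
          exact le_rfl
      · show ∑ i, Function.extend (⇑e) w 0 i = 1
        rw [← hw1]
        refine (Fintype.sum_of_injective e e.injective w _ (fun i hi => ?_) fun j => ?_).symm
        · rw [Function.extend_apply' _ _ _ hi]; rfl
        · rw [e.injective.extend_apply]
      · intro i _
        by_cases hi : ∃ j, e j = i
        · obtain ⟨j, rfl⟩ := hi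
          show Function.extend (⇑e) q (fun _ => s₀) (e j) ∈ s
          rw [e.injective.extend_apply]
          exact hq (mem_range_self j)
        · show Function.extend (⇑e) q (fun _ => s₀) i ∈ s
          rw [Function.extend_apply' _ _ _ hi]
          exact hs₀
      · show ∑ i, Function.extend (⇑e) w 0 i • Function.extend (⇑e) q (fun _ => s₀) i = z
        rw [← hz']
        refine (Fintype.sum_of_injective e e.injective (fun j => w j • q j) _ (fun i hi => ?_)
          fun j => ?_).symm
        · simp [Function.extend_apply' _ _ _ hi]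
        · simp [e.injective.extend_apply]
    · rintro _ ⟨⟨w, q⟩, ⟨hw, hq⟩, rfl⟩
      exact (convex_convexHull ℝ s).sum_mem (fun i _ => hw.1 i) hw.2 fun i _ =>
        subset_convexHull ℝ s (hq i (mem_univ i))
  rw [heq]
  exact ((isCompact_stdSimplex ℝ (Fin n)).prod (isCompact_univ_pi fun _ => hs)).image (by fun_prop)

/-- The exposed points of the unit ball. -/
def expBall (E : Type*) [NormedAddCommGroup E] [NormedSpace ℝ E] : Set E :=
  {e | ‖e‖ ≤ 1 ∧ ∃ g : E →L[ℝ] ℝ, ∀ z, ‖z‖ ≤ 1 → z ≠ e → g z < g e}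

/-- A consequence of Straszewicz's theorem for the unit ball. -/
lemma ball_eq_hull_exposed [FiniteDimensional ℝ E] {x : E} (hx : ‖x‖ ≤ 1) :
    x ∈ convexHull ℝ (closure (expBall E)) := by
  have hB : IsCompact (closedBall (0 : E) 1) := by
    have := FiniteDimensional.proper ℝ E
    exact isCompact_closedBall _ _
  have hsub : closure (expBall E) ⊆ closedBall 0 1 :=
    closure_minimal (fun e he => mem_closedBall_zero_iff.2 he.1) isClosed_closedBall
  have hC := isCompact_convexHull_of_compact (hB.of_isClosed_subset isClosed_closure hsub)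
  by_contra hnot
  obtain ⟨f, u, hfu, hux⟩ :=
    geometric_hahn_banach_closed_point (convex_convexHull ℝ _) hC.isClosed hnot
  set L := (toEuclidean : E ≃L[ℝ] _) with hL
  set v := (InnerProductSpace.toDual ℝ (EuclideanSpace ℝ (Fin (Module.finrank ℝ E)))).symm
    (f.comp (L.symm : EuclideanSpace ℝ (Fin (Module.finrank ℝ E)) →L[ℝ] E)) with hv
  have hfv : ∀ z, inner ℝ v (L z) = f z := fun z => by
    rw [hv, InnerProductSpace.toDual_symm_apply]
    simp
  obtain ⟨M, hM⟩ := (hB.image (L.continuous.norm.pow 2)).bddAbove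
  set R := (M + 1) / (f x - u) with hR
  have hM0 : 0 ≤ M := le_trans (sq_nonneg _) (hM ⟨x, mem_closedBall_zero_iff.2 hx, rfl⟩)
  have hgap : 0 < f x - u := sub_pos.2 hux
  have hRpos : 0 < R := by positivity
  obtain ⟨y, hy, hmax⟩ := hB.exists_isMaxOn ⟨x, mem_closedBall_zero_iff.2 hx⟩
    (show Continuous fun z => ‖L z + R • v‖ by fun_prop).continuousOn
  have hexp : y ∈ expBall E := by
    refine ⟨mem_closedBall_zero_iff.1 hy,
      (innerSL ℝ (L y + R • v)).comp (L : E →L[ℝ] EuclideanSpace ℝ (Fin (Module.finrank ℝ E))),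
      fun z hz hzy => ?_⟩
    have hle : ‖L z + R • v‖ ≤ ‖L y + R • v‖ := hmax (mem_closedBall_zero_iff.2 hz)
    have hne : 0 < ‖(L z + R • v) - (L y + R • v)‖ := by
      rw [norm_pos_iff, add_sub_add_right_eq_sub, sub_ne_zero]
      exact fun h => hzy (L.injective h)
    have h1 := norm_sub_sq_real (L z + R • v) (L y + R • v)
    have h2 := pow_le_pow_left₀ (norm_nonneg _) hle 2
    have h3 := pow_pos hne 2
    have h4 : inner ℝ (L y + R • v) (L y + R • v) = ‖L y + R • v‖ ^ 2 :=
      real_inner_self_eq_norm_sq _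
    simp only [ContinuousLinearMap.comp_apply, innerSL_apply_apply, ContinuousLinearEquiv.coe_coe]
    rw [inner_add_right] at h4
    rw [real_inner_comm, inner_add_right] at h1
    linarith
  have hy' : f y < u := hfu y (subset_convexHull ℝ _ (subset_closure hexp))
  have hxy := pow_le_pow_left₀ (norm_nonneg _) (show ‖L x + R • v‖ ≤ ‖L y + R • v‖ from
    hmax (mem_closedBall_zero_iff.2 hx)) 2
  rw [norm_add_sq_real, norm_add_sq_real, inner_smul_right, inner_smul_right, real_inner_comm v,
    real_inner_comm v, hfv, hfv] at hxy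
  have hMy : ‖L y‖ ^ 2 ≤ M := hM ⟨y, hy, rfl⟩
  have hRe : R * (f x - u) = M + 1 := div_mul_cancel₀ _ hgap.ne'
  nlinarith [sq_nonneg ‖L x‖]

end Hull

namespace IsTingley

variable {X Y : Type*} [NormedAddCommGroup X] [NormedSpace ℝ X] [NormedAddCommGroup Y]
  [NormedSpace ℝ Y] {T : X → Y} {T' : Y → X} (hT : IsTingley T T')
include hT

/-- Tingley's antipodal theorem. -/
theorem odd_general [FiniteDimensional ℝ X] (x : X) : T (-x) = -T x := by
  set σ : X → X := fun z => T' (-T (-z)) with hσ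
  have hnorm : ∀ z, ‖σ z‖ = ‖z‖ := fun z => by
    simp only [hσ, hT.symm.norm_map, norm_neg, hT.norm_map]
  have hiso : ∀ z w, ‖z‖ = ‖w‖ → ‖σ z - σ w‖ = ‖z - w‖ := fun z w h => by
    simp only [hσ]
    rw [hT.symm.dist_map _ _ (by simpa [hT.norm_map] using h),
      show -T (-z) - -T (-w) = -(T (-z) - T (-w)) by abel, norm_neg,
      hT.dist_map _ _ (by simpa using h), show -z - -w = -(z - w) by abel, norm_neg]
  have hsum : ∀ z, ‖z + σ z‖ = 2 * ‖z‖ := fun z => by
    rw [show z + σ z = σ z - -z by abel, ← hT.dist_map _ _ (by rw [hnorm, norm_neg])]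
    simp only [hσ]
    rw [hT.right, show -T (-z) - T (-z) = (-2 : ℝ) • T (-z) by module, norm_smul, hT.norm_map,
      norm_neg]
    norm_num
  have hcont : Continuous σ :=
    hT.symm.lipschitz.continuous.comp (hT.lipschitz.continuous.comp continuous_neg).neg
  -- every norming functional of a point norms its image
  have key : ∀ (z : X) (φ : X →L[ℝ] ℝ), (∀ w, φ w ≤ ‖w‖) → φ z = ‖z‖ → φ (σ z) = ‖z‖ := by
    intro z φ hφ hz
    refine le_antisymm ((hφ _).trans (hnorm z).le) ?_
    set w := -σ z with hw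
    have hlim : Tendsto (fun t : ℝ => -‖z + t • w‖ + ‖σ z - σ (z + t • w)‖) (𝓝[>] (0 : ℝ))
        (𝓝 (-‖z‖)) := by
      refine Tendsto.mono_left ?_ nhdsWithin_le_nhds
      have hc : Continuous fun t : ℝ => -‖z + t • w‖ + ‖σ z - σ (z + t • w)‖ :=
        (by fun_prop : Continuous fun t : ℝ => -‖z + t • w‖).add
          ((continuous_const.sub (hcont.comp (by fun_prop))).norm)
      simpa using hc.tendsto 0
    have hev : ∀ᶠ t in 𝓝[>] (0 : ℝ), φ w ≤ -‖z + t • w‖ + ‖σ z - σ (z + t • w)‖ := by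
      filter_upwards [self_mem_nhdsWithin] with t (ht : 0 < t)
      obtain ⟨g, hg1, hg2⟩ := exists_dual_vector'' ℝ (z + t • w + σ (z + t • w))
      have hg : ∀ v, g v ≤ ‖v‖ := fun v =>
        (le_abs_self _).trans (((g.le_opNorm v).trans (mul_le_of_le_one_left (norm_nonneg v) hg1)))
      simp only [RCLike.ofReal_real_eq_id, id_eq] at hg2
      rw [hsum, map_add] at hg2
      have e1 := hg (z + t • w)
      have e2 := hg (σ (z + t • w))
      rw [hnorm] at e2
      have e3 : g (z + t • w) = ‖z + t • w‖ := by linarith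
      have e4 : g (σ (z + t • w)) = ‖z + t • w‖ := by linarith
      have e5 := hφ (z + t • w)
      rw [map_add, map_smul, hz, smul_eq_mul, ← e3, map_add, map_smul, smul_eq_mul] at e5
      have e6 : φ w ≤ g w := le_of_mul_le_mul_left (by linarith [hg z]) ht
      have e7 := hg (-(σ z - σ (z + t • w)))
      rw [map_neg, map_sub, norm_neg] at e7
      have e8 : g w = -g (σ z) := by rw [hw, map_neg]
      linarith
    have h := ge_of_tendsto hlim hev
    rw [hw, map_neg] at h
    linarith
  -- closure of the exposed points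
  have hfix : ∀ e ∈ closure (expBall X), σ e = e := by
    refine fun e he => closure_minimal ?_ (isClosed_eq hcont continuous_id) he
    rintro e ⟨he1, g, hg⟩
    show σ e = e
    rcases eq_or_ne e 0 with rfl | hne
    · exact norm_eq_zero.1 ((hnorm 0).trans norm_zero)
    have hpos : 0 < g e := by simpa using hg 0 (by simp) hne.symm
    have hle : ∀ w, g w ≤ g e * ‖w‖ := by
      intro w
      rcases eq_or_ne w 0 with rfl | hw0
      · simp
      have hwn : 0 < ‖w‖ := norm_pos_iff.2 hw0
      have h1 : g (‖w‖⁻¹ • w) ≤ g e := by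
        rcases eq_or_ne (‖w‖⁻¹ • w) e with h | h
        · rw [h]
        · exact (hg _ (by rw [norm_smul, norm_inv, norm_norm, inv_mul_cancel₀ hwn.ne']) h).le
      rw [map_smul, smul_eq_mul, inv_mul_le_iff₀ hwn] at h1
      linarith
    have he2 : ‖e‖ = 1 := le_antisymm he1 (by nlinarith [hle e])
    have h := key e ((g e)⁻¹ • g) (fun w => by
        rw [_root_.smul_apply, smul_eq_mul, inv_mul_le_iff₀ hpos]
        exact hle w)
      (by rw [_root_.smul_apply, smul_eq_mul, inv_mul_cancel₀ hpos.ne', he2])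
    by_contra hne'
    have := hg (σ e) (by rw [hnorm, he2]) hne'
    rw [_root_.smul_apply, smul_eq_mul, he2, inv_mul_eq_iff_eq_mul₀ hpos.ne',
      mul_one] at h
    linarith
  -- the unit sphere
  have hone : ∀ z : X, ‖z‖ = 1 → σ z = z := by
    intro z hz
    obtain ⟨φ, hφ1, hφ2⟩ := exists_dual_vector'' ℝ z
    simp only [RCLike.ofReal_real_eq_id, id_eq] at hφ2
    have hφ : ∀ w, φ w ≤ ‖w‖ := fun w =>
      (le_abs_self _).trans (((φ.le_opNorm w).trans (mul_le_of_le_one_left (norm_nonneg w) hφ1)))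
    set F : Set X := {w | ‖w‖ ≤ 1 ∧ φ w = 1} with hF
    have hFn : ∀ w ∈ F, ‖w‖ = 1 := fun w hw => le_antisymm hw.1 (hw.2 ▸ hφ w)
    have hFc : Convex ℝ F := by
      rw [hF, Set.ofPred_and]
      refine Convex.inter ?_ (convex_hyperplane φ.toLinearMap.isLinear 1)
      simpa [closedBall, dist_eq_norm] using convex_closedBall (0 : X) 1
    have hFk : IsCompact F := by
      have := FiniteDimensional.proper ℝ X
      refine (isCompact_closedBall (0 : X) 1).of_isClosed_subset ?_ fun w hw =>
        mem_closedBall_zero_iff.2 hw.1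
      exact (isClosed_le continuous_norm continuous_const).inter
        (isClosed_eq φ.continuous continuous_const)
    have haff := affine_of_isometry_convex hFk hFc (σ := σ)
      (fun w hw => ⟨(hnorm w).trans_le hw.1, by
        rw [key w φ hφ (hw.2.trans (hFn w hw).symm), hFn w hw]⟩)
      (fun u hu w hw => hiso u w ((hFn u hu).trans (hFn w hw).symm))
    have hfixc : Convex ℝ {w | w ∈ F ∧ σ w = w} := by
      intro u hu w hw a b ha hb hab
      obtain rfl : a = 1 - b := by linarith
      refine ⟨hFc hu.1 hw.1 ha hb hab, ?_⟩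
      rw [haff u hu.1 w hw.1 b ⟨hb, by linarith⟩, hu.2, hw.2]
    obtain ⟨ι, _, q, c, hq, -, hc, hc1, hz'⟩ :=
      eq_pos_convex_span_of_mem_convexHull (ball_eq_hull_exposed hz.le)
    have hq1 : ∀ i, ‖q i‖ ≤ 1 := fun i => closure_minimal (fun e he => he.1)
      (isClosed_le continuous_norm continuous_const) (hq (mem_range_self i))
    have hsum0 : ∑ i, c i * (1 - φ (q i)) = 0 := by
      have h1 : ∑ i, c i * φ (q i) = 1 := by
        rw [← hz, ← hφ2, ← hz', map_sum]
        simp
      simp [mul_sub, hc1, h1]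
    have hall := (Finset.sum_eq_zero_iff_of_nonneg fun i _ => mul_nonneg (hc i).le
      (by linarith [hφ (q i), hq1 i])).1 hsum0
    have hmem : z ∈ {w | w ∈ F ∧ σ w = w} := by
      rw [← hz']
      refine hfixc.sum_mem (fun i _ => (hc i).le) hc1 fun i _ => ⟨⟨hq1 i, ?_⟩, ?_⟩
      · have := (mul_eq_zero.1 (hall i (Finset.mem_univ i))).resolve_left (hc i).ne'
        linarith
      · exact hfix _ (hq (mem_range_self i))
    exact hmem.2
  -- homogeneity
  have hall : σ (-x) = -x := by
    rcases eq_or_ne x 0 with rfl | hx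
    · exact norm_eq_zero.1 ((hnorm (-0)).trans (by simp)) |>.trans (by simp)
    have hr : 0 < ‖x‖ := norm_pos_iff.2 hx
    have h := hone (‖x‖⁻¹ • -x) (by rw [norm_smul, norm_inv, norm_norm, norm_neg,
      inv_mul_cancel₀ hr.ne'])
    have hp : σ (‖x‖⁻¹ • -x) = ‖x‖⁻¹ • σ (-x) := by
      simp only [hσ]
      rw [show -(‖x‖⁻¹ • -x) = ‖x‖⁻¹ • x by module, hT.homog _ _ (inv_pos.2 hr), neg_neg,
        ← smul_neg, hT.symm.homog _ _ (inv_pos.2 hr)]
    rw [hp] at h
    exact smul_right_injective X (inv_ne_zero hr.ne') h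
  have h := congrArg T hall
  simp only [hσ, hT.right, neg_neg] at h
  exact h.symm

end IsTingley

end Vale.Agent.P084
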