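import Mathlib.Analysis.Calculus.BumpFunction.FiniteDimension
import Mathlib.Analysis.Calculus.ContDiff.RCLike
import Mathlib.Analysis.Calculus.MeanValue
import Mathlib.Analysis.Convex.Jensen
import Mathlib.LinearAlgebra.FiniteDimensional.Defs
import Mathlib.MeasureTheory.Group.Integral
import Mathlib.MeasureTheory.Integral.Bochner.ContinuousLinearMap
import Mathlib.MeasureTheory.Measure.Hausdorff

/-!
Averaged second differences of a norm, and transport of integrals by anti-Lipschitz maps.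
-/

namespace Vale.Agent.P084

open Filter Topology Metric MeasureTheory Measure
open scoped ENNReal NNReal

variable {E : Type*} [NormedAddCommGroup E] [NormedSpace ℝ E]

/-- Second symmetric difference of the norm. -/
noncomputable def normDiff (z e : E) : ℝ := ‖z + e‖ + ‖z - e‖ - 2 * ‖z‖

lemma normDiff_nonneg (z e : E) : 0 ≤ normDiff z e := by
  have h := norm_add_le (z + e) (z - e)
  rw [add_add_sub_cancel, ← two_smul ℝ, norm_smul] at h
  unfold normDiff
  norm_num at h
  linarith

lemma convexOn_normDiff (z : E) : ConvexOn ℝ Set.univ (normDiff z) := by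
  refine ⟨convex_univ, fun u _ w _ a b ha hb hab => ?_⟩
  unfold normDiff
  have h1 : ‖z + (a • u + b • w)‖ ≤ a * ‖z + u‖ + b * ‖z + w‖ := by
    rw [show z + (a • u + b • w) = a • (z + u) + b • (z + w) by
      nth_rewrite 1 [show z = (a + b) • z by rw [hab, one_smul]]
      module]
    refine (norm_add_le _ _).trans (le_of_eq ?_)
    rw [norm_smul, norm_smul, Real.norm_of_nonneg ha, Real.norm_of_nonneg hb]
  have h2 : ‖z - (a • u + b • w)‖ ≤ a * ‖z - u‖ + b * ‖z - w‖ := by
    rw [show z - (a • u + b • w) = a • (z - u) + b • (z - w) by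
      nth_rewrite 1 [show z = (a + b) • z by rw [hab, one_smul]]
      module]
    refine (norm_add_le _ _).trans (le_of_eq ?_)
    rw [norm_smul, norm_smul, Real.norm_of_nonneg ha, Real.norm_of_nonneg hb]
  have h3 : 2 * ‖z‖ = a * (2 * ‖z‖) + b * (2 * ‖z‖) := by rw [← add_mul, hab, one_mul]
  simp only [smul_eq_mul]
  nlinarith

omit [NormedSpace ℝ E] in
lemma continuous_normDiff (e : E) : Continuous fun z : E => normDiff z e := by
  unfold normDiff
  fun_prop

/-- A finite set whose convex hull contains the unit ball. -/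
lemma exists_vertices [FiniteDimensional ℝ E] :
    ∃ V : Finset E, closedBall (0 : E) 1 ⊆ convexHull ℝ (V : Set E) := by
  classical
  let b := Module.finBasis ℝ E
  let φ : Fin (Module.finrank ℝ E) → E →L[ℝ] ℝ := fun i =>
    LinearMap.toContinuousLinearMap (b.coord i)
  let M : ℝ := 1 + ∑ i, ‖φ i‖
  have hM : 0 < M := by
    have : 0 ≤ ∑ i, ‖φ i‖ := Finset.sum_nonneg fun i _ => norm_nonneg _
    linarith
  refine ⟨insert 0 (Finset.univ.image (fun i => M • b i) ∪
    Finset.univ.image (fun i => -(M • b i))), fun x hx => ?_⟩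
  rw [mem_closedBall_zero_iff] at hx
  have hsum : ∑ i, |φ i x| ≤ M := by
    have : ∑ i, |φ i x| ≤ ∑ i, ‖φ i‖ := Finset.sum_le_sum fun i _ => by
      rw [← Real.norm_eq_abs]
      exact ((φ i).le_opNorm x).trans (mul_le_of_le_one_right (norm_nonneg _) hx)
    linarith
  let w : Option (Fin (Module.finrank ℝ E)) → ℝ :=
    fun o => o.elim (1 - (∑ i, |φ i x|) / M) fun i => |φ i x| / M
  let z : Option (Fin (Module.finrank ℝ E)) → E :=
    fun o => o.elim 0 fun i => if 0 ≤ φ i x then M • b i else -(M • b i)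
  have hw : ∑ o, w o = 1 := by
    simp [w, Fintype.sum_option, ← Finset.sum_div]
  have hwz : ∑ o, w o • z o = x := by
    rw [Fintype.sum_option]
    simp only [w, z, Option.elim_none, Option.elim_some, smul_zero, zero_add]
    conv_rhs => rw [← b.sum_repr x]
    refine Finset.sum_congr rfl fun i _ => ?_
    show _ = φ i x • b i
    split_ifs with h
    · rw [abs_of_nonneg h, smul_smul, div_mul_cancel₀ _ hM.ne']
    · rw [abs_of_neg (not_le.1 h), smul_neg, smul_smul, div_mul_cancel₀ _ hM.ne', neg_smul, neg_neg]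
  rw [← hwz]
  refine (convex_convexHull ℝ _).sum_mem (fun o _ => ?_) hw fun o _ => subset_convexHull ℝ _ ?_
  · cases o with
    | none => exact sub_nonneg.2 ((div_le_one hM).2 hsum)
    | some i => exact div_nonneg (abs_nonneg _) hM.le
  · cases o with
    | none => simp [z]
    | some i =>
      by_cases h : 0 ≤ φ i x <;> simp [z, h]

lemma secondDiff_bump [FiniteDimensional ℝ E] {χ : E → ℝ} (hχ : ContDiff ℝ 2 χ)
    (hsupp : HasCompactSupport χ) :
    ∃ L : ℝ, 0 ≤ L ∧ ∀ z e : E, |χ (z + e) + χ (z - e) - 2 * χ z| ≤ L * ‖e‖ ^ 2 := by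
  obtain ⟨C, hC⟩ := ContDiff.lipschitzWith_of_hasCompactSupport (hsupp.fderiv ℝ)
    (hχ.fderiv_right (m := 1) (by norm_num)) one_ne_zero
  refine ⟨2 * C, by positivity, fun z e => ?_⟩
  have key : ∀ d : E, |χ (z + d) - χ z - fderiv ℝ χ z d| ≤ C * ‖d‖ ^ 2 := by
    intro d
    have h := (convex_closedBall z ‖d‖).norm_image_sub_le_of_norm_hasFDerivWithin_le'
      (f := χ) (f' := fderiv ℝ χ) (φ := fderiv ℝ χ z) (C := C * ‖d‖) (y := z + d) (x := z)
      (fun y _ => ((hχ.differentiable (by norm_num)) y).hasFDerivAt.hasFDerivWithinAt)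
      (fun y hy => (hC.norm_sub_le y z).trans
        (mul_le_mul_of_nonneg_left (mem_closedBall_iff_norm.1 hy) (by positivity)))
      (mem_closedBall_self (norm_nonneg d)) (by simp)
    rw [add_sub_cancel_left, Real.norm_eq_abs] at h
    linarith
  have h1 := key e
  have h2 := key (-e)
  rw [← sub_eq_add_neg, map_neg, norm_neg] at h2
  rw [abs_le] at h1 h2 ⊢
  constructor <;> linarith

variable [MeasurableSpace E] [BorelSpace E]

/-- The average of a second difference of the norm is quadratically small. -/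
lemma integral_normDiff_le [FiniteDimensional ℝ E] (μ : Measure E) [μ.IsAddHaarMeasure]
    (z₀ : E) (R : ℝ) :
    ∃ C : ℝ, 0 ≤ C ∧ ∀ e : E, ‖e‖ ≤ 1 →
      ∫⁻ z in closedBall z₀ R, ENNReal.ofReal (normDiff z e) ∂μ
        ≤ ENNReal.ofReal (C * ‖e‖ ^ 2) := by
  have : ProperSpace E := FiniteDimensional.proper ℝ E
  let χ : ContDiffBump z₀ := ⟨|R| + 1, |R| + 2, by positivity, by linarith⟩
  obtain ⟨L, hL0, hL⟩ := secondDiff_bump χ.contDiff χ.hasCompactSupport
  refine ⟨L * ∫ z in closedBall z₀ (|R| + 3), ‖z‖ ∂μ,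
    mul_nonneg hL0 (integral_nonneg fun z => norm_nonneg z), fun e he => ?_⟩
  have hint : ∀ g : E → ℝ, Continuous g → Integrable (fun z => χ z * g z) μ := fun g hg =>
    (χ.continuous.mul hg).integrable_of_hasCompactSupport χ.hasCompactSupport.mul_right
  have hle : ∫⁻ z in closedBall z₀ R, ENNReal.ofReal (normDiff z e) ∂μ
      ≤ ∫⁻ z, ENNReal.ofReal (χ z * normDiff z e) ∂μ := by
    refine le_trans (le_of_eq (setLIntegral_congr_fun measurableSet_closedBall fun z hz => ?_))
      (setLIntegral_le_lintegral _ _)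
    have hz' : χ z = 1 := χ.one_of_mem_closedBall
      (closedBall_subset_closedBall (show R ≤ |R| + 1 by linarith [le_abs_self R]) hz)
    simp only [hz', one_mul]
  refine hle.trans ?_
  rw [← ofReal_integral_eq_lintegral_ofReal (hint _ (continuous_normDiff e))
    (Eventually.of_forall fun z => mul_nonneg χ.nonneg (normDiff_nonneg z e))]
  refine ENNReal.ofReal_le_ofReal ?_
  have i1 := hint (fun z => ‖z + e‖) (by fun_prop)
  have i2 := hint (fun z => ‖z - e‖) (by fun_prop)
  have i3 := hint (fun z => ‖z‖) continuous_norm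
  have hshift : ∫ z, χ z * normDiff z e ∂μ
      = ∫ z, ‖z‖ * (χ (z + e) + χ (z - e) - 2 * χ z) ∂μ := by
    have t1 : ∫ z, χ z * ‖z + e‖ ∂μ = ∫ z, χ (z - e) * ‖z‖ ∂μ := by
      rw [← integral_add_right_eq_self (fun z => χ (z - e) * ‖z‖) e]
      simp
    have t2 : ∫ z, χ z * ‖z - e‖ ∂μ = ∫ z, χ (z + e) * ‖z‖ ∂μ := by
      rw [← integral_add_right_eq_self (fun z => χ (z + e) * ‖z‖) (-e)]
      simp [sub_eq_add_neg, add_assoc]
    have j1 : Integrable (fun z => χ (z - e) * ‖z‖) μ := by
      simpa [sub_eq_add_neg, add_assoc] using i1.comp_add_right (-e)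
    have j2 : Integrable (fun z => χ (z + e) * ‖z‖) μ := by
      simpa using i2.comp_add_right e
    calc ∫ z, χ z * normDiff z e ∂μ
        = ∫ z, (χ z * ‖z + e‖ + χ z * ‖z - e‖ - 2 * (χ z * ‖z‖)) ∂μ := by
          refine integral_congr_ae (Eventually.of_forall fun z => ?_)
          simp only [normDiff]
          ring
      _ = ∫ z, χ z * ‖z + e‖ ∂μ + ∫ z, χ z * ‖z - e‖ ∂μ - 2 * ∫ z, χ z * ‖z‖ ∂μ := by
          rw [integral_sub (i1.fun_add i2) (i3.const_mul 2), integral_add i1 i2,
            integral_const_mul]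
      _ = ∫ z, χ (z - e) * ‖z‖ ∂μ + ∫ z, χ (z + e) * ‖z‖ ∂μ - 2 * ∫ z, χ z * ‖z‖ ∂μ := by
          rw [t1, t2]
      _ = ∫ z, (χ (z - e) * ‖z‖ + χ (z + e) * ‖z‖ - 2 * (χ z * ‖z‖)) ∂μ := by
          rw [integral_sub (j1.fun_add j2) (i3.const_mul 2), integral_add j1 j2,
            integral_const_mul]
      _ = _ := by
          refine integral_congr_ae (Eventually.of_forall fun z => ?_)
          simp only
          ring
  rw [hshift, mul_assoc, mul_comm (∫ z in closedBall z₀ (|R| + 3), ‖z‖ ∂μ), ← mul_assoc,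
    ← integral_const_mul, ← integral_indicator measurableSet_closedBall]
  have hbound : ∀ z, ‖z‖ * (χ (z + e) + χ (z - e) - 2 * χ z)
      ≤ (closedBall z₀ (|R| + 3)).indicator (fun z => L * ‖e‖ ^ 2 * ‖z‖) z := by
    intro z
    by_cases hz : z ∈ closedBall z₀ (|R| + 3)
    · rw [Set.indicator_of_mem hz, mul_comm (L * _)]
      exact mul_le_mul_of_nonneg_left ((le_abs_self _).trans (hL z e)) (norm_nonneg z)
    · rw [Set.indicator_of_notMem hz]
      rw [mem_closedBall, not_le] at hz
      have hd : ∀ d : E, ‖d‖ ≤ 1 → χ (z + d) = 0 := fun d hd => χ.zero_of_le_dist (by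
        have h1 := dist_triangle z (z + d) z₀
        rw [dist_eq_norm z (z + d), sub_add_cancel_left, norm_neg] at h1
        show |R| + 2 ≤ dist (z + d) z₀
        linarith)
      have e1 := hd e he
      have e2 := hd (-e) (by rwa [norm_neg])
      have e3 := hd 0 (by rw [norm_zero]; norm_num)
      rw [← sub_eq_add_neg] at e2
      rw [add_zero] at e3
      simp [e1, e2, e3]
  refine integral_mono ?_ ?_ hbound
  · have hc : Continuous fun z => ‖z‖ * (χ (z + e) + χ (z - e) - 2 * χ z) := by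
      have := χ.continuous
      fun_prop
    refine hc.integrable_of_hasCompactSupport (HasCompactSupport.intro
      (isCompact_closedBall z₀ (|R| + 3)) fun z hz => ?_)
    have h1 := hbound z
    rw [Set.indicator_of_notMem hz] at h1
    rw [mem_closedBall, not_le] at hz
    have hd : ∀ d : E, ‖d‖ ≤ 1 → χ (z + d) = 0 := fun d hd => χ.zero_of_le_dist (by
      have h1 := dist_triangle z (z + d) z₀
      rw [dist_eq_norm z (z + d), sub_add_cancel_left, norm_neg] at h1
      show |R| + 2 ≤ dist (z + d) z₀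
      linarith)
    have e1 := hd e he
    have e2 := hd (-e) (by rwa [norm_neg])
    have e3 := hd 0 (by rw [norm_zero]; norm_num)
    rw [← sub_eq_add_neg] at e2
    rw [add_zero] at e3
    simp [e1, e2, e3]
  · exact ((continuous_const.mul continuous_norm).continuousOn.integrableOn_compact
      (isCompact_closedBall _ _)).integrable_indicator measurableSet_closedBall

omit [MeasurableSpace E] [BorelSpace E] in
/-- A finite family of second differences dominates all smaller ones. -/
lemma exists_domination [FiniteDimensional ℝ E] :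
    ∃ V : Finset E, ∀ (r : ℝ), 0 < r → ∀ z e : E, ‖e‖ ≤ r →
      normDiff z e ≤ ∑ v ∈ V, normDiff z (r • v) := by
  obtain ⟨V, hV⟩ := exists_vertices (E := E)
  refine ⟨V, fun r hr z e he => ?_⟩
  have hmem : r⁻¹ • e ∈ convexHull ℝ (V : Set E) := hV (by
    rw [mem_closedBall_zero_iff, norm_smul, Real.norm_of_nonneg (inv_nonneg.2 hr.le),
      inv_mul_le_iff₀ hr, mul_one]
    exact he)
  obtain ⟨v, hv, hle⟩ := ((convexOn_normDiff z).comp_linearMap
    (r • LinearMap.id : E →ₗ[ℝ] E)).exists_ge_of_mem_convexHull (by simp) hmem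
  simp only [Function.comp_apply, LinearMap.smul_apply, LinearMap.id_apply,
    smul_inv_smul₀ hr.ne'] at hle
  exact hle.trans (Finset.single_le_sum (fun w _ => normDiff_nonneg z (r • w)) hv)

/-- The average of the largest small second difference. -/
lemma integral_domination [FiniteDimensional ℝ E] (μ : Measure E) [μ.IsAddHaarMeasure]
    (V : Finset E) (z₀ : E) (R : ℝ) :
    ∃ C : ℝ≥0∞, C ≠ ∞ ∧ ∀ᶠ r in 𝓝[>] (0 : ℝ),
      ∫⁻ z in closedBall z₀ R, ENNReal.ofReal (∑ v ∈ V, normDiff z (r • v)) ∂μ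
        ≤ C * ENNReal.ofReal (r ^ 2) := by
  obtain ⟨C, hC0, hC⟩ := integral_normDiff_le μ z₀ R
  refine ⟨ENNReal.ofReal (∑ v ∈ V, C * ‖v‖ ^ 2), ENNReal.ofReal_ne_top, ?_⟩
  have hsmall : ∀ᶠ r in 𝓝[>] (0 : ℝ), ∀ v ∈ V, ‖r • v‖ ≤ 1 := by
    refine (Finset.eventually_all V).2 fun v _ => ?_
    have h0 : Tendsto (fun r : ℝ => ‖r • v‖) (𝓝 0) (𝓝 0) := by
      simpa using ((continuous_id.smul (continuous_const (y := v))).norm.tendsto (0 : ℝ))
    exact (h0.eventually (eventually_le_nhds one_pos)).filter_mono nhdsWithin_le_nhds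
  filter_upwards [hsmall] with r hr
  simp only [ENNReal.ofReal_sum_of_nonneg fun v _ => normDiff_nonneg _ (r • v)]
  rw [lintegral_finsetSum (f := fun v z => ENNReal.ofReal (normDiff z (r • v))) _ fun v _ =>
    (ENNReal.measurable_ofReal.comp (continuous_normDiff (r • v)).measurable)]
  rw [← ENNReal.ofReal_mul (Finset.sum_nonneg fun v _ => mul_nonneg hC0 (sq_nonneg _)),
    Finset.sum_mul, ENNReal.ofReal_sum_of_nonneg fun v _ =>
      mul_nonneg (mul_nonneg hC0 (sq_nonneg _)) (sq_nonneg _)]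
  refine Finset.sum_le_sum fun v hv => (hC _ (hr v hv)).trans (le_of_eq ?_)
  rw [norm_smul, mul_pow, Real.norm_eq_abs, sq_abs]
  congr 1
  ring

variable {E' : Type*} [NormedAddCommGroup E'] [NormedSpace ℝ E'] [MeasurableSpace E'] [BorelSpace E']

/-- An anti-Lipschitz map between spaces of one dimension pulls null sets back to null sets and
transports integrals. -/
lemma lintegral_comp_antilipschitz [FiniteDimensional ℝ E] [FiniteDimensional ℝ E']
    (hd : Module.finrank ℝ E = Module.finrank ℝ E') {c : ℝ} (hc : 0 < c) :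
    ∃ K : ℝ≥0∞, K ≠ ∞ ∧ ∀ (Φ : E → E') (B : Set E) (S : Set E'), Continuous Φ →
      (∀ x ∈ B, ∀ y ∈ B, c * ‖x - y‖ ≤ ‖Φ x - Φ y‖) → Set.MapsTo Φ B S →
      (∀ A : Set E', μH[Module.finrank ℝ E'] A = 0 →
        μH[Module.finrank ℝ E] (Φ ⁻¹' A ∩ B) = 0) ∧
      ∀ f : E' → ℝ≥0∞, Measurable f →
        ∫⁻ x in B, f (Φ x) ∂μH[Module.finrank ℝ E]
          ≤ K * ∫⁻ z in S, f z ∂μH[Module.finrank ℝ E'] := by
  set d : ℝ := (Module.finrank ℝ E : ℝ) with hddef
  have hd' : (Module.finrank ℝ E' : ℝ) = d := by rw [hddef, hd]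
  rw [hd']
  set K : ℝ≥0∞ := ((c⁻¹).toNNReal : ℝ≥0∞) ^ d
  have hK : K ≠ ∞ := ENNReal.rpow_ne_top_of_nonneg (Nat.cast_nonneg _) ENNReal.coe_ne_top
  refine ⟨K, hK, fun Φ B S hΦ hanti hS => ?_⟩
  let g : E' → E := Function.invFunOn Φ B
  have hinj : Set.InjOn Φ B := fun x hx y hy h => by
    have h1 := hanti x hx y hy
    rw [h, sub_self, norm_zero] at h1
    exact sub_eq_zero.1 (norm_le_zero_iff.1 (nonpos_of_mul_nonpos_right h1 hc))
  have hgx : ∀ x ∈ B, g (Φ x) = x := fun x hx => hinj.leftInvOn_invFunOn hx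
  have hg : LipschitzOnWith (c⁻¹).toNNReal g (Φ '' B) := by
    refine LipschitzOnWith.of_dist_le_mul ?_
    rintro _ ⟨x, hx, rfl⟩ _ ⟨y, hy, rfl⟩
    rw [hgx x hx, hgx y hy, dist_eq_norm, dist_eq_norm, Real.coe_toNNReal _ (inv_nonneg.2 hc.le),
      inv_mul_eq_div, le_div_iff₀ hc, mul_comm]
    exact hanti x hx y hy
  have hle : ∀ A : Set E', μH[d] (Φ ⁻¹' A ∩ B) ≤ K * μH[d] (A ∩ S) := by
    intro A
    have hsub : Φ ⁻¹' A ∩ B ⊆ g '' (A ∩ Φ '' B) := fun x hx =>
      ⟨Φ x, ⟨hx.1, Set.mem_image_of_mem Φ hx.2⟩, hgx x hx.2⟩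
    refine (measure_mono hsub).trans ?_
    refine ((hg.mono Set.inter_subset_right).hausdorffMeasure_image_le (Nat.cast_nonneg _)).trans ?_
    exact mul_le_mul_right (measure_mono (Set.inter_subset_inter_right A hS.image_subset)) K
  refine ⟨fun A hA => le_antisymm ((hle A).trans ?_) bot_le, fun f hf => ?_⟩
  · rw [measure_mono_null Set.inter_subset_left hA, mul_zero]
  · calc ∫⁻ x in B, f (Φ x) ∂μH[d]
        = ∫⁻ z, f z ∂((μH[d] : Measure E).restrict B).map Φ := by
          rw [lintegral_map hf hΦ.measurable]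
      _ ≤ ∫⁻ z, f z ∂(K • (μH[d] : Measure E').restrict S) := by
          refine lintegral_mono' (Measure.le_iff.2 fun A hA => ?_) le_rfl
          rw [Measure.map_apply hΦ.measurable hA, Measure.restrict_apply (hΦ.measurable hA),
            Measure.smul_apply, Measure.restrict_apply hA, smul_eq_mul]
          exact hle A
      _ = K * ∫⁻ z in S, f z ∂μH[d] := lintegral_smul_measure _ _

end Vale.Agent.P084
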