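import Mathlib.Analysis.Calculus.FDeriv.Norm
import Mathlib.Analysis.Calculus.FDeriv.Symmetric
import Mathlib.Analysis.Calculus.FDeriv.Prod
import Mathlib.Analysis.Calculus.ContDiff.Basic
import Mathlib.Analysis.Calculus.ContDiff.Operations
import Mathlib.Analysis.Calculus.Deriv.Comp
import Mathlib.Analysis.Calculus.Deriv.Mul
import Mathlib.Analysis.Calculus.Deriv.Slope
import Mathlib.Analysis.Convex.StrictConvexSpace

/-!
First and second derivatives of a norm which is smooth away from the origin.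
-/

namespace Vale.Agent.P084

open Filter Topology

variable (X : Type*) [NormedAddCommGroup X] [NormedSpace ℝ X]

/-- The norm is thrice continuously differentiable away from the origin. -/
def SmoothNorm : Prop := ∀ x : X, x ≠ 0 → ContDiffAt ℝ 3 (fun z : X => ‖z‖) x

variable {X}

/-- Derivative of the norm. -/
noncomputable abbrev D1 (x : X) : X →L[ℝ] ℝ := fderiv ℝ (fun z : X => ‖z‖) x

/-- Second derivative of the norm. -/
noncomputable abbrev D2 (x : X) : X →L[ℝ] X →L[ℝ] ℝ := fderiv ℝ (D1 (X := X)) x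

lemma D1_le (x b : X) : D1 x b ≤ ‖b‖ :=
  (le_abs_self _).trans ((ContinuousLinearMap.le_opNorm _ b).trans
    (mul_le_of_le_one_left (norm_nonneg b) (by
      simpa using norm_fderiv_le_of_lipschitz ℝ (lipschitzWith_one_norm (E := X)) (x₀ := x))))

lemma D1_smul (x : X) {s : ℝ} (hs : 0 < s) : D1 (s • x) = D1 x :=
  fderiv_norm_smul_pos hs

namespace SmoothNorm

variable (hN : SmoothNorm X) {x : X}
include hN

lemma diff (hx : x ≠ 0) : DifferentiableAt ℝ (fun z : X => ‖z‖) x :=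
  (hN x hx).differentiableAt (by norm_num)

lemma hasFDerivAt (hx : x ≠ 0) : HasFDerivAt (fun z : X => ‖z‖) (D1 x) x :=
  (hN.diff hx).hasFDerivAt

lemma contD1 (hx : x ≠ 0) : ContDiffAt ℝ 2 (D1 (X := X)) x :=
  (hN x hx).fderiv_right (by norm_num)

lemma contD2 (hx : x ≠ 0) : ContDiffAt ℝ 1 (D2 (X := X)) x :=
  (hN.contD1 hx).fderiv_right (by norm_num)

lemma hasFDerivAtD1 (hx : x ≠ 0) : HasFDerivAt (D1 (X := X)) (D2 x) x :=
  ((hN.contD1 hx).differentiableAt (by norm_num)).hasFDerivAt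

lemma D1_self (hx : x ≠ 0) : D1 x x = ‖x‖ :=
  (hN.diff hx).fderiv_norm_self

lemma D2_smul (hx : x ≠ 0) {s : ℝ} (hs : 0 < s) (u : X) : D2 (s • x) u = s⁻¹ • D2 x u := by
  have h1 : HasFDerivAt (fun y : X => D1 (s • y))
      ((D2 (s • x)).comp (s • ContinuousLinearMap.id ℝ X)) x :=
    (hN.hasFDerivAtD1 (smul_ne_zero hs.ne' hx)).comp x ((hasFDerivAt_id x).const_smul s)
  have h2 : HasFDerivAt (fun y : X => D1 (s • y)) (D2 x) x :=
    (hN.hasFDerivAtD1 hx).congr_of_eventuallyEq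
      (Eventually.of_forall fun y => P084.D1_smul y hs)
  have h := congrArg (fun A : X →L[ℝ] X →L[ℝ] ℝ => A u) (h1.unique h2)
  simp only [ContinuousLinearMap.comp_apply, ContinuousLinearMap.smul_apply,
    ContinuousLinearMap.id_apply, map_smul] at h
  rw [← h, smul_smul, inv_mul_cancel₀ hs.ne', one_smul]

lemma D2_self (hx : x ≠ 0) : D2 x x = 0 := by
  have hc : HasDerivAt (fun s : ℝ => x + s • x) x 0 := by
    simpa using ((hasDerivAt_id (0 : ℝ)).smul_const x).const_add x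
  have h1 : HasDerivAt (fun s : ℝ => D1 (x + s • x)) (D2 x x) 0 :=
    (hN.hasFDerivAtD1 hx).comp_hasDerivAt_of_eq (0 : ℝ) hc (by simp)
  have h2 : HasDerivAt (fun s : ℝ => D1 (x + s • x)) 0 0 := by
    refine (hasDerivAt_const (0 : ℝ) (D1 x)).congr_of_eventuallyEq ?_
    filter_upwards [Ioi_mem_nhds (show (-1 : ℝ) < 0 by norm_num)] with s hs
    rw [show x + s • x = (1 + s) • x by rw [add_smul, one_smul]]
    exact P084.D1_smul x (by linarith [Set.mem_Ioi.1 hs])
  exact h1.unique h2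

lemma D2_symm (hx : x ≠ 0) (u w : X) : D2 x u w = D2 x w u :=
  (hN x hx).isSymmSndFDerivAt (by simp; norm_num) u w

lemma D2_self_right (hx : x ≠ 0) (u : X) : D2 x u x = 0 := by
  rw [hN.D2_symm hx, hN.D2_self hx]
  rfl

lemma D1_strict [StrictConvexSpace ℝ X] {a b : X} (ha : a ≠ 0) (h : D1 a b = ‖b‖)
    (hab : ‖a‖ = ‖b‖) : a = b := by
  have h1 : ‖a + b‖ = ‖a‖ + ‖b‖ :=
    le_antisymm (norm_add_le a b) (by
      calc ‖a‖ + ‖b‖ = D1 a (a + b) := by rw [map_add, hN.D1_self ha, h]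
        _ ≤ ‖a + b‖ := D1_le a (a + b))
  exact (sameRay_iff_of_norm_eq hab).1 (sameRay_iff_norm_add.2 h1)

lemma D2_nonneg (hx : x ≠ 0) (w : X) : 0 ≤ D2 x w w := by
  have hc : HasDerivAt (fun s : ℝ => x + s • w) w 0 := by
    simpa using ((hasDerivAt_id (0 : ℝ)).smul_const w).const_add x
  have h1 : HasDerivAt (fun s : ℝ => D1 (x + s • w) w) (D2 x w w) 0 := by
    have h := (hN.hasFDerivAtD1 hx).comp_hasDerivAt_of_eq (0 : ℝ) hc (by simp)
    simpa using h.clm_apply (hasDerivAt_const (0 : ℝ) w)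
  refine ge_of_tendsto (hasDerivAt_iff_tendsto_slope_zero.1 h1) ?_
  have hcont : ContinuousAt (fun s : ℝ => x + s • w) 0 := hc.continuousAt
  have hev : ∀ᶠ s in 𝓝[≠] (0 : ℝ), x + s • w ≠ 0 :=
    (hcont.eventually_ne (by simpa using hx)).filter_mono nhdsWithin_le_nhds
  filter_upwards [hev, self_mem_nhdsWithin] with s hs (hs0 : s ≠ 0)
  have e1 := D1_le x (x + s • w)
  have e2 := D1_le (x + s • w) x
  have e3 : D1 (x + s • w) (x + s • w) = ‖x + s • w‖ := hN.D1_self hs
  rw [map_add, map_smul, hN.D1_self hx, smul_eq_mul] at e1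
  rw [map_add, map_smul, smul_eq_mul] at e3
  simp only [zero_add, zero_smul, add_zero, smul_eq_mul]
  have h4 : 0 ≤ s * (D1 (x + s • w) w - D1 x w) := by linarith
  have h5 : s⁻¹ * (D1 (x + s • w) w - D1 x w) =
      (s⁻¹) ^ 2 * (s * (D1 (x + s • w) w - D1 x w)) := by field_simp
  rw [h5]
  positivity

end SmoothNorm

end Vale.Agent.P084
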