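import Mathlib.Analysis.Convex.StrictConvexSpace
import Mathlib.Analysis.Normed.Module.RCLike.Real
import Mathlib.Topology.MetricSpace.Lipschitz
import Mathlib.Analysis.Normed.Module.FiniteDimension

/-!
The positively homogeneous extension of an isometry between unit spheres.
-/

namespace Vale.Agent.P084

open Metric

variable {X Y : Type*} [NormedAddCommGroup X] [NormedSpace ℝ X] [NormedAddCommGroup Y]
  [NormedSpace ℝ Y]

/-- Properties of the homogeneous extension of a surjective isometry between spheres. -/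
structure IsTingley (T : X → Y) (T' : Y → X) : Prop where
  norm_map : ∀ x, ‖T x‖ = ‖x‖
  dist_map : ∀ x y, ‖x‖ = ‖y‖ → ‖T x - T y‖ = ‖x - y‖
  homog : ∀ (s : ℝ) x, 0 < s → T (s • x) = s • T x
  left : ∀ x, T' (T x) = x
  right : ∀ y, T (T' y) = y

namespace IsTingley

variable {T : X → Y} {T' : Y → X} (hT : IsTingley T T')
include hT

lemma symm : IsTingley T' T where
  norm_map y := by rw [← hT.norm_map, hT.right]
  dist_map a b h := by
    have h' : ‖T' a‖ = ‖T' b‖ := by rw [← hT.norm_map, hT.right, h, ← hT.norm_map (T' b), hT.right]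
    rw [← hT.dist_map _ _ h', hT.right, hT.right]
  homog s y hs := by
    conv_lhs => rw [← hT.right y, ← hT.homog s _ hs, hT.left]
  left := hT.right
  right := hT.left

lemma map_ne_zero {x : X} (hx : x ≠ 0) : T x ≠ 0 := by
  rw [← norm_ne_zero_iff, hT.norm_map]
  exact norm_ne_zero_iff.2 hx

lemma map_zero : T 0 = 0 := by
  rw [← norm_eq_zero, hT.norm_map, norm_zero]

lemma odd [StrictConvexSpace ℝ X] (x : X) : T (-x) = -T x := by
  have h1 : ‖T' (-T x)‖ = ‖x‖ := by rw [hT.symm.norm_map, norm_neg, hT.norm_map]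
  set z := T' (-T x) with hz
  have h2 : ‖x - z‖ = ‖x‖ + ‖-z‖ := by
    rw [← hT.dist_map x z h1.symm, hz, hT.right, sub_neg_eq_add, ← two_smul ℝ, norm_smul,
      hT.norm_map, ← hz, norm_neg, h1]
    norm_num
    ring
  have h3 : x = -z := by
    refine (sameRay_iff_of_norm_eq (by rw [norm_neg, h1])).1 (sameRay_iff_norm_add.2 ?_)
    rw [← sub_eq_add_neg]
    exact h2
  rw [h3, neg_neg, hz, hT.right, ← h3]

lemma add_map [StrictConvexSpace ℝ X] (x y : X) (h : ‖x‖ = ‖y‖) : ‖T x + T y‖ = ‖x + y‖ := by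
  have := hT.dist_map x (-y) (by rw [norm_neg, h])
  rwa [hT.odd, sub_neg_eq_add, sub_neg_eq_add] at this

lemma strictConvex [StrictConvexSpace ℝ X] : StrictConvexSpace ℝ Y := by
  refine StrictConvexSpace.of_norm_add_ne_two fun a b ha hb hab h => hab ?_
  have ha' : ‖T' a‖ = 1 := by rw [hT.symm.norm_map, ha]
  have hb' : ‖T' b‖ = 1 := by rw [hT.symm.norm_map, hb]
  have h2 := hT.add_map (T' a) (T' b) (ha'.trans hb'.symm)
  rw [hT.right, hT.right, h] at h2
  have h3 : T' a = T' b := (sameRay_iff_of_norm_eq (ha'.trans hb'.symm)).1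
    (sameRay_iff_norm_add.2 (by rw [← h2, ha', hb']; norm_num))
  rw [← hT.right a, ← hT.right b, h3]

lemma lipschitz : LipschitzWith 3 T := by
  refine LipschitzWith.of_dist_le_mul fun x y => ?_
  simp only [dist_eq_norm, NNReal.coe_ofNat]
  rcases eq_or_ne y 0 with rfl | hy
  · rw [hT.map_zero, sub_zero, sub_zero, hT.norm_map]
    nlinarith [norm_nonneg x]
  rcases eq_or_ne x 0 with rfl | hx
  · rw [hT.map_zero, zero_sub, zero_sub, norm_neg, norm_neg, hT.norm_map]
    nlinarith [norm_nonneg y]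
  set s := ‖x‖ / ‖y‖ with hs
  have hy0 : 0 < ‖y‖ := norm_pos_iff.2 hy
  have hs0 : 0 < s := div_pos (norm_pos_iff.2 hx) hy0
  have hn : ‖x‖ = ‖s • y‖ := by
    rw [norm_smul, Real.norm_of_nonneg hs0.le, hs, div_mul_cancel₀ _ hy0.ne']
  have key : |s - 1| * ‖y‖ = |‖x‖ - ‖y‖| := by
    rw [hs, div_sub_one hy0.ne', abs_div, abs_of_pos hy0, div_mul_cancel₀ _ hy0.ne']
  have keyY : ‖s • T y - T y‖ = |‖x‖ - ‖y‖| := by
    rw [show s • T y - T y = (s - 1) • T y by rw [sub_smul, one_smul], norm_smul, Real.norm_eq_abs,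
      hT.norm_map, key]
  have keyX : ‖s • y - y‖ = |‖x‖ - ‖y‖| := by
    rw [show s • y - y = (s - 1) • y by rw [sub_smul, one_smul], norm_smul, Real.norm_eq_abs, key]
  have h1 := norm_sub_le_norm_sub_add_norm_sub (T x) (T (s • y)) (T y)
  rw [hT.dist_map x _ hn, hT.homog s y hs0, keyY] at h1
  have h2 := norm_sub_le_norm_sub_add_norm_sub x y (s • y)
  rw [norm_sub_rev y, keyX] at h2
  have h3 := abs_norm_sub_norm_le x y
  linarith

lemma finiteDimensional [FiniteDimensional ℝ X] : FiniteDimensional ℝ Y := by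
  have : ProperSpace X := FiniteDimensional.proper ℝ X
  have hsub : closedBall (0 : Y) 1 = T '' closedBall (0 : X) 1 := by
    ext y
    constructor
    · intro hy
      exact ⟨T' y, by simpa [hT.symm.norm_map] using hy, hT.right y⟩
    · rintro ⟨x, hx, rfl⟩
      simpa [hT.norm_map] using hx
  exact FiniteDimensional.of_isCompact_closedBall₀ ℝ one_pos
    (hsub ▸ (isCompact_closedBall _ _).image hT.lipschitz.continuous)

end IsTingley

/-- Every surjective isometry between unit spheres gives such an extension. -/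
lemma exists_isTingley (f : sphere (0 : X) 1 → sphere (0 : Y) 1) (hf : Isometry f)
    (hs : Function.Surjective f) :
    ∃ T : X → Y, ∃ T' : Y → X, IsTingley T T' ∧ ∀ x : sphere (0 : X) 1, T x = (f x : Y) := by
  classical
  let e : sphere (0 : X) 1 ≃ sphere (0 : Y) 1 := Equiv.ofBijective f ⟨hf.injective, hs⟩
  have nrm : ∀ x : X, x ≠ 0 → ‖x‖⁻¹ • x ∈ sphere (0 : X) 1 := fun x hx => by simp [norm_smul, hx]
  have nrm' : ∀ y : Y, y ≠ 0 → ‖y‖⁻¹ • y ∈ sphere (0 : Y) 1 := fun y hy => by simp [norm_smul, hy]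
  let T : X → Y := fun x => if hx : x = 0 then 0 else ‖x‖ • (e ⟨_, nrm x hx⟩ : Y)
  let T' : Y → X := fun y => if hy : y = 0 then 0 else ‖y‖ • (e.symm ⟨_, nrm' y hy⟩ : X)
  have hT0 : ∀ x, ‖T x‖ = ‖x‖ := by
    intro x
    by_cases hx : x = 0
    · simp [T, hx]
    · simp [T, hx, norm_smul]
  have hmain : ∀ x, ∀ hx : x ≠ 0, T x = ‖x‖ • (e ⟨_, nrm x hx⟩ : Y) := fun x hx => by simp [T, hx]
  have hmain' : ∀ y, ∀ hy : y ≠ 0, T' y = ‖y‖ • (e.symm ⟨_, nrm' y hy⟩ : X) :=
    fun y hy => by simp [T', hy]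
  have hunit : ∀ (s : ℝ) (x : sphere (0 : X) 1), 0 < s → T (s • (x : X)) = s • (e x : Y) := by
    intro s x hs'
    have hx : ‖(x : X)‖ = 1 := mem_sphere_zero_iff_norm.1 x.2
    have hn : ‖s • (x : X)‖ = s := by rw [norm_smul, hx, Real.norm_of_nonneg hs'.le, mul_one]
    have hne : s • (x : X) ≠ 0 := norm_ne_zero_iff.1 (by rw [hn]; exact hs'.ne')
    have hx' : (⟨_, nrm _ hne⟩ : sphere (0 : X) 1) = x :=
      Subtype.ext (show ‖s • (x : X)‖⁻¹ • s • (x : X) = x by
        rw [hn, smul_smul, inv_mul_cancel₀ hs'.ne', one_smul])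
    rw [hmain _ hne, hx', hn]
  have hpol : ∀ x : X, x ≠ 0 → ∃ u : sphere (0 : X) 1, x = ‖x‖ • (u : X) := fun x hx =>
    ⟨⟨_, nrm x hx⟩, (smul_inv_smul₀ (norm_ne_zero_iff.2 hx) x).symm⟩
  refine ⟨T, T', ⟨hT0, ?_, ?_, ?_, ?_⟩, fun x => ?_⟩
  · intro x y h
    rcases eq_or_ne x 0 with hx | hx
    · have hy : y = 0 := by simpa [hx] using h.symm
      simp [hx, hy]
    have hy : y ≠ 0 := by rw [← norm_ne_zero_iff, ← h]; exact norm_ne_zero_iff.2 hx
    obtain ⟨u, hu⟩ := hpol x hx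
    obtain ⟨v, hv⟩ := hpol y hy
    rw [← h] at hv
    have hr : 0 < ‖x‖ := norm_pos_iff.2 hx
    have hd : ‖(e u : Y) - e v‖ = ‖(u : X) - v‖ := by
      rw [← dist_eq_norm, ← dist_eq_norm]
      exact hf.dist_eq u v
    generalize hrr : ‖x‖ = r at hu hv hr
    rw [hu, hv, hunit r u hr, hunit r v hr, ← smul_sub, ← smul_sub, norm_smul, norm_smul, hd]
  · intro s x hs'
    rcases eq_or_ne x 0 with hx | hx
    · simp [hx, T]
    obtain ⟨u, hu⟩ := hpol x hx
    have hr : 0 < ‖x‖ := norm_pos_iff.2 hx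
    generalize hrr : ‖x‖ = r at hu hr
    rw [hu, smul_smul, hunit _ u (mul_pos hs' hr), hunit r u hr, smul_smul]
  · intro x
    rcases eq_or_ne x 0 with hx | hx
    · simp [hx, T, T']
    have hTx : T x ≠ 0 := by rw [← norm_ne_zero_iff, hT0]; exact norm_ne_zero_iff.2 hx
    have h' : (⟨_, nrm' (T x) hTx⟩ : sphere (0 : Y) 1) = e ⟨_, nrm x hx⟩ :=
      Subtype.ext (show ‖T x‖⁻¹ • T x = _ by
        rw [hT0, hmain x hx, smul_smul, inv_mul_cancel₀ (norm_ne_zero_iff.2 hx), one_smul])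
    rw [hmain' _ hTx, h', e.symm_apply_apply, hT0]
    exact smul_inv_smul₀ (norm_ne_zero_iff.2 hx) x
  · intro y
    rcases eq_or_ne y 0 with hy | hy
    · simp [hy, T, T']
    rw [hmain' y hy, hunit _ _ (norm_pos_iff.2 hy), e.apply_symm_apply]
    exact smul_inv_smul₀ (norm_ne_zero_iff.2 hy) y
  · have := hunit 1 x one_pos
    rw [one_smul, one_smul] at this
    exact this

end Vale.Agent.P084
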