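import Mathlib.Topology.MetricSpace.Sequences
import Mathlib.Analysis.Calculus.Rademacher
import Mathlib.Analysis.Calculus.LineDeriv.Basic
import Mathlib.Analysis.Normed.Module.HahnBanach
import Mathlib.Analysis.Calculus.LocalExtr.Basic
import Mathlib.Analysis.Calculus.ContDiff.Defs
import Vale.Agent.P084.Basic
import Vale.Agent.P084.Map

/-!
If the sphere of a normed space is isometric to a smooth strictly convex sphere,
then its norm is continuously differentiable away from the origin.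
-/

namespace Vale.Agent.P084

open Filter Topology Metric

variable {X Y : Type*} [NormedAddCommGroup X] [NormedSpace ℝ X] [NormedAddCommGroup Y]
  [NormedSpace ℝ Y]

/-- A norming covector is the derivative of the norm, at a point of differentiability. -/
lemma eq_D1_of_norming {p : Y} (h : DifferentiableAt ℝ (fun z : Y => ‖z‖) p) {η : Y →L[ℝ] ℝ}
    (hη : ‖η‖ ≤ 1) (hp : η p = ‖p‖) : η = D1 p := by
  have hmin : IsLocalMin (fun z : Y => ‖z‖ - η z) p := Eventually.of_forall fun z => by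
    show ‖p‖ - η p ≤ ‖z‖ - η z
    rw [hp, sub_self, sub_nonneg]
    exact (le_abs_self _).trans ((ContinuousLinearMap.le_opNorm η z).trans
      (mul_le_of_le_one_left (norm_nonneg z) hη))
  exact (sub_eq_zero.1 (hmin.hasFDerivAt_eq_zero (h.hasFDerivAt.sub η.hasFDerivAt))).symm

namespace IsTingley

variable {T : X → Y} {T' : Y → X} (hT : IsTingley T T')
include hT

/-- One-sided directional derivatives vanish on the kernel of a supporting covector. -/
lemma tendsto_slope_kernel [FiniteDimensional ℝ X] [StrictConvexSpace ℝ X]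
    (hX : ∀ z : X, z ≠ 0 → DifferentiableAt ℝ (fun a : X => ‖a‖) z) {p : Y} (hp : p ≠ 0)
    {ξ : Y →L[ℝ] ℝ} (hξ : ‖ξ‖ ≤ 1) (hξp : ξ p = ‖p‖) {u : Y} (hu : ξ u = 0) :
    Tendsto (fun t : ℝ => (‖p + t • u‖ - ‖p‖) / t) (𝓝[>] 0) (𝓝 0) := by
  have : FiniteDimensional ℝ Y := hT.finiteDimensional
  have : StrictConvexSpace ℝ Y := hT.strictConvex
  have hle : ∀ z, ξ z ≤ ‖z‖ := fun z => (le_abs_self _).trans
    ((ContinuousLinearMap.le_opNorm ξ z).trans (mul_le_of_le_one_left (norm_nonneg z) hξ))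
  set r := ‖p‖ with hr
  have hr0 : 0 < r := norm_pos_iff.2 hp
  refine (isCompact_Icc (a := 0) (b := ‖u‖)).tendsto_nhds_of_unique_mapClusterPt ?_ ?_
  · filter_upwards [self_mem_nhdsWithin] with t (ht : 0 < t)
    constructor
    · refine div_nonneg ?_ ht.le
      have := hle (p + t • u)
      rw [map_add, map_smul, hu, smul_zero, add_zero, hξp] at this
      linarith
    · rw [div_le_iff₀ ht]
      have := norm_add_le p (t • u)
      rw [norm_smul, Real.norm_of_nonneg ht.le, ← hr] at this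
      linarith
  intro d hd hcl
  obtain ⟨t, hlim, htt⟩ := hcl.exists_seq_tendsto
  obtain ⟨ht0, htpos⟩ := tendsto_nhdsWithin_iff.1 htt
  let g : ℕ → ℝ := fun n => (‖p + t n • u‖ - r) / t n
  have hg : Tendsto g atTop (𝓝 d) := hlim
  set w := u - (d / r) • p with hw
  have hN : Tendsto (fun n => ‖p + t n • u‖) atTop (𝓝 r) := by
    have := ((tendsto_const_nhds (x := p)).add (ht0.smul (tendsto_const_nhds (x := u)))).norm
    simpa [← hr] using this
  let q : ℕ → Y := fun n => (r / ‖p + t n • u‖) • (p + t n • u)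
  have hpos : ∀ n, 0 < ‖p + t n • u‖ := fun n => by
    have := hle (p + t n • u)
    rw [map_add, map_smul, hu, smul_zero, add_zero, hξp] at this
    linarith
  have hqn : ∀ n, ‖q n‖ = r := fun n => by
    rw [norm_smul, Real.norm_of_nonneg (div_nonneg hr0.le (hpos n).le),
      div_mul_cancel₀ _ (hpos n).ne']
  have hqw : Tendsto (fun n => (t n)⁻¹ • (q n - p)) atTop (𝓝 w) := by
    have h1 := ((tendsto_const_nhds (x := r)).div hN hr0.ne').smul (tendsto_const_nhds (x := u))
    have h2 := (hg.div hN hr0.ne').smul (tendsto_const_nhds (x := p))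
    have h3 := h1.sub h2
    rw [div_self hr0.ne', one_smul, ← hw] at h3
    refine h3.congr' ?_
    filter_upwards [htpos] with n (hn : 0 < t n)
    have hgn : g n / ‖p + t n • u‖ = (t n)⁻¹ * (1 - r / ‖p + t n • u‖) := by
      show (‖p + t n • u‖ - r) / t n / ‖p + t n • u‖ = _
      field_simp [(hpos n).ne']
    show (r / ‖p + t n • u‖) • u - (g n / ‖p + t n • u‖) • p = _
    rw [hgn]
    simp only [q, smul_sub, smul_add, smul_smul]
    rw [show (t n)⁻¹ * (r / ‖p + t n • u‖ * t n) = r / ‖p + t n • u‖ by field_simp]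
    module
  set x := T' p with hx
  have hxn : ‖x‖ = r := hT.symm.norm_map p
  have hx0 : x ≠ 0 := norm_ne_zero_iff.1 (by rw [hxn]; exact hr0.ne')
  let e : ℕ → X := fun n => (t n)⁻¹ • (T' (q n) - x)
  have hen : Tendsto (fun n => ‖e n‖) atTop (𝓝 ‖w‖) := hqw.norm.congr fun n => by
    rw [norm_smul, norm_smul, hx, hT.symm.dist_map (q n) p (hqn n)]
  have : ProperSpace X := FiniteDimensional.proper ℝ X
  have : ProperSpace Y := FiniteDimensional.proper ℝ Y
  obtain ⟨v, -, φ, hφ, hev⟩ := tendsto_subseq_of_frequently_bounded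
    (isBounded_closedBall (x := (0 : X)) (r := ‖w‖ + 1))
    ((hen.eventually (eventually_le_nhds (lt_add_one ‖w‖))).mono fun n hn =>
      mem_closedBall_zero_iff.2 hn).frequently
  have hvn : ‖v‖ = ‖w‖ := tendsto_nhds_unique hev.norm (hen.comp hφ.tendsto_atTop)
  let τ : ℕ → ℝ := fun n => t (φ n)
  have hτ : Tendsto τ atTop (𝓝 0) := ht0.comp hφ.tendsto_atTop
  have hτpos : ∀ᶠ n in atTop, 0 < τ n := hφ.tendsto_atTop.eventually htpos
  let E : ℕ → X := fun n => e (φ n)
  have hE : Tendsto E atTop (𝓝 v) := hev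
  have hz : ∀ᶠ n in atTop, x + τ n • E n = T' (q (φ n)) := by
    filter_upwards [hτpos] with n hn
    show x + t (φ n) • ((t (φ n))⁻¹ • (T' (q (φ n)) - x)) = _
    rw [smul_inv_smul₀ (ne_of_gt (show 0 < t (φ n) from hn)), add_sub_cancel]
  -- the limit direction is tangent
  have hd1 : Tendsto (fun n => τ n • E n) atTop (𝓝 0) := by simpa using hτ.smul hE
  have hcd : Tendsto (fun n => (τ n)⁻¹ • (τ n • E n)) atTop (𝓝 v) :=
    hE.congr' (hτpos.mono fun n hn => (inv_smul_smul₀ hn.ne' _).symm)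
  have hθv : fderiv ℝ (fun a : X => ‖a‖) x v = 0 := by
    refine tendsto_nhds_unique ((hX x hx0).hasFDerivAt.hasFDerivWithinAt.lim hd1
      (Eventually.of_forall fun _ => Set.mem_univ _) hcd) (tendsto_const_nhds.congr' ?_)
    filter_upwards [hz] with n hn
    rw [hn, hT.symm.norm_map, hqn, hxn, sub_self, smul_zero]
  -- the reflected sequence
  let ν : X → X := fun y => (r / ‖y‖) • y
  have hν : HasFDerivAt ν _ x :=
    (((hasFDerivAt_inv (norm_ne_zero_iff.2 hx0)).comp x (hX x hx0).hasFDerivAt).const_mul r).smul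
      (hasFDerivAt_id x)
  have hd2 : Tendsto (fun n => -(τ n • E n)) atTop (𝓝 0) := by simpa using hd1.neg
  have hcd2 : Tendsto (fun n => (τ n)⁻¹ • -(τ n • E n)) atTop (𝓝 (-v)) :=
    hcd.neg.congr fun n => (smul_neg _ _).symm
  have hlim2 := hν.hasFDerivWithinAt.lim hd2 (Eventually.of_forall fun _ => Set.mem_univ _) hcd2
  have hνx : ν x = x := by simp [ν, hxn, hr0.ne']
  simp [hνx, hθv, hxn, hr0.ne', ← div_eq_mul_inv] at hlim2
  let z' : ℕ → X := fun n => ν (x + -(τ n • E n))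
  have hk : Tendsto (fun n => (τ n)⁻¹ • (z' n - x)) atTop (𝓝 (-v)) := by
    simpa [z', hνx] using hlim2
  have hz'n : ∀ᶠ n in atTop, ‖z' n‖ = r := by
    have h0 : Tendsto (fun n => x + -(τ n • E n)) atTop (𝓝 x) := by
      simpa using (tendsto_const_nhds (x := x)).add hd2
    filter_upwards [h0.eventually_ne hx0] with n hn
    rw [norm_smul, Real.norm_of_nonneg (div_nonneg hr0.le (norm_nonneg _)),
      div_mul_cancel₀ _ (norm_ne_zero_iff.2 hn)]
  -- transport it
  let k : ℕ → Y := fun n => (τ n)⁻¹ • (T (z' n) - p)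
  have hTx : T x = p := hT.right p
  have hk1 : Tendsto (fun n => ‖k n‖) atTop (𝓝 ‖w‖) := by
    rw [← hvn, ← norm_neg v]
    refine hk.norm.congr' ?_
    filter_upwards [hz'n] with n hn
    rw [norm_smul, norm_smul, ← hTx, hT.dist_map _ _ (hn.trans hxn.symm)]
  have hk2 : Tendsto (fun n => ‖k n - (τ n)⁻¹ • (q (φ n) - p)‖) atTop (𝓝 (2 * ‖w‖)) := by
    have h1 := (hk.sub hcd).norm
    rw [show ‖-v - v‖ = 2 * ‖w‖ by
      rw [← neg_add', norm_neg, ← two_smul ℝ, norm_smul, hvn]; norm_num] at h1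
    refine h1.congr' ?_
    filter_upwards [hz'n, hz] with n hn hn'
    rw [← smul_sub, ← smul_sub, norm_smul, norm_smul, sub_sub, show x + τ n • E n = T' (q (φ n))
      from hn', sub_sub_sub_cancel_right]
    conv_rhs => rw [← hT.right (q (φ n))]
    rw [hT.dist_map _ _ (hn.trans (by rw [hT.symm.norm_map, hqn]))]
  obtain ⟨w', -, ψ, hψ, hkw⟩ := tendsto_subseq_of_frequently_bounded
    (isBounded_closedBall (x := (0 : Y)) (r := ‖w‖ + 1))
    ((hk1.eventually (eventually_le_nhds (lt_add_one ‖w‖))).mono fun n hn =>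
      mem_closedBall_zero_iff.2 hn).frequently
  have hw'n : ‖w'‖ = ‖w‖ := tendsto_nhds_unique hkw.norm (hk1.comp hψ.tendsto_atTop)
  have hw'w : ‖w' - w‖ = 2 * ‖w‖ := tendsto_nhds_unique
    (hkw.sub ((hqw.comp hφ.tendsto_atTop).comp hψ.tendsto_atTop)).norm
    (hk2.comp hψ.tendsto_atTop)
  have hneg : w' = -w := by
    refine (sameRay_iff_of_norm_eq (by rw [norm_neg, hw'n])).1 (sameRay_iff_norm_add.2 ?_)
    rw [← sub_eq_add_neg, hw'w, hw'n, norm_neg, two_mul]
  have hnonpos : ξ w' ≤ 0 := by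
    refine le_of_tendsto ((ξ.continuous.tendsto w').comp hkw) ?_
    filter_upwards [hψ.tendsto_atTop.eventually hτpos, hψ.tendsto_atTop.eventually hz'n]
      with n hn hn'
    show ξ ((τ (ψ n))⁻¹ • (T (z' (ψ n)) - p)) ≤ 0
    rw [map_smul, map_sub, hξp]
    have h1 := hle (T (z' (ψ n)))
    rw [hT.norm_map, hn'] at h1
    exact mul_nonpos_of_nonneg_of_nonpos (inv_nonneg.2 hn.le) (by linarith)
  rw [hneg, map_neg, hw, map_sub, map_smul, hu, hξp, smul_eq_mul,
    div_mul_cancel₀ _ hr0.ne', zero_sub, neg_neg] at hnonpos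
  exact le_antisymm hnonpos hd.1

/-- The target norm is differentiable away from the origin. -/
theorem hasFDerivAt_norm [FiniteDimensional ℝ X] [StrictConvexSpace ℝ X]
    (hX : ∀ z : X, z ≠ 0 → DifferentiableAt ℝ (fun a : X => ‖a‖) z) {p : Y} (hp : p ≠ 0)
    {ξ : Y →L[ℝ] ℝ} (hξ : ‖ξ‖ ≤ 1) (hξp : ξ p = ‖p‖) :
    HasFDerivAt (fun z : Y => ‖z‖) ξ p := by
  have : FiniteDimensional ℝ Y := hT.finiteDimensional
  have hr0 : 0 < ‖p‖ := norm_pos_iff.2 hp
  have hker : ∀ u : Y, ξ u = 0 → HasDerivAt (fun t : ℝ => ‖p + t • u‖) 0 0 := by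
    intro u hu
    rw [hasDerivAt_iff_tendsto_slope_zero, ← nhdsLT_sup_nhdsGT, tendsto_sup]
    simp only [zero_add, zero_smul, add_zero, smul_eq_mul]
    refine ⟨?_, (hT.tendsto_slope_kernel hX hp hξ hξp hu).congr fun t => by
      rw [div_eq_inv_mul]⟩
    have hneg : Tendsto (fun t : ℝ => -t) (𝓝[<] 0) (𝓝[>] 0) := by
      have h : Tendsto (fun t : ℝ => -t) (𝓝[<] 0) (𝓝[>] (-0)) := tendsto_neg_nhdsLT
      rwa [neg_zero] at h
    have h1 := ((hT.tendsto_slope_kernel hX hp hξ hξp (u := -u)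
      (by rw [map_neg, hu, neg_zero])).comp hneg).neg
    rw [neg_zero] at h1
    refine h1.congr fun t => ?_
    simp only [Function.comp_apply, neg_smul_neg, div_neg, neg_neg]
    rw [div_eq_inv_mul]
  refine LipschitzWith.hasFDerivAt_of_hasLineDerivAt_of_closure lipschitzWith_one_norm (s := Set.univ)
    (by simp) fun u _ => ?_
  set s := ξ u / ‖p‖ with hs
  have hu0 : ξ (u - s • p) = 0 := by
    rw [map_sub, map_smul, hξp, hs, smul_eq_mul, div_mul_cancel₀ _ hr0.ne', sub_self]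
  have ha : HasDerivAt (fun t : ℝ => 1 + t * s) s 0 := by
    simpa using ((hasDerivAt_id (0 : ℝ)).mul_const s).const_add 1
  have hb : HasDerivAt (fun t : ℝ => t / (1 + t * s)) 1 0 := by
    simpa using (hasDerivAt_id (0 : ℝ)).fun_div ha (by norm_num)
  have hc : HasDerivAt (fun t : ℝ => ‖p + (t / (1 + t * s)) • (u - s • p)‖) 0 0 := by
    simpa [Function.comp_def] using
      (hker _ hu0).comp_of_eq (0 : ℝ) hb (by norm_num)
  have hd := ha.mul hc
  simp [hs, div_mul_cancel₀ _ hr0.ne'] at hd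
  show HasDerivAt (fun t : ℝ => ‖p + t • u‖) (ξ u) 0
  refine hd.congr_of_eventuallyEq ?_
  filter_upwards [ha.continuousAt.eventually (lt_mem_nhds (show (0 : ℝ) < 1 + 0 * s by norm_num))]
    with t ht
  have h1 : p + t • u = (1 + t * s) • (p + (t / (1 + t * s)) • (u - s • p)) := by
    rw [smul_add, smul_smul, mul_div_cancel₀ _ (ne_of_gt ht)]
    module
  show ‖p + t • u‖ = _
  rw [h1, norm_smul, Real.norm_of_nonneg (le_of_lt ht)]
  rfl

/-- The target norm is continuously differentiable away from the origin. -/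
theorem contDiffAt_one_norm [FiniteDimensional ℝ X] [StrictConvexSpace ℝ X]
    (hX : ∀ z : X, z ≠ 0 → DifferentiableAt ℝ (fun a : X => ‖a‖) z) {p : Y} (hp : p ≠ 0) :
    ContDiffAt ℝ 1 (fun z : Y => ‖z‖) p := by
  have : FiniteDimensional ℝ Y := hT.finiteDimensional
  have hd : ∀ z : Y, z ≠ 0 → DifferentiableAt ℝ (fun a : Y => ‖a‖) z := fun z hz => by
    obtain ⟨η, hη, hηz⟩ := exists_dual_vector'' ℝ z
    exact (hT.hasFDerivAt_norm hX hz hη (by simpa using hηz)).differentiableAt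
  rw [contDiffAt_one_iff]
  refine ⟨D1, {0}ᶜ, isOpen_compl_singleton.mem_nhds hp, fun z hz => ContinuousAt.continuousWithinAt ?_,
    fun z hz => (hd z hz).hasFDerivAt⟩
  have hz0 : z ≠ 0 := hz
  have hbound : ∀ a : Y, ‖D1 a‖ ≤ 1 := fun a => by
    simpa using norm_fderiv_le_of_lipschitz ℝ (lipschitzWith_one_norm (E := Y)) (x₀ := a)
  have : ProperSpace (Y →L[ℝ] ℝ) := FiniteDimensional.proper ℝ _
  refine (isCompact_closedBall (0 : Y →L[ℝ] ℝ) 1).tendsto_nhds_of_unique_mapClusterPt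
    (Eventually.of_forall fun a => mem_closedBall_zero_iff.2 (hbound a)) fun η hη hcl => ?_
  obtain ⟨a, hlim, ha⟩ := hcl.exists_seq_tendsto
  refine eq_D1_of_norming (hd z hz0) (mem_closedBall_zero_iff.1 hη) ?_
  have h1 : Tendsto (fun n => D1 (a n) (a n)) atTop (𝓝 (η z)) :=
    (isBoundedBilinearMap_apply.continuous.tendsto (η, z)).comp (hlim.prodMk_nhds ha)
  refine tendsto_nhds_unique h1 (ha.norm.congr' ?_)
  filter_upwards [ha.eventually_ne hz0] with n hn
  exact ((hd _ hn).fderiv_norm_self).symm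

end IsTingley

end Vale.Agent.P084
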