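import Mathlib.Analysis.Calculus.Rademacher
import Mathlib.Topology.MetricSpace.HausdorffDimension
import Mathlib.Topology.MetricSpace.Sequences
import Mathlib.MeasureTheory.Integral.Lebesgue.Add
import Mathlib.MeasureTheory.Measure.MeasureSpace
import Vale.Agent.P084.Average
import Vale.Agent.P084.Differentiable
import Vale.Agent.P084.Antipodal

/-!
Blow-up of second differences at a point: the chord covectors see a single vector.
-/

namespace Vale.Agent.P084

open Filter Topology Metric MeasureTheory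
open scoped ENNReal

section General

variable {E : Type*} [NormedAddCommGroup E] [NormedSpace ℝ E]

/-- Near a point of differentiability all norming covectors are close to the derivative. -/
lemma norming_close [FiniteDimensional ℝ E] {z : E}
    (hz : DifferentiableAt ℝ (fun a : E => ‖a‖) z) {ε : ℝ} (hε : 0 < ε) :
    ∀ᶠ w in 𝓝 z, ∀ η : E →L[ℝ] ℝ, ‖η‖ ≤ 1 → η w = ‖w‖ → ‖η - D1 z‖ ≤ ε := by
  by_contra hcon
  rw [not_eventually] at hcon
  obtain ⟨w, hw, hbad⟩ := exists_seq_forall_of_frequently hcon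
  push Not at hbad
  choose η hη1 hη2 hη3 using hbad
  have : ProperSpace (E →L[ℝ] ℝ) := FiniteDimensional.proper ℝ _
  obtain ⟨l, hl, φ, hφ, hlim⟩ := tendsto_subseq_of_frequently_bounded
    (isBounded_closedBall (x := (0 : E →L[ℝ] ℝ)) (r := 1))
    (Frequently.of_forall fun n => mem_closedBall_zero_iff.2 (hη1 n))
  rw [closure_closedBall, mem_closedBall_zero_iff] at hl
  have h1 : l z = ‖z‖ := by
    refine tendsto_nhds_unique ((isBoundedBilinearMap_apply.continuous.tendsto (l, z)).comp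
      (hlim.prodMk_nhds (hw.comp hφ.tendsto_atTop))) ?_
    exact ((hw.comp hφ.tendsto_atTop).norm).congr fun n => (hη2 (φ n)).symm
  have h2 : l = D1 z := eq_D1_of_norming hz hl h1
  have h3 : ε ≤ ‖l - D1 z‖ := ge_of_tendsto
    ((hlim.sub tendsto_const_nhds).norm) (Eventually.of_forall fun n => (hη3 (φ n)).le)
  rw [h2, sub_self, norm_zero] at h3
  linarith

/-- A norm is strictly differentiable at a point of differentiability. -/
lemma strict_norm_diff [FiniteDimensional ℝ E] {z : E}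
    (hz : DifferentiableAt ℝ (fun a : E => ‖a‖) z) {ε : ℝ} (hε : 0 < ε) :
    ∃ δ > 0, ∀ w m : E, w ∈ ball z δ → w + m ∈ ball z δ →
      |‖w + m‖ - ‖w‖ - D1 z m| ≤ ε * ‖m‖ := by
  obtain ⟨δ, hδ, hclose⟩ := Metric.eventually_nhds_iff.1 (norming_close hz hε)
  refine ⟨δ, hδ, fun w m hw hwm => ?_⟩
  obtain ⟨η, hη, hηw⟩ := exists_dual_vector'' ℝ w
  obtain ⟨η', hη', hηw'⟩ := exists_dual_vector'' ℝ (w + m)
  simp only [RCLike.ofReal_real_eq_id, id_eq] at hηw hηw'
  have d1 := abs_le.1 (show |(η - D1 z) m| ≤ ε * ‖m‖ from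
    ((η - D1 z).le_opNorm m).trans
      (mul_le_mul_of_nonneg_right (hclose (mem_ball.1 hw) η hη hηw) (norm_nonneg m)))
  have d2 := abs_le.1 (show |(η' - D1 z) m| ≤ ε * ‖m‖ from
    ((η' - D1 z).le_opNorm m).trans
      (mul_le_mul_of_nonneg_right (hclose (mem_ball.1 hwm) η' hη' hηw') (norm_nonneg m)))
  rw [sub_apply] at d1 d2
  have l1 : η (w + m) ≤ ‖w + m‖ := (le_abs_self _).trans
    ((η.le_opNorm _).trans (mul_le_of_le_one_left (norm_nonneg _) hη))
  have l2 : η' w ≤ ‖w‖ := (le_abs_self _).trans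
    ((η'.le_opNorm _).trans (mul_le_of_le_one_left (norm_nonneg _) hη'))
  rw [map_add] at l1 hηw'
  rw [abs_le]
  constructor <;> linarith

/-- The scaled chord vector. -/
noncomputable def chord (a y : E) : E := ‖y‖ • a - ‖a‖ • y

lemma continuous_chord (a : E) : Continuous (chord a) := by
  unfold chord
  fun_prop

lemma continuous_chord_left (y : E) : Continuous fun a : E => chord a y := by
  unfold chord
  fun_prop

lemma chord_sub (a a' y : E) :
    chord a' y - chord a y = ‖y‖ • (a' - a) - (‖a'‖ - ‖a‖) • y := by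
  unfold chord
  module

lemma norm_chord_le (a y : E) : ‖chord a y‖ ≤ 2 * (‖y‖ * ‖a‖) := by
  refine (norm_sub_le _ _).trans (le_of_eq ?_)
  rw [norm_smul, norm_smul, Real.norm_of_nonneg (norm_nonneg y), Real.norm_of_nonneg (norm_nonneg a)]
  ring

/-- Norming covectors. -/
def Norming (φ : E →L[ℝ] ℝ) (x : E) : Prop := ‖φ‖ ≤ 1 ∧ φ x = ‖x‖

lemma Norming.le {φ : E →L[ℝ] ℝ} {x : E} (h : Norming φ x) (z : E) : φ z ≤ ‖z‖ :=
  (le_abs_self _).trans ((φ.le_opNorm z).trans (mul_le_of_le_one_left (norm_nonneg z) h.1))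

lemma exists_norming (x : E) : ∃ φ, Norming φ x :=
  let ⟨φ, h1, h2⟩ := exists_dual_vector'' ℝ x
  ⟨φ, h1, by simpa using h2⟩

/-- `y` and `a` do not lie in a common face, up to scaling. -/
def Off (a y : E) : Prop := ‖‖y‖ • a + ‖a‖ • y‖ < 2 * (‖a‖ * ‖y‖)

lemma isOpen_off (a : E) : IsOpen {y : E | Off a y} := isOpen_lt (by fun_prop) (by fun_prop)

lemma Off.left_ne {a y : E} (h : Off a y) : a ≠ 0 := by
  rintro rfl
  simp [Off] at h

lemma Off.right_ne {a y : E} (h : Off a y) : y ≠ 0 := by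
  rintro rfl
  simp [Off] at h

lemma Off.chord_ne_zero {a y : E} (h : Off a y) : chord a y ≠ 0 := by
  intro h0
  have h1 := sub_eq_zero.1 h0
  unfold Off at h
  rw [← h1, ← two_smul ℝ, norm_smul, norm_smul, norm_norm, Real.norm_ofNat] at h
  nlinarith

/-- A step towards `a` shortens less than it moves. -/
lemma Off.norm_add_lt {a y : E} (h : Off a y) : ‖y + (1 / ‖a‖) • a‖ < ‖y‖ + 1 := by
  have ha : 0 < ‖a‖ := norm_pos_iff.2 h.left_ne
  have hy : 0 < ‖y‖ := norm_pos_iff.2 h.right_ne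
  set u := (1 / ‖a‖) • a with hu
  have hu1 : ‖u‖ = 1 := by
    rw [hu, norm_smul, Real.norm_of_nonneg (by positivity), one_div_mul_cancel ha.ne']
  have hsum : ‖y + ‖y‖ • u‖ < 2 * ‖y‖ := by
    have e : y + ‖y‖ • u = (1 / ‖a‖) • (‖y‖ • a + ‖a‖ • y) := by
      rw [hu, smul_add, smul_smul, smul_smul, smul_smul, one_div_mul_cancel ha.ne', one_smul,
        mul_comm ‖y‖, add_comm]
    rw [e, norm_smul, Real.norm_of_nonneg (by positivity), one_div_mul_eq_div, div_lt_iff₀ ha]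
    unfold Off at h
    linarith
  rcases le_total 1 ‖y‖ with h1 | h1
  · have e : y + u = (1 / ‖y‖) • (y + ‖y‖ • u) + (1 - 1 / ‖y‖) • y := by
      rw [smul_add, smul_smul, one_div_mul_cancel hy.ne', one_smul, sub_smul, one_smul]
      abel
    have h0 : 0 ≤ 1 - 1 / ‖y‖ := by rw [sub_nonneg, div_le_one hy]; exact h1
    rw [e]
    refine lt_of_le_of_lt (norm_add_le _ _) ?_
    rw [norm_smul, norm_smul, Real.norm_of_nonneg (by positivity), Real.norm_of_nonneg h0, sub_mul,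
      one_mul, one_div_mul_cancel hy.ne', one_div_mul_eq_div]
    have : ‖y + ‖y‖ • u‖ / ‖y‖ < 2 := by rw [div_lt_iff₀ hy]; linarith
    linarith
  · have e : y + u = (y + ‖y‖ • u) + (1 - ‖y‖) • u := by
      rw [sub_smul, one_smul]; abel
    rw [e]
    refine lt_of_le_of_lt (norm_add_le _ _) ?_
    rw [norm_smul (1 - ‖y‖), hu1, Real.norm_of_nonneg (sub_nonneg.2 h1), mul_one]
    linarith

/-- Away from the ray of `a` the chord map is anti-Lipschitz, uniformly near `a`. -/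
lemma exists_antilipschitz {a y₀ : E} (ha : a ≠ 0) (hy : Off a y₀) :
    ∃ δ > 0, ∃ c > 0, ∀ᶠ a' in 𝓝 a, ∀ y₁ ∈ ball y₀ δ, ∀ y₂ ∈ ball y₀ δ,
      c * ‖y₁ - y₂‖ ≤ ‖chord a' y₁ - chord a' y₂‖ := by
  have hr : 0 < ‖a‖ := norm_pos_iff.2 ha
  -- strictness at a fixed step
  let q : E → E → ℝ → ℝ := fun a' y s => ‖y + (s / ‖a'‖) • a'‖ - ‖y‖
  have hq0 : q a y₀ 1 < 1 := by
    have h2 := hy.norm_add_lt
    show ‖y₀ + (1 / ‖a‖) • a‖ - ‖y₀‖ < 1
    linarith
  obtain ⟨κ, hκ1, hκ2⟩ : ∃ κ, q a y₀ 1 < κ ∧ κ < 1 := exists_between hq0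
  have hcont : ContinuousAt (fun p : E × E => q p.1 p.2 1) (a, y₀) := by
    have : ContinuousAt (fun p : E × E => (1 : ℝ) / ‖p.1‖) (a, y₀) :=
      continuousAt_const.div continuousAt_fst.norm hr.ne'
    exact ((continuousAt_snd.add (this.smul continuousAt_fst)).norm).sub continuousAt_snd.norm
  have hev := hcont.eventually (eventually_lt_nhds hκ1)
  rw [nhds_prod_eq, eventually_prod_iff] at hev
  obtain ⟨pa, hpa, py, hpy, hboth⟩ := hev
  obtain ⟨δ₀, hδ₀, hδ⟩ := Metric.eventually_nhds_iff.1 hpy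
  refine ⟨min δ₀ (1 / 2), lt_min hδ₀ (by norm_num),
    ‖a‖ / 2 * (1 - κ) / (2 - κ), by
      have : 0 < 1 - κ := by linarith
      have : 0 < 2 - κ := by linarith
      positivity, ?_⟩
  filter_upwards [hpa, (continuous_norm.tendsto a).eventually
    (eventually_gt_nhds (half_lt_self hr))] with a' ha1 ha2 y₁ hy₁ y₂ hy₂
  have hr' : 0 < ‖a'‖ := lt_trans (half_pos hr) ha2
  have key : ∀ z₁ ∈ ball y₀ (min δ₀ (1 / 2)), ∀ z₂ ∈ ball y₀ (min δ₀ (1 / 2)),
      0 ≤ ‖z₂‖ - ‖z₁‖ →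
      ‖a'‖ * (1 - κ) / (2 - κ) * ‖z₁ - z₂‖ ≤ ‖chord a' z₁ - chord a' z₂‖ := by
    intro z₁ h₁ z₂ h₂ hs
    set s := ‖z₂‖ - ‖z₁‖ with hsdef
    have hs1 : s ≤ 1 := by
      have := norm_sub_norm_le z₂ z₁
      have h3 := dist_triangle_right z₂ z₁ y₀
      rw [dist_eq_norm z₂ z₁] at h3
      linarith [mem_ball.1 h₁, mem_ball.1 h₂, min_le_right δ₀ (1 / 2)]
    set e := z₂ - z₁ - (s / ‖a'‖) • a' with he
    have hce : chord a' z₁ - chord a' z₂ = ‖a'‖ • e := by
      simp only [chord, he, hsdef, smul_sub, smul_smul, mul_div_cancel₀ _ hr'.ne']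
      module
    have hconv : q a' z₁ s ≤ s * κ := by
      have hk := (hboth ha1 (hδ (lt_of_lt_of_le (mem_ball.1 h₁) (min_le_left _ _)))).le
      have h3 := norm_add_le ((1 - s) • z₁) (s • (z₁ + (1 / ‖a'‖) • a'))
      rw [norm_smul, norm_smul, Real.norm_of_nonneg (sub_nonneg.2 hs1), Real.norm_of_nonneg hs] at h3
      have e1 : (1 - s) • z₁ + s • (z₁ + (1 / ‖a'‖) • a') = z₁ + (s / ‖a'‖) • a' := by
        rw [div_eq_mul_one_div s, ← smul_smul]
        module
      rw [e1] at h3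
      have h4 := mul_le_mul_of_nonneg_left hk hs
      simp only [q] at h4 ⊢
      linarith
    have hse : s * (1 - κ) ≤ ‖e‖ := by
      have h3 : ‖z₂‖ ≤ ‖z₁ + (s / ‖a'‖) • a'‖ + ‖e‖ := by
        refine le_trans (le_of_eq ?_) (norm_add_le _ e)
        rw [he]
        congr 1
        abel
      simp only [q] at hconv
      linarith
    have hdy : ‖z₁ - z₂‖ ≤ ‖e‖ + s := by
      rw [norm_sub_rev]
      have h3 := norm_add_le e ((s / ‖a'‖) • a')
      rw [he, sub_add_cancel, norm_smul, Real.norm_of_nonneg (div_nonneg hs hr'.le),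
        div_mul_cancel₀ _ hr'.ne', ← he] at h3
      exact h3
    have hk2 : 0 < 2 - κ := by linarith
    rw [hce, norm_smul, norm_norm, mul_div_assoc, mul_assoc]
    refine mul_le_mul_of_nonneg_left ?_ hr'.le
    rw [div_mul_eq_mul_div, div_le_iff₀ hk2]
    nlinarith [mul_le_mul_of_nonneg_left hdy (show 0 ≤ 1 - κ by linarith)]
  have hfac : ‖a‖ / 2 * (1 - κ) / (2 - κ) ≤ ‖a'‖ * (1 - κ) / (2 - κ) :=
    div_le_div_of_nonneg_right (mul_le_mul_of_nonneg_right ha2.le (by linarith)) (by linarith)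
  rcases le_total 0 (‖y₂‖ - ‖y₁‖) with hle | hle
  · exact (mul_le_mul_of_nonneg_right hfac (norm_nonneg _)).trans (key y₁ hy₁ y₂ hy₂ hle)
  · refine (mul_le_mul_of_nonneg_right hfac (norm_nonneg _)).trans ?_
    rw [norm_sub_rev y₁, norm_sub_rev (chord a' y₁)]
    exact key y₂ hy₂ y₁ hy₁ (by linarith)

/-- Two displacements from nearly the same point. -/
lemma sum_expansion [FiniteDimensional ℝ E] {z : E} (hz : DifferentiableAt ℝ (fun a : E => ‖a‖) z)
    {w ep em : ℕ → E} (hw : Tendsto w atTop (𝓝 z)) (hp : Tendsto ep atTop (𝓝 0))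
    (hm : Tendsto em atTop (𝓝 0)) {ε : ℝ} (hε : 0 < ε) :
    ∀ᶠ k in atTop, |‖w k + ep k‖ + ‖w k + em k‖ - 2 * ‖w k‖ - D1 z (ep k + em k)|
      ≤ normDiff (w k) ((1 / 2 : ℝ) • (ep k - em k)) + ε * ‖ep k + em k‖ := by
  obtain ⟨δ, hδ, hstrict⟩ := strict_norm_diff hz hε
  have l1 : Tendsto (fun k => w k + (1 / 2 : ℝ) • (ep k - em k)) atTop (𝓝 z) := by
    simpa using hw.add ((hp.sub hm).const_smul (1 / 2 : ℝ))
  have l2 : Tendsto (fun k => w k - (1 / 2 : ℝ) • (ep k - em k)) atTop (𝓝 z) := by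
    simpa using hw.sub ((hp.sub hm).const_smul (1 / 2 : ℝ))
  have l3 : Tendsto (fun k => w k + ep k) atTop (𝓝 z) := by simpa using hw.add hp
  have l4 : Tendsto (fun k => w k + em k) atTop (𝓝 z) := by simpa using hw.add hm
  filter_upwards [l1.eventually (ball_mem_nhds z hδ), l2.eventually (ball_mem_nhds z hδ),
    l3.eventually (ball_mem_nhds z hδ), l4.eventually (ball_mem_nhds z hδ)] with k k1 k2 k3 k4
  set e := (1 / 2 : ℝ) • (ep k - em k) with he
  set m := (1 / 2 : ℝ) • (ep k + em k) with hm'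
  have e1 : w k + e + m = w k + ep k := by simp only [he, hm']; module
  have e2 : w k - e + m = w k + em k := by simp only [he, hm']; module
  have h1 := abs_le.1 (hstrict _ m k1 (by rw [e1]; exact k3))
  have h2 := abs_le.1 (hstrict _ m k2 (by rw [e2]; exact k4))
  rw [e1] at h1
  rw [e2] at h2
  have hsum : D1 z (ep k + em k) = 2 * D1 z m := by
    rw [hm', map_smul, smul_eq_mul]; ring
  have hnm : ‖ep k + em k‖ = 2 * ‖m‖ := by
    rw [hm', norm_smul]; norm_num; ring
  have hnd : 0 ≤ normDiff (w k) e := normDiff_nonneg _ _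
  rw [hsum, hnm]
  unfold normDiff at hnd ⊢
  rw [abs_le]
  constructor <;> linarith

end General

section Isometry

variable {X Y : Type*} [NormedAddCommGroup X] [NormedSpace ℝ X] [NormedAddCommGroup Y]
  [NormedSpace ℝ Y]

/-- A blow-up of the second differences of the norm and of `T` at `a`: normalised limits `v`
and `ρ`. -/
def BlowupData (T : X → Y) (a : X) (v : Y) (ρ : ℝ) : Prop :=
  ∃ A H : ℕ → X, Tendsto A atTop (𝓝 a) ∧ Tendsto H atTop (𝓝 0) ∧
    (∀ k, 0 < ‖T (A k + H k) + T (A k - H k) - (2 : ℝ) • T (A k)‖ + normDiff (A k) (H k)) ∧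
    Tendsto (fun k => ‖H k‖ ^ 2 /
      (‖T (A k + H k) + T (A k - H k) - (2 : ℝ) • T (A k)‖ + normDiff (A k) (H k)))
      atTop (𝓝 0) ∧
    Tendsto (fun k => (‖T (A k + H k) + T (A k - H k) - (2 : ℝ) • T (A k)‖
      + normDiff (A k) (H k))⁻¹ • (T (A k + H k) + T (A k - H k) - (2 : ℝ) • T (A k)))
      atTop (𝓝 v) ∧
    Tendsto (fun k => normDiff (A k) (H k) /
      (‖T (A k + H k) + T (A k - H k) - (2 : ℝ) • T (A k)‖ + normDiff (A k) (H k)))
      atTop (𝓝 ρ)

namespace IsTingley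

variable {T : X → Y} {T' : Y → X} (hT : IsTingley T T')
include hT

lemma norm_chord (b y : X) : ‖chord b y‖ = ‖chord (T b) (T y)‖ := by
  have key : ∀ {s : ℝ}, 0 ≤ s → ∀ z, T (s • z) = s • T z := fun hs z => by
    rcases eq_or_lt_of_le hs with h | h
    · rw [← h, zero_smul, zero_smul, hT.map_zero]
    · exact hT.homog _ z h
  show _ = ‖‖T y‖ • T b - ‖T b‖ • T y‖
  rw [hT.norm_map, hT.norm_map, ← key (norm_nonneg y) b, ← key (norm_nonneg b) y,
    hT.dist_map _ _ (by rw [norm_smul, norm_smul, norm_norm, norm_norm, mul_comm])]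
  rfl

lemma add_map_general [FiniteDimensional ℝ X] (x y : X) (h : ‖x‖ = ‖y‖) :
    ‖T x + T y‖ = ‖x + y‖ := by
  have := hT.dist_map x (-y) (by rw [norm_neg, h])
  rwa [hT.odd_general, sub_neg_eq_add, sub_neg_eq_add] at this

lemma homog' {s : ℝ} (hs : 0 ≤ s) (z : X) : T (s • z) = s • T z := by
  rcases eq_or_lt_of_le hs with h | h
  · rw [← h, zero_smul, zero_smul, hT.map_zero]
  · exact hT.homog _ z h

lemma off_map [FiniteDimensional ℝ X] {a y : X} (h : Off a y) : Off (T a) (T y) := by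
  unfold Off at h ⊢
  rw [hT.norm_map, hT.norm_map, ← hT.homog' (norm_nonneg y), ← hT.homog' (norm_nonneg a),
    hT.add_map_general _ _ (by rw [norm_smul, norm_smul, norm_norm, norm_norm, mul_comm])]
  exact h

/-- A finite-dimensional space and one with isometric sphere have the same dimension. -/
lemma finrank_eq [FiniteDimensional ℝ X] : Module.finrank ℝ X = Module.finrank ℝ Y := by
  have : FiniteDimensional ℝ Y := hT.finiteDimensional
  have h1 := hT.lipschitz.dimH_image_le Set.univ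
  have h2 := hT.symm.lipschitz.dimH_image_le Set.univ
  rw [Set.image_univ, (Function.RightInverse.surjective hT.right).range_eq,
    Real.dimH_univ_eq_finrank, Real.dimH_univ_eq_finrank] at h1
  rw [Set.image_univ, (Function.RightInverse.surjective hT.left).range_eq,
    Real.dimH_univ_eq_finrank, Real.dimH_univ_eq_finrank] at h2
  exact le_antisymm (by exact_mod_cast h2) (by exact_mod_cast h1)

/-- The equation at one chord. -/
lemma blowup_equation [FiniteDimensional ℝ X] {a y : X}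
    (hy : y ≠ 0) (ha : a ≠ 0)
    {A H : ℕ → X} (hA : Tendsto A atTop (𝓝 a)) (hH : Tendsto H atTop (𝓝 0))
    (hdX : DifferentiableAt ℝ (fun z : X => ‖z‖) (chord a y))
    (hdY : DifferentiableAt ℝ (fun z : Y => ‖z‖) (chord (T a) (T y)))
    {σ : ℕ → ℝ} (hσeq : ∀ k, σ k =
      ‖T (A k + H k) + T (A k - H k) - (2 : ℝ) • T (A k)‖ + normDiff (A k) (H k))
    (hσ : ∀ k, 0 < σ k) {v : Y} {ρ : ℝ}
    (hv : Tendsto (fun k => (σ k)⁻¹ • (T (A k + H k) + T (A k - H k) - (2 : ℝ) • T (A k)))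
      atTop (𝓝 v))
    (hρ : Tendsto (fun k => normDiff (A k) (H k) / σ k) atTop (𝓝 ρ))
    {M : ℝ} (hM : ‖y‖ ≤ M) {SX : ℕ → X → ℝ} {SY : ℕ → Y → ℝ}
    (hSX : ∀ k z e, ‖e‖ ≤ 4 * M * ‖H k‖ → normDiff z e ≤ SX k z)
    (hSY : ∀ k z e, ‖e‖ ≤ 4 * M * ‖H k‖ → normDiff z e ≤ SY k z)
    (hsmall : ∀ ε > 0, ∃ᶠ k in atTop,
      SX k (chord (A k) y) + SY k (chord (T (A k)) (T y)) ≤ ε * σ k) :
    D1 (chord (T a) (T y)) v
      + ρ * ((D1 (chord a y) a - D1 (chord (T a) (T y)) (T a)) / ‖a‖) = 0 := by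
  have : FiniteDimensional ℝ Y := hT.finiteDimensional
  set ξ := D1 (chord a y) with hξ
  set ψ := D1 (chord (T a) (T y)) with hψ
  let R : ℕ → Y := fun k => T (A k + H k) + T (A k - H k) - (2 : ℝ) • T (A k)
  let n : ℕ → ℝ := fun k => normDiff (A k) (H k)
  have hn : ∀ k, 0 ≤ n k := fun k => normDiff_nonneg _ _
  -- the four displacements
  let Pp : ℕ → X := fun k => chord (A k + H k) y - chord (A k) y
  let Pm : ℕ → X := fun k => chord (A k - H k) y - chord (A k) y
  let Qp : ℕ → Y := fun k => chord (T (A k + H k)) (T y) - chord (T (A k)) (T y)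
  let Qm : ℕ → Y := fun k => chord (T (A k - H k)) (T y) - chord (T (A k)) (T y)
  have hTc := hT.lipschitz.continuous
  have hAp : Tendsto (fun k => A k + H k) atTop (𝓝 a) := by simpa using hA.add hH
  have hAm : Tendsto (fun k => A k - H k) atTop (𝓝 a) := by simpa using hA.sub hH
  have cX := (continuous_chord_left y).tendsto a
  have cY := ((continuous_chord_left (T y)).comp hTc).tendsto a
  have hwX : Tendsto (fun k => chord (A k) y) atTop (𝓝 (chord a y)) := cX.comp hA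
  have hwY : Tendsto (fun k => chord (T (A k)) (T y)) atTop (𝓝 (chord (T a) (T y))) :=
    cY.comp hA
  have hPp : Tendsto Pp atTop (𝓝 0) := by simpa using (cX.comp hAp).sub (cX.comp hA)
  have hPm : Tendsto Pm atTop (𝓝 0) := by simpa using (cX.comp hAm).sub (cX.comp hA)
  have hQp : Tendsto Qp atTop (𝓝 0) := by simpa using (cY.comp hAp).sub (cY.comp hA)
  have hQm : Tendsto Qm atTop (𝓝 0) := by simpa using (cY.comp hAm).sub (cY.comp hA)
  have hPsum : ∀ k, Pp k + Pm k = -(n k • y) := fun k => by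
    simp only [Pp, Pm, chord_sub, n, normDiff]
    module
  have hQsum : ∀ k, Qp k + Qm k = ‖y‖ • R k - n k • T y := fun k => by
    simp only [Qp, Qm, chord_sub, hT.norm_map, n, normDiff, R]
    module
  have hy0 : 0 ≤ ‖y‖ := norm_nonneg y
  have hdiff : ∀ k, |‖A k + H k‖ - ‖A k‖| ≤ ‖H k‖ ∧ |‖A k - H k‖ - ‖A k‖| ≤ ‖H k‖ := fun k => by
    constructor
    · simpa using abs_norm_sub_norm_le (A k + H k) (A k)
    · simpa using abs_norm_sub_norm_le (A k - H k) (A k)
  have hTd : ∀ u w : X, ‖T u - T w‖ ≤ 3 * ‖u - w‖ := fun u w => by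
    simpa using hT.lipschitz.norm_sub_le u w
  have heX : ∀ k, ‖(1 / 2 : ℝ) • (Pp k - Pm k)‖ ≤ 4 * M * ‖H k‖ := fun k => by
    have b1 : ‖Pp k‖ ≤ 2 * ‖y‖ * ‖H k‖ := by
      simp only [Pp, chord_sub]
      refine (norm_sub_le _ _).trans ?_
      rw [norm_smul, norm_smul, norm_norm, Real.norm_eq_abs, add_sub_cancel_left]
      nlinarith [mul_le_mul_of_nonneg_right (hdiff k).1 hy0]
    have b2 : ‖Pm k‖ ≤ 2 * ‖y‖ * ‖H k‖ := by
      simp only [Pm, chord_sub]
      refine (norm_sub_le _ _).trans ?_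
      rw [norm_smul, norm_smul, norm_norm, Real.norm_eq_abs, sub_sub_cancel_left, norm_neg]
      nlinarith [mul_le_mul_of_nonneg_right (hdiff k).2 hy0]
    rw [norm_smul]
    norm_num
    nlinarith [norm_sub_le (Pp k) (Pm k), norm_nonneg (H k)]
  have heY : ∀ k, ‖(1 / 2 : ℝ) • (Qp k - Qm k)‖ ≤ 4 * M * ‖H k‖ := fun k => by
    have d1 := hTd (A k + H k) (A k)
    have d2 := hTd (A k - H k) (A k)
    rw [add_sub_cancel_left] at d1
    rw [sub_sub_cancel_left, norm_neg] at d2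
    have b1 : ‖Qp k‖ ≤ 4 * ‖y‖ * ‖H k‖ := by
      simp only [Qp, chord_sub]
      refine (norm_sub_le _ _).trans ?_
      rw [norm_smul, norm_smul, norm_norm, Real.norm_eq_abs, hT.norm_map, hT.norm_map, hT.norm_map]
      nlinarith [mul_le_mul_of_nonneg_right (hdiff k).1 hy0, mul_le_mul_of_nonneg_left d1 hy0]
    have b2 : ‖Qm k‖ ≤ 4 * ‖y‖ * ‖H k‖ := by
      simp only [Qm, chord_sub]
      refine (norm_sub_le _ _).trans ?_
      rw [norm_smul, norm_smul, norm_norm, Real.norm_eq_abs, hT.norm_map, hT.norm_map, hT.norm_map]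
      nlinarith [mul_le_mul_of_nonneg_right (hdiff k).2 hy0, mul_le_mul_of_nonneg_left d2 hy0]
    rw [norm_smul]
    norm_num
    nlinarith [norm_sub_le (Qp k) (Qm k), norm_nonneg (H k)]
  -- the limit of the linear part
  let Λ : ℕ → ℝ := fun k => (σ k)⁻¹ * (ψ (Qp k + Qm k) - ξ (Pp k + Pm k))
  have hΛ : Tendsto Λ atTop (𝓝 (‖y‖ * ψ v - ρ * ψ (T y) + ρ * ξ y)) := by
    refine ((((ψ.continuous.tendsto v).comp hv).const_mul ‖y‖).sub (hρ.mul_const (ψ (T y)))
      |>.add (hρ.mul_const (ξ y))).congr fun k => ?_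
    simp only [Function.comp_apply, Λ, hQsum, hPsum, map_sub, map_neg, map_smul, smul_eq_mul, n, R]
    ring
  have hR : ∀ k, ‖R k‖ + n k = σ k := fun k => (hσeq k).symm
  have hzero : ‖y‖ * ψ v - ρ * ψ (T y) + ρ * ξ y = 0 := by
    by_contra hne
    set l := |‖y‖ * ψ v - ρ * ψ (T y) + ρ * ξ y| with hl
    have hlpos : 0 < l := abs_pos.2 hne
    set Kc := 3 * ‖y‖ + 1 with hKc
    have hKc0 : 0 < Kc := by positivity
    have hε : 0 < l / (8 * Kc) := by positivity
    obtain ⟨k, hk, hbig, k1, k2⟩ := ((hsmall (l / 8) (by positivity)).and_eventually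
      (((continuous_abs.tendsto _).comp hΛ |>.eventually
        (eventually_gt_nhds (half_lt_self hlpos))).and
      ((sum_expansion hdX hwX hPp hPm hε).and (sum_expansion hdY hwY hQp hQm hε)))).exists
    have sX := hSX k (chord (A k) y) _ (heX k)
    have sY := hSY k (chord (T (A k)) (T y)) _ (heY k)
    have e1 : ∀ b : X, chord (A k) y + (chord b y - chord (A k) y) = chord b y := fun b => by abel
    have e2 : ∀ b : Y, chord (T (A k)) (T y) + (chord b (T y) - chord (T (A k)) (T y))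
        = chord b (T y) := fun b => by abel
    simp only [Pp, Pm, e1] at k1
    simp only [Qp, Qm, e2] at k2
    rw [← hT.norm_chord, ← hT.norm_chord, ← hT.norm_chord] at k2
    have n1 : ‖Pp k + Pm k‖ ≤ Kc * σ k := by
      rw [hPsum, norm_neg, norm_smul, Real.norm_of_nonneg (hn k)]
      nlinarith [hR k, norm_nonneg (R k), hn k]
    have n2 : ‖Qp k + Qm k‖ ≤ Kc * σ k := by
      rw [hQsum]
      refine (norm_sub_le _ _).trans ?_
      rw [norm_smul, norm_smul, norm_norm, Real.norm_of_nonneg (hn k), hT.norm_map]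
      nlinarith [hR k, norm_nonneg (R k), hn k]
    have n1' : l / (8 * Kc) * ‖Pp k + Pm k‖ ≤ l / 8 * σ k := by
      refine (mul_le_mul_of_nonneg_left n1 hε.le).trans (le_of_eq ?_)
      field_simp
    have n2' : l / (8 * Kc) * ‖Qp k + Qm k‖ ≤ l / 8 * σ k := by
      refine (mul_le_mul_of_nonneg_left n2 hε.le).trans (le_of_eq ?_)
      field_simp
    have hdiffΛ : |ψ (Qp k + Qm k) - ξ (Pp k + Pm k)| ≤ 3 * l / 8 * σ k := by
      simp only [Pp, Pm] at n1' sX ⊢
      simp only [Qp, Qm] at n2' sY ⊢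
      rw [abs_le] at k1 k2 ⊢
      constructor <;> linarith
    have hbig' : l / 2 < |Λ k| := hbig
    simp only [Λ, inv_mul_eq_div, abs_div, abs_of_pos (hσ k), lt_div_iff₀ (hσ k)] at hbig'
    nlinarith [hσ k, mul_pos hlpos (hσ k)]
  -- rewrite in terms of the endpoints
  have hu : ξ (chord a y) = ψ (chord (T a) (T y)) := by
    rw [hξ, hψ, D1, D1, hdX.fderiv_norm_self, hdY.fderiv_norm_self, hT.norm_chord]
  simp only [chord, map_sub, map_smul, smul_eq_mul, hT.norm_map] at hu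
  have hy' : ‖y‖ ≠ 0 := norm_ne_zero_iff.2 hy
  have ha' : ‖a‖ ≠ 0 := norm_ne_zero_iff.2 ha
  field_simp
  refine mul_left_cancel₀ hy' ?_
  linear_combination ‖a‖ * hzero + ρ * hu

/-- The blow-up identity along almost every chord. -/
theorem ae_blowup [FiniteDimensional ℝ X] [MeasurableSpace X]
    [BorelSpace X] {a : X} {v : Y} {ρ : ℝ} (ha : a ≠ 0) (hd : BlowupData T a v ρ) :
    ∀ᵐ y ∂(μH[Module.finrank ℝ X] : Measure X), Off a y →
      DifferentiableAt ℝ (fun z : X => ‖z‖) (chord a y) ∧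
      DifferentiableAt ℝ (fun z : Y => ‖z‖) (chord (T a) (T y)) ∧
      D1 (chord (T a) (T y)) v
        + ρ * ((D1 (chord a y) a - D1 (chord (T a) (T y)) (T a)) / ‖a‖) = 0 := by
  have : FiniteDimensional ℝ Y := hT.finiteDimensional
  borelize Y
  have hdim := hT.finrank_eq
  obtain ⟨A, H, hA, hH, hσ, hrat, hv, hρ⟩ := hd
  rw [ae_iff]
  refine measure_null_of_locally_null _ fun y₀ hy₀ => ?_
  rw [Set.mem_ofPred_eq, Classical.not_imp] at hy₀
  have hy₀' := hy₀.1
  -- constants near the chosen point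
  obtain ⟨δ₁, hδ₁, c₁, hc₁, hX⟩ := exists_antilipschitz ha hy₀'
  obtain ⟨δ₂, hδ₂, c₂, hc₂, hY⟩ :=
    exists_antilipschitz (hT.map_ne_zero ha) (hT.off_map hy₀')
  set δ := min δ₁ (δ₂ / 4) with hδdef
  have hδ : 0 < δ := lt_min hδ₁ (by linarith)
  set B := ball y₀ δ with hB
  refine ⟨_, inter_mem self_mem_nhdsWithin
    (mem_nhdsWithin_of_mem_nhds (ball_mem_nhds y₀ hδ)), ?_⟩
  have hTA : Tendsto (fun k => T (A k)) atTop (𝓝 (T a)) :=
    (hT.lipschitz.continuous.tendsto a).comp hA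
  have antiX : ∀ a' : X, (∀ y₁ ∈ ball y₀ δ₁, ∀ y₂ ∈ ball y₀ δ₁,
      c₁ * ‖y₁ - y₂‖ ≤ ‖chord a' y₁ - chord a' y₂‖) →
      ∀ x ∈ B, ∀ y ∈ B, c₁ * ‖x - y‖ ≤ ‖chord a' x - chord a' y‖ := fun a' h x hx y hy =>
    h x (ball_subset_ball (min_le_left _ _) hx) y (ball_subset_ball (min_le_left _ _) hy)
  have antiY : ∀ p : Y, (∀ y₁ ∈ ball (T y₀) δ₂, ∀ y₂ ∈ ball (T y₀) δ₂,
      c₂ * ‖y₁ - y₂‖ ≤ ‖chord p y₁ - chord p y₂‖) →
      ∀ x ∈ B, ∀ y ∈ B, c₂ / 3 * ‖x - y‖ ≤ ‖chord p (T x) - chord p (T y)‖ := by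
    intro p h x hx y hy
    have hmem : ∀ z ∈ B, T z ∈ ball (T y₀) δ₂ := fun z hz => by
      rw [mem_ball]
      refine lt_of_le_of_lt (hT.lipschitz.dist_le_mul z y₀) ?_
      rw [NNReal.coe_ofNat]
      linarith [mem_ball.1 hz, min_le_right δ₁ (δ₂ / 4)]
    have h1 := hT.symm.lipschitz.dist_le_mul (T x) (T y)
    rw [hT.left, hT.left, dist_eq_norm, dist_eq_norm, NNReal.coe_ofNat] at h1
    have h2 := h _ (hmem x hx) _ (hmem y hy)
    nlinarith
  -- radius containing all relevant chords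
  set M := ‖y₀‖ + δ with hM
  have hMy : ∀ y ∈ B, ‖y‖ ≤ M := fun y hy => by
    have := norm_le_norm_add_norm_sub' y y₀
    rw [← dist_eq_norm] at this
    linarith [mem_ball.1 hy]
  have hMpos : 0 < M := by positivity
  set Rad := 2 * (M * (‖a‖ + 1)) with hRad
  obtain ⟨VX, hVX⟩ := exists_domination (E := X)
  obtain ⟨VY, hVY⟩ := exists_domination (E := Y)
  obtain ⟨CX, hCX, hIX⟩ := integral_domination (μH[Module.finrank ℝ X] : Measure X) VX 0 Rad
  obtain ⟨CY, hCY, hIY⟩ := integral_domination (μH[Module.finrank ℝ Y] : Measure Y) VY 0 Rad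
  obtain ⟨KX, hKX, hTX⟩ := lintegral_comp_antilipschitz (E := X) (E' := X) rfl hc₁
  obtain ⟨KY, hKY, hTY⟩ := lintegral_comp_antilipschitz (E := X) (E' := Y) hdim
    (div_pos hc₂ three_pos)
  let σ : ℕ → ℝ := fun k =>
    ‖T (A k + H k) + T (A k - H k) - (2 : ℝ) • T (A k)‖ + normDiff (A k) (H k)
  have hσ' : ∀ k, 0 < σ k := hσ
  let r : ℕ → ℝ := fun k => 4 * M * ‖H k‖
  have hH0 : ∀ k, H k ≠ 0 := fun k h => by
    have h1 := hσ k
    simp [normDiff, h, two_smul, two_mul] at h1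
  have hrpos : ∀ k, 0 < r k := fun k => by
    have := norm_pos_iff.2 (hH0 k)
    positivity
  have hr : Tendsto r atTop (𝓝[>] 0) := tendsto_nhdsWithin_iff.2
    ⟨by simpa [r] using (hH.norm.const_mul (4 * M)), Eventually.of_forall hrpos⟩
  let SX : ℕ → X → ℝ := fun k z => ∑ w ∈ VX, normDiff z (r k • w)
  let SY : ℕ → Y → ℝ := fun k z => ∑ w ∈ VY, normDiff z (r k • w)
  have hSXc : ∀ k, Continuous (SX k) := fun k =>
    continuous_finsetSum _ fun w _ => continuous_normDiff _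
  have hSYc : ∀ k, Continuous (SY k) := fun k =>
    continuous_finsetSum _ fun w _ => continuous_normDiff _
  have hSX0 : ∀ k z, 0 ≤ SX k z := fun k z => Finset.sum_nonneg fun w _ => normDiff_nonneg _ _
  have hSY0 : ∀ k z, 0 ≤ SY k z := fun k z => Finset.sum_nonneg fun w _ => normDiff_nonneg _ _
  let G : ℕ → X → ℝ≥0∞ := fun k y => ENNReal.ofReal (σ k)⁻¹ *
    (ENNReal.ofReal (SX k (chord (A k) y)) + ENNReal.ofReal (SY k (chord (T (A k)) (T y))))
  have hGm : ∀ k, Measurable (G k) := fun k =>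
    ((((hSXc k).comp (continuous_chord _)).measurable.ennreal_ofReal).add
      (((hSYc k).comp ((continuous_chord _).comp hT.lipschitz.continuous)).measurable.ennreal_ofReal)
      ).const_mul _
  -- its integral tends to zero
  have hGint : Tendsto (fun k => ∫⁻ y in B, G k y ∂(μH[Module.finrank ℝ X] : Measure X))
      atTop (𝓝 0) := by
    set C := (KX * CX + KY * CY) * ENNReal.ofReal ((4 * M) ^ 2) with hC
    have hCtop : C ≠ ∞ := ENNReal.mul_ne_top
      (ENNReal.add_ne_top.2 ⟨ENNReal.mul_ne_top hKX hCX, ENNReal.mul_ne_top hKY hCY⟩)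
      ENNReal.ofReal_ne_top
    have hup : Tendsto (fun k => C * ENNReal.ofReal (‖H k‖ ^ 2 / σ k)) atTop (𝓝 0) := by
      have := ENNReal.Tendsto.const_mul (ENNReal.tendsto_ofReal hrat) (Or.inr hCtop)
      rwa [ENNReal.ofReal_zero, mul_zero] at this
    refine tendsto_of_tendsto_of_tendsto_of_le_of_le' tendsto_const_nhds hup
      (Eventually.of_forall fun k => bot_le) ?_
    filter_upwards [hA.eventually hX, hTA.eventually hY, hr.eventually hIX, hr.eventually hIY,
      (continuous_norm.tendsto a).comp hA |>.eventually (eventually_lt_nhds (lt_add_one ‖a‖))]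
      with k k1 k2 k3 k4 k5
    have k5' : ‖A k‖ < ‖a‖ + 1 := k5
    have mX : Set.MapsTo (chord (A k)) B (closedBall 0 Rad) := fun y hy => by
      rw [mem_closedBall_zero_iff]
      refine (norm_chord_le _ _).trans (mul_le_mul_of_nonneg_left ?_ zero_le_two)
      exact mul_le_mul (hMy y hy) k5'.le (norm_nonneg _) hMpos.le
    have mY : Set.MapsTo (fun y => chord (T (A k)) (T y)) B (closedBall 0 Rad) := fun y hy => by
      rw [mem_closedBall_zero_iff, ← hT.norm_chord]
      exact mem_closedBall_zero_iff.1 (mX hy)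
    have t1 := (hTX _ B _ (continuous_chord (A k)) (antiX _ k1) mX).2
      (fun z => ENNReal.ofReal (SX k z)) (hSXc k).measurable.ennreal_ofReal
    have t2 := (hTY _ B _ ((continuous_chord _).comp hT.lipschitz.continuous) (antiY _ k2) mY).2
      (fun z => ENNReal.ofReal (SY k z)) (hSYc k).measurable.ennreal_ofReal
    simp only [Function.comp_apply] at t2
    show ∫⁻ y in B, ENNReal.ofReal (σ k)⁻¹ * (ENNReal.ofReal (SX k (chord (A k) y))
      + ENNReal.ofReal (SY k (chord (T (A k)) (T y)))) ∂_ ≤ _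
    rw [lintegral_const_mul' _ _ ENNReal.ofReal_ne_top,
      lintegral_add_left (f := fun y => ENNReal.ofReal (SX k (chord (A k) y)))
        ((hSXc k).comp (continuous_chord _)).measurable.ennreal_ofReal]
    calc _ ≤ ENNReal.ofReal (σ k)⁻¹ * (KX * (CX * ENNReal.ofReal (r k ^ 2))
          + KY * (CY * ENNReal.ofReal (r k ^ 2))) := by
            gcongr
            · exact t1.trans (mul_le_mul_right k3 KX)
            · exact t2.trans (mul_le_mul_right k4 KY)
      _ = C * ENNReal.ofReal (‖H k‖ ^ 2 / σ k) := by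
            rw [hC, div_eq_mul_inv, ENNReal.ofReal_mul (by positivity),
              show r k ^ 2 = (4 * M) ^ 2 * ‖H k‖ ^ 2 from mul_pow _ _ _,
              ENNReal.ofReal_mul (by positivity)]
            ring
  have hlim0 : ∀ᵐ y ∂(μH[Module.finrank ℝ X] : Measure X).restrict B,
      liminf (fun k => G k y) atTop = 0 := by
    refine (lintegral_eq_zero_iff (.liminf hGm)).1 (le_antisymm ?_ bot_le)
    refine (lintegral_liminf_le hGm).trans (le_of_eq ?_)
    exact hGint.liminf_eq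
  have nullX : (μH[Module.finrank ℝ X] : Measure X)
      (chord a ⁻¹' {z | ¬DifferentiableAt ℝ (fun w : X => ‖w‖) z} ∩ B) = 0 :=
    (hTX (chord a) B _ (continuous_chord a) (antiX a hX.self_of_nhds) (Set.mapsTo_univ _ _)).1 _
      (ae_iff.1 lipschitzWith_one_norm.ae_differentiableAt)
  have nullY : (μH[Module.finrank ℝ X] : Measure X)
      ((fun y => chord (T a) (T y)) ⁻¹' {z | ¬DifferentiableAt ℝ (fun w : Y => ‖w‖) z} ∩ B) = 0 :=
    (hTY (fun y => chord (T a) (T y)) B _ ((continuous_chord _).comp hT.lipschitz.continuous)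
      (antiY _ hY.self_of_nhds) (Set.mapsTo_univ _ _)).1 _
      (ae_iff.1 lipschitzWith_one_norm.ae_differentiableAt)
  rw [ae_iff, Measure.restrict_apply' measurableSet_ball] at hlim0
  refine measure_mono_null ?_ (measure_union_null (measure_union_null nullX nullY) hlim0)
  rintro y ⟨hbad, hyB⟩
  by_contra hnot
  simp only [Set.mem_union, not_or] at hnot
  obtain ⟨⟨h1, h2⟩, h3⟩ := hnot
  have hdX : DifferentiableAt ℝ (fun w : X => ‖w‖) (chord a y) :=
    not_not.1 fun h => h1 ⟨h, hyB⟩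
  have hdY : DifferentiableAt ℝ (fun w : Y => ‖w‖) (chord (T a) (T y)) :=
    not_not.1 fun h => h2 ⟨h, hyB⟩
  have hl : liminf (fun k => G k y) atTop = 0 := not_not.1 fun h => h3 ⟨h, hyB⟩
  refine hbad fun hray => ⟨hdX, hdY, ?_⟩
  have hy : y ≠ 0 := hray.right_ne
  refine hT.blowup_equation hy ha hA hH hdX hdY (σ := σ) (fun _ => rfl) hσ' hv hρ (M := M)
    (hMy y hyB) (SX := SX) (SY := SY) (fun k z e he => hVX _ (hrpos k) z e he)
    (fun k z e he => hVY _ (hrpos k) z e he) fun ε hε => ?_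
  have hfreq : ∃ᶠ k in atTop, G k y < ENNReal.ofReal ε :=
    frequently_lt_of_liminf_lt (by isBoundedDefault) (by rw [hl]; exact ENNReal.ofReal_pos.2 hε)
  refine hfreq.mono fun k hk => ?_
  have h1 : ENNReal.ofReal ((σ k)⁻¹ * (SX k (chord (A k) y) + SY k (chord (T (A k)) (T y))))
      < ENNReal.ofReal ε := by
    rw [ENNReal.ofReal_mul (inv_nonneg.2 (hσ' k).le), ENNReal.ofReal_add (hSX0 _ _) (hSY0 _ _)]
    exact hk
  have h2 := ((ENNReal.ofReal_lt_ofReal_iff hε).1 h1).le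
  rwa [inv_mul_le_iff₀ (hσ' k), mul_comm] at h2

end IsTingley

end Isometry

end Vale.Agent.P084
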