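import Mathlib.Topology.Order.IntermediateValue
import Mathlib.Analysis.Normed.Module.HahnBanach
import Mathlib.LinearAlgebra.FiniteDimensional.Basic
import Vale.Agent.P084.BlowupGen

/-!
At a blow-up point the extension is differentiable and its derivative is a linear isometry.
-/

namespace Vale.Agent.P084

open Filter Topology Metric MeasureTheory

section General

variable {E : Type*} [NormedAddCommGroup E] [NormedSpace ℝ E]

/-- The chord directions at `a`. -/
def chordSet (a : E) : Set E := {z | ∃ t : ℝ, 0 < t ∧ ‖a - t • z‖ < ‖a‖}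

lemma norm_D1_le (z : E) : ‖D1 z‖ ≤ 1 := by
  simpa using norm_fderiv_le_of_lipschitz ℝ (lipschitzWith_one_norm (E := E)) (x₀ := z)

lemma norming_D1 {z : E} (h : DifferentiableAt ℝ (fun w : E => ‖w‖) z) : Norming (D1 z) z :=
  ⟨norm_D1_le z, h.fderiv_norm_self⟩

lemma isOpen_chordSet (a : E) : IsOpen (chordSet a) := by
  have : chordSet a = ⋃ t ∈ Set.Ioi (0 : ℝ), {z | ‖a - t • z‖ < ‖a‖} := by
    ext z; simp [chordSet]
  rw [this]
  exact isOpen_biUnion fun t _ => isOpen_lt (by fun_prop) continuous_const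

lemma chord_mem {a y : E} (h : Off a y) : chord a y ∈ chordSet a := by
  have ha : 0 < ‖a‖ := norm_pos_iff.2 h.left_ne
  have hy : 0 < ‖y‖ := norm_pos_iff.2 h.right_ne
  refine ⟨1 / (2 * ‖y‖), by positivity, ?_⟩
  have e : a - (1 / (2 * ‖y‖)) • chord a y = (1 / (2 * ‖y‖)) • (‖y‖ • a + ‖a‖ • y) := by
    simp only [chord]
    match_scalars <;> field_simp <;> ring
  rw [e, norm_smul, Real.norm_of_nonneg (by positivity), one_div_mul_eq_div,
    div_lt_iff₀ (by positivity)]
  unfold Off at h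
  linarith

lemma off_of_chord_mem {a y : E} (ha : a ≠ 0) (hy : y ≠ 0) (h : chord a y ∈ chordSet a) :
    Off a y := by
  obtain ⟨t, ht, hlt⟩ := h
  have ha' : 0 < ‖a‖ := norm_pos_iff.2 ha
  have hy' : 0 < ‖y‖ := norm_pos_iff.2 hy
  refine lt_of_le_of_ne ?_ fun heq => ?_
  · refine (norm_add_le _ _).trans (le_of_eq ?_)
    rw [norm_smul, norm_smul, norm_norm, norm_norm]
    ring
  · obtain ⟨η, hη⟩ := exists_norming (‖y‖ • a + ‖a‖ • y)
    have h1 := hη.2
    rw [heq, map_add, map_smul, map_smul, smul_eq_mul, smul_eq_mul] at h1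
    have h2 := hη.le a
    have h3 := hη.le y
    have e1 : η a = ‖a‖ := by nlinarith [mul_le_mul_of_nonneg_left h3 ha'.le]
    have e2 : η y = ‖y‖ := by nlinarith [mul_le_mul_of_nonneg_left h2 hy'.le]
    have h4 := hη.le (a - t • chord a y)
    simp only [chord, map_sub, map_smul, smul_eq_mul, e1, e2] at h4
    simp only [chord] at hlt
    linarith [mul_comm ‖a‖ ‖y‖]

/-- A chord direction comes from a point which is not too far. -/
lemma exists_of_mem_chordSet_le {a z : E} {t : ℝ} (ht : 0 < t) (hlt : ‖a - t • z‖ < ‖a‖) :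
    ∃ y : E, Off a y ∧ chord a y = z ∧ ‖y‖ ≤ 1 / t := by
  have ha : 0 < ‖a‖ := lt_of_le_of_lt (norm_nonneg _) hlt
  have hz0 : z ≠ 0 := fun h => by simp [h] at hlt
  let g : ℝ → ℝ := fun s => ‖s • a - z‖ / ‖a‖ - s
  have hg : Continuous g := by
    show Continuous fun s : ℝ => ‖s • a - z‖ / ‖a‖ - s
    fun_prop
  have h0 : 0 ≤ g 0 := by simp [g]; positivity
  have h1 : g (1 / t) ≤ 0 := by
    have e : (1 / t) • a - z = (1 / t) • (a - t • z) := by
      rw [smul_sub, smul_smul, one_div_mul_cancel ht.ne', one_smul]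
    show ‖(1 / t) • a - z‖ / ‖a‖ - 1 / t ≤ 0
    rw [e, norm_smul, Real.norm_of_nonneg (by positivity), sub_nonpos, div_le_iff₀ ha]
    exact mul_le_mul_of_nonneg_left hlt.le (by positivity)
  obtain ⟨s, hs, hgs⟩ := intermediate_value_Icc' (by positivity : (0 : ℝ) ≤ 1 / t)
    hg.continuousOn ⟨h1, h0⟩
  have hgs' : ‖s • a - z‖ / ‖a‖ = s := sub_eq_zero.1 hgs
  have hny : ‖(1 / ‖a‖) • (s • a - z)‖ = s := by
    rw [norm_smul, Real.norm_of_nonneg (by positivity), one_div_mul_eq_div]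
    exact hgs'
  have hchord : chord a ((1 / ‖a‖) • (s • a - z)) = z := by
    rw [chord, hny, smul_smul, mul_one_div, div_self ha.ne', one_smul, sub_sub_cancel]
  refine ⟨_, off_of_chord_mem (norm_pos_iff.1 ha) (fun h => hz0 ?_)
    (hchord.symm ▸ ⟨t, ht, hlt⟩), hchord, hny.le.trans hs.2⟩
  rw [← hchord, h]
  simp [chord]

lemma exists_of_mem_chordSet {a z : E} (hz : z ∈ chordSet a) :
    ∃ y : E, Off a y ∧ chord a y = z :=
  let ⟨_, ht, hlt⟩ := hz
  let ⟨y, h1, h2, _⟩ := exists_of_mem_chordSet_le ht hlt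
  ⟨y, h1, h2⟩

/-- A chord direction determines its end point. -/
lemma chord_inj {a y y' : E} (h : Off a y) (hy' : y' ≠ 0) (he : chord a y' = chord a y) :
    y' = y := by
  have ha : 0 < ‖a‖ := norm_pos_iff.2 h.left_ne
  obtain ⟨t, ht, hlt⟩ := chord_mem h
  set z := chord a y with hz
  have hline : ∀ w : E, w ≠ 0 → chord a w = z → ‖a - (1 / ‖w‖) • z‖ = ‖a‖ := by
    intro w hw hwz
    have hw' : 0 < ‖w‖ := norm_pos_iff.2 hw
    rw [← hwz, show a - (1 / ‖w‖) • chord a w = (‖a‖ / ‖w‖) • w by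
      simp only [chord]; match_scalars <;> field_simp <;> ring,
      norm_smul, Real.norm_of_nonneg (by positivity), div_mul_cancel₀ _ hw'.ne']
  have hconv : ∀ p q τ : ℝ, p ≤ τ → τ ≤ q → p < q → ∃ θ ∈ Set.Icc (0 : ℝ) 1,
      ‖a - τ • z‖ ≤ (1 - θ) * ‖a - p • z‖ + θ * ‖a - q • z‖ ∧ τ = (1 - θ) * p + θ * q := by
    intro p q τ h1 h2 h3
    have hqp : (0 : ℝ) < q - p := sub_pos.2 h3
    refine ⟨(τ - p) / (q - p), ⟨div_nonneg (by linarith) hqp.le, (div_le_one hqp).2 (by linarith)⟩,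
      ?_, by field_simp; ring⟩
    have e : a - τ • z = (1 - (τ - p) / (q - p)) • (a - p • z) + ((τ - p) / (q - p)) • (a - q • z) := by
      match_scalars <;> field_simp <;> ring
    rw [e]
    refine (norm_add_le _ _).trans (le_of_eq ?_)
    rw [norm_smul, norm_smul, Real.norm_of_nonneg (div_nonneg (by linarith) hqp.le),
      Real.norm_of_nonneg (sub_nonneg.2 ((div_le_one hqp).2 (by linarith)))]
  have key : ∀ τ₁ τ₂ : ℝ, 0 < τ₁ → τ₁ < τ₂ → ‖a - τ₁ • z‖ = ‖a‖ → ‖a - τ₂ • z‖ = ‖a‖ → False := by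
    intro τ₁ τ₂ h1 h12 e1 e2
    rcases le_total τ₁ t with h3 | h3
    · obtain ⟨θ, hθ, hle, heq⟩ := hconv 0 t τ₁ h1.le h3 ht
      rw [zero_smul, sub_zero, e1] at hle
      have hθ0 : 0 < θ := by nlinarith
      nlinarith
    · obtain ⟨θ, hθ, hle, heq⟩ := hconv t τ₂ τ₁ h3 h12.le (lt_of_le_of_lt h3 h12)
      rw [e1, e2] at hle
      have hθ1 : θ < 1 := by nlinarith
      nlinarith
  have hn : ‖y'‖ = ‖y‖ := by
    have p1 : 0 < 1 / ‖y‖ := by have := norm_pos_iff.2 h.right_ne; positivity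
    have p2 : 0 < 1 / ‖y'‖ := by have := norm_pos_iff.2 hy'; positivity
    rcases lt_trichotomy (1 / ‖y'‖) (1 / ‖y‖) with h1 | h1 | h1
    · exact (key _ _ p2 h1 (hline _ hy' he) (hline _ h.right_ne rfl)).elim
    · simpa using h1
    · exact (key _ _ p1 h1 (hline _ h.right_ne rfl) (hline _ hy' he)).elim
  rw [hz, chord, chord, hn, sub_right_inj] at he
  exact smul_right_injective E ha.ne' he

lemma two_smul_mem {a : E} (ha : a ≠ 0) : (2 : ℝ) • a ∈ chordSet a := by
  refine ⟨1 / 2, by norm_num, ?_⟩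
  rw [smul_smul]
  norm_num
  exact ha

/-- The norming covectors of densely many chords separate points. -/
lemma eq_zero_of_norming_kill {a : E} (ha : a ≠ 0) {G : Set E}
    (hG : ∀ y, Off a y → y ∈ closure G) {v : E}
    (hv : ∀ y ∈ G, ∃ η : E →L[ℝ] ℝ, Norming η (chord a y) ∧ η v = 0) : v = 0 := by
  have key : ∀ z ∈ chordSet a, ∀ s : ℝ, ‖z‖ ≤ ‖z + s • v‖ := by
    intro z hz s
    obtain ⟨y, hy, rfl⟩ := exists_of_mem_chordSet hz
    have hcl : chord a y ∈ closure {w : E | ‖w‖ ≤ ‖w + s • v‖} := by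
      refine map_mem_closure (continuous_chord a) (hG y hy) fun w hw => ?_
      obtain ⟨η, hη, hηv⟩ := hv w hw
      show ‖chord a w‖ ≤ ‖chord a w + s • v‖
      calc ‖chord a w‖ = η (chord a w + s • v) := by rw [map_add, map_smul, hηv, hη.2]; simp
        _ ≤ ‖chord a w + s • v‖ := hη.le _
    have hclosed : IsClosed {w : E | ‖w‖ ≤ ‖w + s • v‖} := isClosed_le (by fun_prop) (by fun_prop)
    rw [hclosed.closure_eq] at hcl
    exact hcl
  set z := (2 : ℝ) • a with hz
  obtain ⟨ε, hε, hball⟩ := Metric.isOpen_iff.1 (isOpen_chordSet a) _ (two_smul_mem ha)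
  by_contra hv0
  have hv1 : 0 < ‖v‖ := norm_pos_iff.2 hv0
  set δ := ε / (2 * ‖v‖) with hδ
  have hδ0 : 0 < δ := by positivity
  have hin : ∀ s : ℝ, |s| ≤ δ → z + s • v ∈ chordSet a := fun s hs => hball (by
    rw [mem_ball, dist_eq_norm, add_sub_cancel_left, norm_smul, Real.norm_eq_abs]
    refine lt_of_le_of_lt (mul_le_mul_of_nonneg_right hs hv1.le) ?_
    rw [hδ, div_mul_eq_mul_div, div_lt_iff₀ (by positivity)]
    nlinarith)
  have hconst : ∀ s : ℝ, |s| ≤ δ → ‖z + s • v‖ = ‖z‖ := by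
    intro s hs
    refine le_antisymm ?_ (key z (two_smul_mem ha) s)
    have := key _ (hin s hs) (-s)
    rwa [neg_smul, add_neg_cancel_right] at this
  have hline : ∀ s : ℝ, z + s • v ∈ chordSet a := by
    intro s
    set t := δ / (2 * |s| + 4 * δ) with ht
    have hden : 0 < 2 * |s| + 4 * δ := by positivity
    have ht0 : 0 < t := by positivity
    have ht4 : 4 * t ≤ 1 := by
      rw [ht, mul_div_assoc', div_le_one hden]; nlinarith [abs_nonneg s]
    refine ⟨t, ht0, ?_⟩
    set r := -(2 * t * s / (1 - 2 * t)) with hr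
    have h12 : 0 < 1 - 2 * t := by linarith
    have hrs : |r| ≤ δ := by
      rw [hr, abs_neg, abs_div, abs_of_pos h12, div_le_iff₀ h12, abs_mul, abs_mul, abs_two,
        abs_of_pos ht0]
      have e : t * (2 * |s| + 4 * δ) = δ := by rw [ht]; exact div_mul_cancel₀ _ hden.ne'
      nlinarith [mul_nonneg ht0.le hδ0.le]
    have e : a - t • (z + s • v) = ((1 - 2 * t) / 2) • (z + r • v) := by
      have e1 : (1 - 2 * t) / 2 * r = -(t * s) := by rw [hr]; field_simp
      calc a - t • (z + s • v) = (1 - 2 * t) • a + (-(t * s)) • v := by rw [hz]; module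
        _ = ((1 - 2 * t) / 2) • (z + r • v) := by rw [← e1, hz]; module
    rw [e, norm_smul, hconst r hrs, Real.norm_of_nonneg (by positivity), hz, norm_smul,
      Real.norm_ofNat]
    nlinarith [norm_pos_iff.2 ha]
  set M := 3 * ‖z‖ / ‖v‖ with hM
  have h2 := key _ (hline M) (-M)
  rw [neg_smul, add_neg_cancel_right] at h2
  have h3 := norm_sub_le (z + M • v) z
  rw [add_sub_cancel_left, norm_smul, Real.norm_of_nonneg (by positivity), hM,
    div_mul_cancel₀ _ hv1.ne'] at h3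
  have : 0 < ‖z‖ := norm_pos_iff.2 (smul_ne_zero two_ne_zero ha)
  linarith

/-- The largest value of a norming covector. -/
lemma exists_dsup [FiniteDimensional ℝ E] (a w : E) :
    ∃ η : E →L[ℝ] ℝ, Norming η a ∧ ∀ φ : E →L[ℝ] ℝ, Norming φ a → φ w ≤ η w := by
  have : ProperSpace (E →L[ℝ] ℝ) := FiniteDimensional.proper ℝ _
  have hset : {φ : E →L[ℝ] ℝ | Norming φ a} = closedBall 0 1 ∩ {φ | φ a = ‖a‖} := by
    ext φ
    simp [Norming]
  have hc : IsCompact {φ : E →L[ℝ] ℝ | Norming φ a} := by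
    rw [hset]
    exact (isCompact_closedBall _ _).inter_right (isClosed_eq (by fun_prop) continuous_const)
  obtain ⟨η, hη, hmax⟩ := hc.exists_isMaxOn (exists_norming a)
    (ContinuousLinearMap.apply ℝ ℝ w).continuous.continuousOn
  exact ⟨η, hη, fun φ hφ => hmax hφ⟩

/-- The one-sided directional derivative of the norm. -/
noncomputable def dsup [FiniteDimensional ℝ E] (a w : E) : ℝ := (exists_dsup a w).choose w

section Dsup

variable [FiniteDimensional ℝ E] (a : E)

lemma le_dsup {φ : E →L[ℝ] ℝ} (hφ : Norming φ a) (w : E) : φ w ≤ dsup a w :=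
  (exists_dsup a w).choose_spec.2 φ hφ

lemma exists_dsup_eq (w : E) : ∃ η : E →L[ℝ] ℝ, Norming η a ∧ η w = dsup a w :=
  ⟨_, (exists_dsup a w).choose_spec.1, rfl⟩

lemma dsup_add_le (u w : E) : dsup a (u + w) ≤ dsup a u + dsup a w := by
  obtain ⟨η, hη, h⟩ := exists_dsup_eq a (u + w)
  rw [← h, map_add]
  exact add_le_add (le_dsup a hη u) (le_dsup a hη w)

lemma dsup_smul {c : ℝ} (hc : 0 ≤ c) (w : E) : dsup a (c • w) = c * dsup a w := by
  obtain ⟨η, hη, h⟩ := exists_dsup_eq a (c • w)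
  obtain ⟨η', hη', h'⟩ := exists_dsup_eq a w
  refine le_antisymm ?_ ?_
  · rw [← h, map_smul, smul_eq_mul]
    exact mul_le_mul_of_nonneg_left (le_dsup a hη w) hc
  · rw [← h', ← smul_eq_mul, ← map_smul]
    exact le_dsup a hη' _

lemma dsup_neg_self : dsup a (-a) = -‖a‖ := by
  obtain ⟨η, hη, h⟩ := exists_dsup_eq a (-a)
  rw [← h, map_neg, hη.2]

lemma dsup_self : dsup a a = ‖a‖ := by
  obtain ⟨η, hη, h⟩ := exists_dsup_eq a a
  rw [← h, hη.2]

lemma dsup_le_norm (w : E) : dsup a w ≤ ‖w‖ := by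
  obtain ⟨η, hη, h⟩ := exists_dsup_eq a w
  rw [← h]
  exact hη.le w

lemma continuous_dsup : Continuous (dsup a) := by
  refine (LipschitzWith.of_le_add_mul 1 fun u w => ?_).continuous
  have h := dsup_add_le a w (u - w)
  rw [add_sub_cancel] at h
  rw [NNReal.coe_one, one_mul, dist_eq_norm]
  linarith [dsup_le_norm a (u - w)]

lemma dsup_nonneg_add (w : E) : 0 ≤ dsup a w + dsup a (-w) := by
  obtain ⟨η, hη⟩ := exists_norming a
  have := le_dsup a hη w
  have := le_dsup a hη (-w)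
  rw [map_neg] at this
  linarith

/-- Difference quotients tend to the one-sided derivative. -/
lemma tendsto_dsup (w : E) {t : ℕ → ℝ} (ht : Tendsto t atTop (𝓝[>] 0)) :
    Tendsto (fun k => (t k)⁻¹ * (‖a + t k • w‖ - ‖a‖)) atTop (𝓝 (dsup a w)) := by
  have : ProperSpace (E →L[ℝ] ℝ) := FiniteDimensional.proper ℝ _
  obtain ⟨ht0, htpos⟩ := tendsto_nhdsWithin_iff.1 ht
  obtain ⟨η, hη, hηw⟩ := exists_dsup_eq a w
  choose θ hθ using fun k : ℕ => exists_norming (a + t k • w)
  refine (isCompact_Icc (a := dsup a w) (b := ‖w‖)).tendsto_nhds_of_unique_mapClusterPt ?_ ?_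
  · filter_upwards [htpos] with k (hk : 0 < t k)
    constructor
    · rw [le_inv_mul_iff₀ hk, ← hηw]
      have := hη.le (a + t k • w)
      rw [map_add, map_smul, hη.2, smul_eq_mul] at this
      linarith
    · rw [inv_mul_le_iff₀ hk]
      have := norm_add_le a (t k • w)
      rw [norm_smul, Real.norm_of_nonneg hk.le] at this
      linarith
  intro d hd hcl
  refine le_antisymm ?_ hd.1
  obtain ⟨φ, hφ, hlim⟩ := MapClusterPt.tendsto_subseq hcl
  obtain ⟨ω, hω1, χ, hχ, hω⟩ := tendsto_subseq_of_bounded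
    (isBounded_closedBall (x := (0 : E →L[ℝ] ℝ)) (r := 1))
    (fun k => mem_closedBall_zero_iff.2 (hθ (φ k)).1)
  rw [closure_closedBall, mem_closedBall_zero_iff] at hω1
  have hω' : ∀ b : E, Tendsto (fun k => θ (φ (χ k)) b) atTop (𝓝 (ω b)) := fun b =>
    (((ContinuousLinearMap.apply ℝ ℝ b).continuous).tendsto ω).comp hω
  have ht' : Tendsto (fun k => t (φ (χ k))) atTop (𝓝 0) :=
    ht0.comp (hφ.comp hχ).tendsto_atTop
  have hωa : ω a = ‖a‖ := by
    refine le_antisymm ((le_abs_self _).trans ((ω.le_opNorm a).trans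
      (mul_le_of_le_one_left (norm_nonneg a) hω1))) ?_
    have h1 : Tendsto (fun k => θ (φ (χ k)) a + t (φ (χ k)) * θ (φ (χ k)) w) atTop (𝓝 (ω a)) := by
      simpa using (hω' a).add (ht'.mul (hω' w))
    have h2 : Tendsto (fun k => ‖a + t (φ (χ k)) • w‖) atTop (𝓝 ‖a‖) := by
      simpa using ((tendsto_const_nhds (x := a)).add (ht'.smul (tendsto_const_nhds (x := w)))).norm
    refine le_of_tendsto_of_tendsto h2 h1 (Eventually.of_forall fun k => ?_)
    dsimp only
    rw [← (hθ _).2, map_add, map_smul, smul_eq_mul]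
  refine le_trans ?_ (le_dsup a ⟨hω1, hωa⟩ w)
  refine le_of_tendsto_of_tendsto (hlim.comp hχ.tendsto_atTop) (hω' w) ?_
  filter_upwards [(hφ.comp hχ).tendsto_atTop.eventually htpos] with k (hk : 0 < t (φ (χ k)))
  show (t (φ (χ k)))⁻¹ * _ ≤ _
  rw [inv_mul_le_iff₀ hk, ← (hθ _).2, map_add, map_smul, smul_eq_mul]
  linarith [(hθ (φ (χ k))).le a]

lemma mem_chordSet_iff {z : E} : z ∈ chordSet a ↔ dsup a (-z) < 0 := by
  constructor
  · rintro ⟨t, ht, hlt⟩
    obtain ⟨η, hη, h⟩ := exists_dsup_eq a (-z)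
    have := hη.le (a - t • z)
    rw [map_sub, map_smul, hη.2, smul_eq_mul] at this
    rw [← h, map_neg]
    nlinarith
  · intro h
    have ht : Tendsto (fun k : ℕ => (1 : ℝ) / (k + 1)) atTop (𝓝[>] 0) :=
      tendsto_nhdsWithin_iff.2 ⟨tendsto_one_div_add_atTop_nhds_zero_nat,
        Eventually.of_forall fun k => show (0 : ℝ) < 1 / (k + 1) by positivity⟩
    obtain ⟨k, hk⟩ := ((tendsto_dsup a (-z) ht).eventually (eventually_lt_nhds h)).exists
    refine ⟨1 / (k + 1), by positivity, ?_⟩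
    rw [inv_mul_lt_iff₀ (by positivity), mul_zero, sub_neg, smul_neg, ← sub_eq_add_neg] at hk
    exact hk

end Dsup

end General

variable {X Y : Type*} [NormedAddCommGroup X] [NormedSpace ℝ X] [NormedAddCommGroup Y]
  [NormedSpace ℝ Y]

/-- The chords at `a` along which both norms are differentiable. -/
def genSet (T : X → Y) (a : X) : Set X :=
  {y | Off a y ∧ DifferentiableAt ℝ (fun z : X => ‖z‖) (chord a y) ∧
    DifferentiableAt ℝ (fun z : Y => ‖z‖) (chord (T a) (T y))}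

namespace IsTingley

variable {T : X → Y} {T' : Y → X} (hT : IsTingley T T')
include hT

lemma abs_dist_map_le (x y : X) : |‖T x - T y‖ - ‖x - y‖| ≤ 2 * |‖x‖ - ‖y‖| := by
  rcases eq_or_ne y 0 with rfl | hy
  · rw [hT.map_zero, sub_zero, sub_zero, hT.norm_map, sub_self, abs_zero]
    positivity
  set s := ‖x‖ / ‖y‖ with hs
  have hy0 : 0 < ‖y‖ := norm_pos_iff.2 hy
  have hn : ‖x‖ = ‖s • y‖ := by
    rw [norm_smul, Real.norm_of_nonneg (by positivity), hs, div_mul_cancel₀ _ hy0.ne']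
  have key : ∀ (q p : Y), ‖q‖ = ‖y‖ →
      |‖p - q‖ - ‖p - s • q‖| ≤ |‖x‖ - ‖y‖| := by
    intro q p hq
    refine (abs_norm_sub_norm_le _ _).trans (le_of_eq ?_)
    rw [show p - q - (p - s • q) = (s - 1) • q by rw [sub_smul, one_smul]; abel, norm_smul, hq,
      Real.norm_eq_abs, hs, div_sub_one hy0.ne', abs_div, abs_of_pos hy0,
      div_mul_cancel₀ _ hy0.ne']
  have key' : ∀ (q p : X), ‖q‖ = ‖y‖ →
      |‖p - q‖ - ‖p - s • q‖| ≤ |‖x‖ - ‖y‖| := by
    intro q p hq
    refine (abs_norm_sub_norm_le _ _).trans (le_of_eq ?_)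
    rw [show p - q - (p - s • q) = (s - 1) • q by rw [sub_smul, one_smul]; abel, norm_smul, hq,
      Real.norm_eq_abs, hs, div_sub_one hy0.ne', abs_div, abs_of_pos hy0,
      div_mul_cancel₀ _ hy0.ne']
  have h1 := key (T y) (T x) (hT.norm_map y)
  rw [← hT.homog' (by positivity : 0 ≤ s), hT.dist_map x _ hn] at h1
  have h2 := key' y x rfl
  rw [abs_le] at h1 h2 ⊢
  constructor <;> linarith

lemma ae_genSet [FiniteDimensional ℝ X] [MeasurableSpace X] [BorelSpace X] {a : X} (ha : a ≠ 0) :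
    ∀ᵐ y ∂(μH[Module.finrank ℝ X] : Measure X), Off a y → y ∈ genSet T a := by
  have : FiniteDimensional ℝ Y := hT.finiteDimensional
  borelize Y
  rw [ae_iff]
  refine measure_null_of_locally_null _ fun y₀ hy₀ => ?_
  rw [Set.mem_ofPred_eq, Classical.not_imp] at hy₀
  obtain ⟨δ₁, hδ₁, c₁, hc₁, hX⟩ := exists_antilipschitz ha hy₀.1
  obtain ⟨δ₂, hδ₂, c₂, hc₂, hY⟩ := exists_antilipschitz (hT.map_ne_zero ha) (hT.off_map hy₀.1)
  set δ := min δ₁ (δ₂ / 4) with hδdef
  have hδ : 0 < δ := lt_min hδ₁ (by linarith)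
  refine ⟨_, inter_mem self_mem_nhdsWithin
    (mem_nhdsWithin_of_mem_nhds (ball_mem_nhds y₀ hδ)), ?_⟩
  have antiX : ∀ x ∈ ball y₀ δ, ∀ y ∈ ball y₀ δ, c₁ * ‖x - y‖ ≤ ‖chord a x - chord a y‖ :=
    fun x hx y hy => hX.self_of_nhds x (ball_subset_ball (min_le_left _ _) hx) y
      (ball_subset_ball (min_le_left _ _) hy)
  have antiY : ∀ x ∈ ball y₀ δ, ∀ y ∈ ball y₀ δ,
      c₂ / 3 * ‖x - y‖ ≤ ‖chord (T a) (T x) - chord (T a) (T y)‖ := by
    intro x hx y hy
    have hmem : ∀ z ∈ ball y₀ δ, T z ∈ ball (T y₀) δ₂ := fun z hz => by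
      rw [mem_ball]
      refine lt_of_le_of_lt (hT.lipschitz.dist_le_mul z y₀) ?_
      rw [NNReal.coe_ofNat]
      linarith [mem_ball.1 hz, min_le_right δ₁ (δ₂ / 4)]
    have h1 := hT.symm.lipschitz.dist_le_mul (T x) (T y)
    rw [hT.left, hT.left, dist_eq_norm, dist_eq_norm, NNReal.coe_ofNat] at h1
    have h2 := hY.self_of_nhds _ (hmem x hx) _ (hmem y hy)
    nlinarith
  obtain ⟨KX, -, hTX⟩ := lintegral_comp_antilipschitz (E := X) (E' := X) rfl hc₁
  obtain ⟨KY, -, hTY⟩ := lintegral_comp_antilipschitz (E := X) (E' := Y) hT.finrank_eq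
    (div_pos hc₂ three_pos)
  have nullX := (hTX (chord a) (ball y₀ δ) _ (continuous_chord a) antiX (Set.mapsTo_univ _ _)).1 _
    (ae_iff.1 (lipschitzWith_one_norm (E := X)).ae_differentiableAt)
  have nullY := (hTY (fun y => chord (T a) (T y)) (ball y₀ δ) _
    ((continuous_chord _).comp hT.lipschitz.continuous) antiY (Set.mapsTo_univ _ _)).1 _
    (ae_iff.1 (lipschitzWith_one_norm (E := Y)).ae_differentiableAt)
  refine measure_mono_null ?_ (measure_union_null nullX nullY)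
  rintro y ⟨hbad, hyB⟩
  by_contra hnot
  simp only [Set.mem_union, not_or] at hnot
  exact hbad fun hoff => ⟨hoff, not_not.1 fun h => hnot.1 ⟨h, hyB⟩,
    not_not.1 fun h => hnot.2 ⟨h, hyB⟩⟩

omit hT in
/-- An almost sure property holds on a dense set of chords. -/
lemma mem_closure_of_ae [FiniteDimensional ℝ X] [MeasurableSpace X] [BorelSpace X] {a : X}
    {G : Set X} (hG : ∀ᵐ y ∂(μH[Module.finrank ℝ X] : Measure X), Off a y → y ∈ G) {y : X}
    (hy : Off a y) : y ∈ closure G := by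
  rw [_root_.mem_closure_iff]
  intro O hO hyO
  obtain ⟨z, hz, hzO⟩ :=
    (Measure.dense_of_ae hG).exists_mem_open (hO.inter (isOpen_off a)) ⟨y, hyO, hy⟩
  exact ⟨z, hzO.1, hz hzO.2⟩

lemma mem_closure_image [FiniteDimensional ℝ X] {a : X} {G : Set X}
    (hG : ∀ y, Off a y → y ∈ closure G) {y' : Y} (hy' : Off (T a) y') :
    y' ∈ closure (T '' G) := by
  have : FiniteDimensional ℝ Y := hT.finiteDimensional
  have h := hT.symm.off_map hy'
  rw [hT.left] at h
  have := map_mem_closure hT.lipschitz.continuous (hG _ h) (Set.mapsTo_image T G)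
  rwa [hT.right] at this

lemma sep_target [FiniteDimensional ℝ X] {a : X} (ha : a ≠ 0) {G : Set X}
    (hG : ∀ y, Off a y → y ∈ closure G) (hsub : G ⊆ genSet T a) {z : Y}
    (hz : ∀ y ∈ G, D1 (chord (T a) (T y)) z = 0) : z = 0 :=
  eq_zero_of_norming_kill (hT.map_ne_zero ha) (fun _ => hT.mem_closure_image hG) (v := z) (by
    rintro _ ⟨y, hy, rfl⟩
    exact ⟨_, norming_D1 (hsub hy).2.2, hz y hy⟩)

omit hT in
lemma sep_source {a : X} (ha : a ≠ 0) {G : Set X}
    (hG : ∀ y, Off a y → y ∈ closure G) (hsub : G ⊆ genSet T a) {z : X}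
    (hz : ∀ y ∈ G, D1 (chord a y) z = 0) : z = 0 :=
  eq_zero_of_norming_kill ha hG (v := z) (fun y hy => ⟨_, norming_D1 (hsub hy).2.1, hz y hy⟩)

/-- Difference quotients of `T` converge along a subsequence. -/
lemma exists_dir_limit [FiniteDimensional ℝ X] (a w : X) {s : ℕ → ℝ}
    (hs : Tendsto s atTop (𝓝[>] 0)) :
    ∃ φ : ℕ → ℕ, ∃ g : Y, StrictMono φ ∧
      Tendsto (fun k => (s (φ k))⁻¹ • (T (a + s (φ k) • w) - T a)) atTop (𝓝 g) := by
  have : FiniteDimensional ℝ Y := hT.finiteDimensional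
  have : ProperSpace Y := FiniteDimensional.proper ℝ Y
  have hev := (tendsto_nhdsWithin_iff.1 hs).2
  obtain ⟨g, -, φ, hφ, hlim⟩ := tendsto_subseq_of_frequently_bounded
    (isBounded_closedBall (x := (0 : Y)) (r := 3 * ‖w‖))
    (x := fun k => (s k)⁻¹ • (T (a + s k • w) - T a))
    (hev.mono fun k (hk : 0 < s k) => by
      rw [mem_closedBall_zero_iff, norm_smul, Real.norm_of_nonneg (inv_nonneg.2 hk.le),
        inv_mul_le_iff₀ hk]
      refine (hT.lipschitz.norm_sub_le _ _).trans (le_of_eq ?_)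
      rw [add_sub_cancel_left, norm_smul, Real.norm_of_nonneg hk.le, NNReal.coe_ofNat]
      ring).frequently
  exact ⟨φ, g, hφ, hlim⟩

/-- The first-order chord identity. -/
lemma chord_first_order [FiniteDimensional ℝ X] {a y w : X}
    (hdX : DifferentiableAt ℝ (fun z : X => ‖z‖) (chord a y))
    (hdY : DifferentiableAt ℝ (fun z : Y => ‖z‖) (chord (T a) (T y)))
    {t : ℕ → ℝ} {g : Y} {d : ℝ} (ht : Tendsto t atTop (𝓝[>] 0))
    (hg : Tendsto (fun k => (t k)⁻¹ • (T (a + t k • w) - T a)) atTop (𝓝 g))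
    (hd : Tendsto (fun k => (t k)⁻¹ * (‖a + t k • w‖ - ‖a‖)) atTop (𝓝 d)) :
    D1 (chord (T a) (T y)) (‖y‖ • g - d • T y) = D1 (chord a y) (‖y‖ • w - d • y) := by
  obtain ⟨ht0, htpos⟩ := tendsto_nhdsWithin_iff.1 ht
  have htw : Tendsto (fun k => a + t k • w) atTop (𝓝 a) := by
    simpa using (tendsto_const_nhds (x := a)).add (ht0.smul (tendsto_const_nhds (x := w)))
  have cX : Tendsto (fun k => chord (a + t k • w) y - chord a y) atTop (𝓝 0) := by
    simpa using (((continuous_chord_left y).tendsto a).comp htw).sub_const (chord a y)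
  have cY : Tendsto (fun k => chord (T (a + t k • w)) (T y) - chord (T a) (T y)) atTop (𝓝 0) := by
    simpa using ((((continuous_chord_left (T y)).comp hT.lipschitz.continuous).tendsto a).comp
      htw).sub_const (chord (T a) (T y))
  have sX : Tendsto (fun k => (t k)⁻¹ • (chord (a + t k • w) y - chord a y)) atTop
      (𝓝 (‖y‖ • w - d • y)) := by
    refine ((tendsto_const_nhds (x := ‖y‖ • w)).sub (hd.smul_const y)).congr' ?_
    filter_upwards [htpos] with k hk
    rw [chord_sub, add_sub_cancel_left, smul_sub, smul_smul, smul_smul, smul_smul,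
      show (t k)⁻¹ * ‖y‖ * t k = ‖y‖ by field_simp [ne_of_gt (show 0 < t k from hk)]]
  have sY : Tendsto (fun k => (t k)⁻¹ • (chord (T (a + t k • w)) (T y) - chord (T a) (T y))) atTop
      (𝓝 (‖y‖ • g - d • T y)) := by
    refine ((hg.const_smul ‖y‖).sub (hd.smul_const (T y))).congr fun k => ?_
    rw [chord_sub, hT.norm_map, hT.norm_map, hT.norm_map]
    module
  have l1 := hdX.hasFDerivAt.hasFDerivWithinAt.lim cX (Eventually.of_forall fun _ => Set.mem_univ _) sX
  have l2 := hdY.hasFDerivAt.hasFDerivWithinAt.lim cY (Eventually.of_forall fun _ => Set.mem_univ _) sY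
  refine tendsto_nhds_unique l2 (l1.congr fun k => ?_)
  simp only [add_sub_cancel, hT.norm_chord]

/-- Every limit direction of `T` is seen by the generic chords. -/
lemma first_order_value [FiniteDimensional ℝ X] {a y w : X} (hy : y ∈ genSet T a)
    {t : ℕ → ℝ} {g : Y} (ht : Tendsto t atTop (𝓝[>] 0))
    (hg : Tendsto (fun k => (t k)⁻¹ • (T (a + t k • w) - T a)) atTop (𝓝 g)) :
    D1 (chord (T a) (T y)) g - D1 (chord a y) w
      = dsup a w * (D1 (chord (T a) (T y)) (T a) - D1 (chord a y) a) / ‖a‖ := by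
  have h1 := hT.chord_first_order hy.2.1 hy.2.2 ht hg (tendsto_dsup a w ht)
  have hu : D1 (chord a y) (chord a y) = D1 (chord (T a) (T y)) (chord (T a) (T y)) := by
    rw [D1, D1, hy.2.1.fderiv_norm_self, hy.2.2.fderiv_norm_self, ← hT.norm_chord]
  simp only [map_sub, map_smul, smul_eq_mul] at h1
  simp only [chord, map_sub, map_smul, smul_eq_mul, hT.norm_map] at hu
  have hr : ‖a‖ ≠ 0 := norm_ne_zero_iff.2 hy.1.left_ne
  have hy0 : ‖y‖ ≠ 0 := norm_ne_zero_iff.2 hy.1.right_ne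
  simp only [chord, hT.norm_map] at h1 hu ⊢
  field_simp
  refine mul_left_cancel₀ hy0 ?_
  linear_combination ‖a‖ * h1 + dsup a w * hu

/-- A blow-up point carries a linear map which the generic chords see as the derivative. -/
lemma exists_linear_of_blowup [FiniteDimensional ℝ X] {a : X} {v : Y} {ρ : ℝ} (ha : a ≠ 0)
    (hρ : 0 ≤ ρ) (hvρ : ‖v‖ + ρ = 1) (hd : BlowupData T a v ρ) :
    ∃ A : X ≃ₗ[ℝ] Y, ∃ β : Y, ∃ G : Set X, v = ρ • β ∧ G ⊆ genSet T a ∧
      (∀ y, Off a y → y ∈ closure G) ∧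
      (∀ y ∈ G, ∀ w, D1 (chord (T a) (T y)) (A w) = D1 (chord a y) w) ∧
      T a = A a + ‖a‖ • β ∧
      ∀ w, ∀ (t : ℕ → ℝ) (g : Y), Tendsto t atTop (𝓝[>] 0) →
        Tendsto (fun k => (t k)⁻¹ • (T (a + t k • w) - T a)) atTop (𝓝 g) →
          g = A w + dsup a w • β := by
  have : FiniteDimensional ℝ Y := hT.finiteDimensional
  borelize X
  have hr0 : 0 < ‖a‖ := norm_pos_iff.2 ha
  let G : Set X := {y | y ∈ genSet T a ∧
    D1 (chord (T a) (T y)) v + ρ * ((D1 (chord a y) a - D1 (chord (T a) (T y)) (T a)) / ‖a‖) = 0}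
  have hGcl : ∀ y, Off a y → y ∈ closure G := fun y hy => by
    refine mem_closure_of_ae ?_ hy
    filter_upwards [hT.ae_genSet ha, hT.ae_blowup ha hd] with z h1 h2 hz
    exact ⟨h1 hz, (h2 hz).2.2⟩
  have hsub : G ⊆ genSet T a := fun y hy => hy.1
  have sepY : ∀ z : Y, (∀ y ∈ G, D1 (chord (T a) (T y)) z = 0) → z = 0 := fun z hz =>
    hT.sep_target ha hGcl hsub hz
  have hρ0 : 0 < ρ := by
    rcases eq_or_lt_of_le hρ with h | h
    · have hv0 : v = 0 := sepY v fun y hy => by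
        have := hy.2
        rwa [← h, zero_mul, add_zero] at this
      rw [hv0, norm_zero, ← h] at hvρ
      norm_num at hvρ
    · exact h
  set β := ρ⁻¹ • v with hβ
  have hψβ : ∀ y ∈ G, D1 (chord (T a) (T y)) β
      = (D1 (chord (T a) (T y)) (T a) - D1 (chord a y) a) / ‖a‖ := by
    intro y hy
    have := hy.2
    rw [hβ, map_smul, smul_eq_mul]
    field_simp at this ⊢
    linarith
  have hdir : ∀ w, ∀ (t : ℕ → ℝ) (g : Y), Tendsto t atTop (𝓝[>] 0) →
      Tendsto (fun k => (t k)⁻¹ • (T (a + t k • w) - T a)) atTop (𝓝 g) →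
      ∀ y ∈ G, D1 (chord (T a) (T y)) (g - dsup a w • β) = D1 (chord a y) w := by
    intro w t g ht hg y hy
    have h := hT.first_order_value hy.1 ht hg
    rw [map_sub, map_smul, smul_eq_mul, hψβ y hy]
    rw [mul_div_assoc] at h
    linarith
  have hex : ∀ w : X, ∃ t : ℕ → ℝ, ∃ g : Y, Tendsto t atTop (𝓝[>] 0) ∧
      Tendsto (fun k => (t k)⁻¹ • (T (a + t k • w) - T a)) atTop (𝓝 g) := fun w => by
    have hs : Tendsto (fun k : ℕ => (1 : ℝ) / (k + 1)) atTop (𝓝[>] 0) :=
      tendsto_nhdsWithin_iff.2 ⟨tendsto_one_div_add_atTop_nhds_zero_nat,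
        Eventually.of_forall fun k => show (0 : ℝ) < 1 / (k + 1) by positivity⟩
    obtain ⟨φ, g, hφ, hlim⟩ := hT.exists_dir_limit a w hs
    exact ⟨_, g, hs.comp hφ.tendsto_atTop, hlim⟩
  choose t g ht hg using hex
  let α : X → Y := fun w => g w - dsup a w • β
  have hα : ∀ w, ∀ y ∈ G, D1 (chord (T a) (T y)) (α w) = D1 (chord a y) w := fun w =>
    hdir w _ _ (ht w) (hg w)
  have huniq : ∀ w z, (∀ y ∈ G, D1 (chord (T a) (T y)) z = D1 (chord a y) w) → z = α w :=
    fun w z hz => sub_eq_zero.1 (sepY _ fun y hy => by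
      rw [map_sub, hz y hy, hα w y hy, sub_self])
  let A : X →ₗ[ℝ] Y :=
    { toFun := α
      map_add' := fun u w => (huniq (u + w) _ fun y hy => by
        rw [map_add, map_add, hα u y hy, hα w y hy]).symm
      map_smul' := fun c w => (huniq (c • w) _ fun y hy => by
        rw [RingHom.id_apply, map_smul, map_smul, hα w y hy]).symm }
  have hAinj : Function.Injective A := by
    rw [injective_iff_map_eq_zero]
    intro w hw
    refine sep_source ha hGcl hsub fun y hy => ?_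
    rw [← hα w y hy, show α w = 0 from hw]
    exact ContinuousLinearMap.map_zero _
  have hAbij : Function.Bijective A := ⟨hAinj,
    (LinearMap.injective_iff_surjective_of_finrank_eq_finrank hT.finrank_eq).1 hAinj⟩
  refine ⟨LinearEquiv.ofBijective A hAbij,
    β, G, by rw [hβ, smul_inv_smul₀ hρ0.ne'], hsub, hGcl, fun y hy w => hα w y hy, ?_, ?_⟩
  · have hAa : A a = T a - ‖a‖ • β := (huniq a _ fun y hy => by
      rw [map_sub, map_smul, hψβ y hy, smul_eq_mul, mul_div_cancel₀ _ hr0.ne']; ring).symm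
    rw [LinearEquiv.ofBijective_apply, hAa, sub_add_cancel]
  · intro w t' g' ht' hg'
    rw [LinearEquiv.ofBijective_apply, show A w = α w from rfl,
      ← huniq w _ (hdir w t' g' ht' hg'), sub_add_cancel]

/-- The linear map of a blow-up point preserves the length of chord directions. -/
lemma norm_of_chordSet [FiniteDimensional ℝ X] {a : X} (ha : a ≠ 0) {A : X ≃ₗ[ℝ] Y} {β : Y}
    {G : Set X} (hsub : G ⊆ genSet T a) (hGcl : ∀ y, Off a y → y ∈ closure G)
    (hAG : ∀ y ∈ G, ∀ w, D1 (chord (T a) (T y)) (A w) = D1 (chord a y) w)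
    (hg : ∀ w, ∀ (t : ℕ → ℝ) (g : Y), Tendsto t atTop (𝓝[>] 0) →
      Tendsto (fun k => (t k)⁻¹ • (T (a + t k • w) - T a)) atTop (𝓝 g) →
        g = A w + dsup a w • β) {z : X} (hz : z ∈ chordSet a) : ‖A z‖ = ‖z‖ := by
  have : FiniteDimensional ℝ Y := hT.finiteDimensional
  set p := T a with hp
  have hpr : ‖p‖ = ‖a‖ := hT.norm_map a
  have hr0 : 0 < ‖a‖ := norm_pos_iff.2 ha
  have hd : ∀ w, dsup p (A w + dsup a w • β) = dsup a w := by
    intro w
    have hs : Tendsto (fun k : ℕ => (1 : ℝ) / (k + 1)) atTop (𝓝[>] 0) :=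
      tendsto_nhdsWithin_iff.2 ⟨tendsto_one_div_add_atTop_nhds_zero_nat,
        Eventually.of_forall fun k => show (0 : ℝ) < 1 / (k + 1) by positivity⟩
    obtain ⟨φ, g, hφ, hlim⟩ := hT.exists_dir_limit a w hs
    have ht := hs.comp hφ.tendsto_atTop
    rw [← hg w _ g ht hlim]
    refine tendsto_nhds_unique (tendsto_dsup p g ht) (tendsto_of_tendsto_of_dist
      (tendsto_dsup a w ht) (squeeze_zero' (Eventually.of_forall fun _ => dist_nonneg) ?_
        (tendsto_iff_norm_sub_tendsto_zero.1 hlim)))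
    filter_upwards [(tendsto_nhdsWithin_iff.1 ht).2] with k (hk : 0 < (1 : ℝ) / (φ k + 1))
    simp only [Function.comp_apply]
    set τ := (1 : ℝ) / (φ k + 1) with hτ
    rw [Real.dist_eq, ← mul_sub, abs_mul, abs_inv, abs_of_pos hk, inv_mul_le_iff₀ hk, hpr,
      sub_sub_sub_cancel_right, ← hT.norm_map (a + τ • w)]
    refine (abs_norm_sub_norm_le _ _).trans (le_of_eq ?_)
    rw [← Real.norm_of_nonneg hk.le, ← norm_smul, Real.norm_of_nonneg hk.le, smul_sub,
      smul_inv_smul₀ hk.ne']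
    congr 1
    abel
  have hcl : ∀ y, Off a y → ‖chord a y‖ ≤ ‖A (chord a y)‖ ∧
      ‖chord p (T y)‖ ≤ ‖A.symm (chord p (T y))‖ := by
    intro y hy
    have hcl' : IsClosed {z : X | ‖chord a z‖ ≤ ‖A (chord a z)‖ ∧
        ‖chord p (T z)‖ ≤ ‖A.symm (chord p (T z))‖} := by
      have h1 : Continuous A := A.toLinearMap.continuous_of_finiteDimensional
      have h2 : Continuous A.symm := A.symm.toLinearMap.continuous_of_finiteDimensional
      have h3 := continuous_chord a
      have h4 : Continuous fun z => chord p (T z) :=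
        (continuous_chord p).comp hT.lipschitz.continuous
      exact (isClosed_le h3.norm (h1.comp h3).norm).inter (isClosed_le h4.norm (h2.comp h4).norm)
    refine hcl'.closure_subset_iff.2 (fun z hz => ?_) (hGcl y hy)
    constructor
    · refine le_trans (le_of_eq ?_) (D1_le (chord p (T z)) _)
      rw [hAG _ hz, D1, (hsub hz).2.1.fderiv_norm_self]
    · refine le_trans (le_of_eq ?_) (D1_le (chord a z) _)
      rw [← hAG _ hz, A.apply_symm_apply, D1, (hsub hz).2.2.fderiv_norm_self]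
  have hup : ∀ b ∈ chordSet p, ‖b‖ ≤ ‖A.symm b‖ := by
    intro b hb
    obtain ⟨y', hy', rfl⟩ := exists_of_mem_chordSet hb
    have h := hT.symm.off_map hy'
    rw [hp, hT.left] at h
    have := (hcl _ h).2
    rwa [hT.right] at this
  have hmap : A z ∈ chordSet p ∨ -A z ∈ chordSet p := by
    simp only [mem_chordSet_iff, neg_neg]
    have hD := (mem_chordSet_iff a).1 hz
    rcases lt_or_ge (dsup p β) 1 with hb | hb
    · left
      have h1 := dsup_add_le p (A (-z) + dsup a (-z) • β) ((-dsup a (-z)) • β)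
      rw [hd, dsup_smul p (by linarith), map_neg,
        show -A z + dsup a (-z) • β + (-dsup a (-z)) • β = -A z by module] at h1
      nlinarith
    · right
      obtain ⟨ω, hω, hωβ⟩ := exists_dsup_eq p β
      obtain ⟨ω₀, hω₀⟩ := exists_norming a
      set b := ω β with hb'
      have hkey : ∀ w, ω (A w) ≤ (1 - b) * dsup a w := fun w => by
        have h1 := le_dsup p hω (A w + dsup a w • β)
        rw [hd, map_add, map_smul, smul_eq_mul, ← hb'] at h1
        linarith
      have hωp : ω p = ‖a‖ := by rw [hω.2, hpr]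
      have hb1 : 1 < b := by
        rcases eq_or_lt_of_le (show 1 ≤ b from hωβ.symm ▸ hb) with h | h
        · exfalso
          have hz0 : ∀ w, ω (A w) = 0 := fun w => by
            have h1 := hkey w
            have h2 := hkey (-w)
            rw [← h] at h1 h2
            rw [map_neg, map_neg] at h2
            linarith
          rw [← A.apply_symm_apply p, hz0] at hωp
          linarith
        · exact h
      have hlin : ∀ w, ω (A w) = (1 - b) * ω₀ w := fun w => by
        have h1 := hkey w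
        have h2 := hkey (-w)
        have h3 := mul_le_mul_of_nonpos_left (le_dsup a hω₀ w) (by linarith : 1 - b ≤ 0)
        have h4 := mul_le_mul_of_nonpos_left (le_dsup a hω₀ (-w)) (by linarith : 1 - b ≤ 0)
        rw [map_neg, map_neg] at h2
        rw [map_neg] at h4
        linarith
      have hdlin : ∀ w, dsup a w = ω₀ w := fun w => by
        have h1 := hkey w
        rw [hlin] at h1
        nlinarith [le_dsup a hω₀ w]
      let Gm : X →ₗ[ℝ] Y := A.toLinearMap + ω₀.toLinearMap.smulRight β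
      have hGm : ∀ w, Gm w = A w + ω₀ w • β := fun _ => rfl
      have hGinj : Function.Injective Gm := by
        rw [injective_iff_map_eq_zero]
        intro w hw
        rw [hGm] at hw
        have h0 := congrArg ω hw
        rw [map_add, ContinuousLinearMap.map_zero, map_smul, hlin, smul_eq_mul, ← hb'] at h0
        have hw0 : ω₀ w = 0 := by linarith
        rw [hw0, zero_smul, add_zero] at hw
        exact A.map_eq_zero_iff.1 hw
      obtain ⟨u, hu⟩ :=
        (LinearMap.injective_iff_surjective_of_finrank_eq_finrank hT.finrank_eq).1 hGinj (A z)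
      have h1 := congrArg ω hu
      rw [hGm, map_add, map_smul, hlin, hlin, smul_eq_mul, ← hb'] at h1
      have h2 := hd u
      rw [hdlin, ← hGm, hu] at h2
      rw [h2]
      rw [hdlin, map_neg] at hD
      nlinarith
  obtain ⟨y, hy, rfl⟩ := exists_of_mem_chordSet hz
  refine le_antisymm ?_ (hcl y hy).1
  rcases hmap with h | h
  · have := hup _ h
    rwa [A.symm_apply_apply] at this
  · have := hup _ h
    rwa [map_neg, A.symm_apply_apply, norm_neg, norm_neg] at this

/-- The linear map of a blow-up point is an isometry. -/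
lemma norm_eq_of_blowup [FiniteDimensional ℝ X] {a : X} (ha : a ≠ 0) {A : X ≃ₗ[ℝ] Y} {β : Y}
    (hC : ∀ z ∈ chordSet a, ‖A z‖ = ‖z‖)
    (hg : ∀ w, ∀ (t : ℕ → ℝ) (g : Y), Tendsto t atTop (𝓝[>] 0) →
      Tendsto (fun k => (t k)⁻¹ • (T (a + t k • w) - T a)) atTop (𝓝 g) →
        g = A w + dsup a w • β) (u : X) : ‖A u‖ = ‖u‖ := by
  have hr0 : 0 < ‖a‖ := norm_pos_iff.2 ha
  have hA : Continuous A := A.toLinearMap.continuous_of_finiteDimensional
  have hclosed : IsClosed {z : X | ‖A z‖ = ‖z‖} := isClosed_eq hA.norm continuous_norm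
  have hneg : ∀ z, dsup a z ≤ 0 → ‖A z‖ = ‖z‖ := by
    intro z hz
    have hlim : Tendsto (fun ε : ℝ => z + ε • -a) (𝓝[>] 0) (𝓝 z) := by
      have : Continuous fun ε : ℝ => z + ε • -a := by fun_prop
      simpa using (this.tendsto 0).mono_left nhdsWithin_le_nhds
    refine hclosed.mem_of_tendsto hlim ?_
    filter_upwards [self_mem_nhdsWithin] with ε (hε : 0 < ε)
    have h1 : dsup a (z + ε • -a) < 0 := by
      have h2 := dsup_add_le a z (ε • -a)
      rw [dsup_smul a hε.le, dsup_neg_self] at h2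
      nlinarith
    have h2 := hC (-(z + ε • -a)) ((mem_chordSet_iff a).2 (by rwa [neg_neg]))
    rwa [map_neg, norm_neg, norm_neg] at h2
  by_cases h1 : dsup a u ≤ 0
  · exact hneg u h1
  by_cases h2 : dsup a (-u) ≤ 0
  · have := hneg _ h2
    rwa [map_neg, norm_neg, norm_neg] at this
  push Not at h1 h2
  -- two tangent directions whose difference is parallel to `u`
  let f : ℝ → ℝ := fun s => dsup a (-a + s • u)
  have hf : Continuous f := (continuous_dsup a).comp (by fun_prop)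
  have hf0 : f 0 = -‖a‖ := by simp [f, dsup_neg_self]
  have hbig : ∀ w : X, ∀ M : ℝ, 0 ≤ M → M * dsup a w - ‖a‖ ≤ dsup a (-a + M • w) := by
    intro w M hM
    have h := dsup_add_le a (-a + M • w) a
    rw [neg_add_cancel_comm, dsup_smul a hM, dsup_self] at h
    linarith
  obtain ⟨s₁, hs₁, hfs₁⟩ : ∃ s₁ > 0, f s₁ = 0 := by
    have hM : 0 < 2 * ‖a‖ / dsup a u := by positivity
    have h3 : 0 ≤ f (2 * ‖a‖ / dsup a u) := by
      have := hbig u _ hM.le
      rw [div_mul_cancel₀ _ h1.ne'] at this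
      show 0 ≤ dsup a _
      linarith
    obtain ⟨s, hs, hfs⟩ := intermediate_value_Icc hM.le hf.continuousOn
      (show (0 : ℝ) ∈ Set.Icc (f 0) _ from ⟨by rw [hf0]; linarith, h3⟩)
    refine ⟨s, lt_of_le_of_ne hs.1 fun h => ?_, hfs⟩
    rw [← h, hf0] at hfs
    linarith
  obtain ⟨s₂, hs₂, hfs₂⟩ : ∃ s₂ < 0, f s₂ = 0 := by
    have hM : 0 < 2 * ‖a‖ / dsup a (-u) := by positivity
    have h3 : 0 ≤ f (-(2 * ‖a‖ / dsup a (-u))) := by
      have := hbig (-u) _ hM.le
      rw [div_mul_cancel₀ _ h2.ne', smul_neg, ← neg_smul] at this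
      show 0 ≤ dsup a _
      linarith
    obtain ⟨s, hs, hfs⟩ := intermediate_value_Icc' (neg_nonpos.2 hM.le) hf.continuousOn
      (show (0 : ℝ) ∈ Set.Icc (f 0) _ from ⟨by rw [hf0]; linarith, h3⟩)
    refine ⟨s, lt_of_le_of_ne hs.2 fun h => ?_, hfs⟩
    rw [h, hf0] at hfs
    linarith
  set w₁ := -a + s₁ • u with hw₁
  set w₂ := -a + s₂ • u with hw₂
  have hs : Tendsto (fun k : ℕ => (1 : ℝ) / (k + 1)) atTop (𝓝[>] 0) :=
    tendsto_nhdsWithin_iff.2 ⟨tendsto_one_div_add_atTop_nhds_zero_nat,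
      Eventually.of_forall fun k => show (0 : ℝ) < 1 / (k + 1) by positivity⟩
  obtain ⟨φ, g₁, hφ, hlim₁⟩ := hT.exists_dir_limit a w₁ hs
  obtain ⟨χ, g₂, hχ, hlim₂⟩ := hT.exists_dir_limit a w₂ (hs.comp hφ.tendsto_atTop)
  simp only [Function.comp_apply] at hlim₂
  set τ := fun k : ℕ => (1 : ℝ) / ((φ (χ k) : ℝ) + 1) with hτdef
  have hτ : Tendsto τ atTop (𝓝[>] 0) :=
    (hs.comp hφ.tendsto_atTop).comp hχ.tendsto_atTop
  have l1 : Tendsto (fun k => (τ k)⁻¹ • (T (a + τ k • w₁) - T a)) atTop (𝓝 g₁) :=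
    hlim₁.comp hχ.tendsto_atTop
  have e1 : g₁ = A w₁ := by
    rw [hg w₁ τ g₁ hτ l1, show dsup a w₁ = 0 from hfs₁, zero_smul, add_zero]
  have e2 : g₂ = A w₂ := by
    rw [hg w₂ τ g₂ hτ hlim₂, show dsup a w₂ = 0 from hfs₂, zero_smul, add_zero]
  have lT : Tendsto (fun k => (τ k)⁻¹ * ‖T (a + τ k • w₁) - T (a + τ k • w₂)‖) atTop
      (𝓝 ‖A w₁ - A w₂‖) := by
    rw [← e1, ← e2]
    refine ((l1.sub hlim₂).norm).congr' ?_
    filter_upwards [(tendsto_nhdsWithin_iff.1 hτ).2] with k (hk : 0 < τ k)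
    rw [← smul_sub, norm_smul, sub_sub_sub_cancel_right, Real.norm_of_nonneg (inv_nonneg.2 hk.le)]
  have lE : Tendsto (fun k => (τ k)⁻¹ * ‖T (a + τ k • w₁) - T (a + τ k • w₂)‖) atTop
      (𝓝 ‖w₁ - w₂‖) := by
    have lerr : Tendsto (fun k => 2 * |(τ k)⁻¹ * (‖a + τ k • w₁‖ - ‖a‖)
        - (τ k)⁻¹ * (‖a + τ k • w₂‖ - ‖a‖)|) atTop (𝓝 0) := by
      have := (((tendsto_dsup a w₁ hτ).sub (tendsto_dsup a w₂ hτ)).abs).const_mul 2
      rwa [show dsup a w₁ = 0 from hfs₁, show dsup a w₂ = 0 from hfs₂, sub_zero, abs_zero,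
        mul_zero] at this
    refine tendsto_iff_dist_tendsto_zero.2 (squeeze_zero' (Eventually.of_forall fun _ =>
      dist_nonneg) ?_ lerr)
    filter_upwards [(tendsto_nhdsWithin_iff.1 hτ).2] with k (hk : 0 < τ k)
    have h := hT.abs_dist_map_le (a + τ k • w₁) (a + τ k • w₂)
    rw [add_sub_add_left_eq_sub, ← smul_sub, norm_smul, Real.norm_of_nonneg hk.le] at h
    rw [Real.dist_eq, ← mul_sub, sub_sub_sub_cancel_right, abs_mul, abs_inv, abs_of_pos hk,
      show (τ k)⁻¹ * ‖T (a + τ k • w₁) - T (a + τ k • w₂)‖ - ‖w₁ - w₂‖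
        = (τ k)⁻¹ * (‖T (a + τ k • w₁) - T (a + τ k • w₂)‖ - τ k * ‖w₁ - w₂‖) by field_simp,
      abs_mul, abs_inv, abs_of_pos hk]
    nlinarith [inv_pos.2 hk, abs_nonneg (‖a + τ k • w₁‖ - ‖a + τ k • w₂‖)]
  have key := tendsto_nhds_unique lT lE
  rw [← map_sub, hw₁, hw₂, add_sub_add_left_eq_sub, ← sub_smul, map_smul, norm_smul, norm_smul]
    at key
  exact mul_left_cancel₀ (norm_ne_zero_iff.2 (by linarith : s₁ - s₂ ≠ 0)) key

omit hT in
/-- Chord directions can be lifted continuously. -/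
lemma exists_lift [FiniteDimensional ℝ X] {a y₀ : X} (h : Off a y₀) {ε : ℝ} (hε : 0 < ε) :
    ∀ᶠ z in 𝓝 (chord a y₀), ∃ y, Off a y ∧ chord a y = z ∧ ‖y - y₀‖ < ε := by
  have : ProperSpace X := FiniteDimensional.proper ℝ X
  by_contra hcon
  rw [not_eventually] at hcon
  obtain ⟨z, hz, hbad⟩ := exists_seq_forall_of_frequently hcon
  obtain ⟨t, ht, hlt⟩ := chord_mem h
  have hev : ∀ᶠ n in atTop, ‖a - t • z n‖ < ‖a‖ :=
    ((continuous_const.sub (continuous_id.const_smul t)).norm.tendsto _ |>.comp hz).eventually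
      (eventually_lt_nhds hlt)
  obtain ⟨N, hN⟩ := eventually_atTop.1 hev
  choose y hy hc hb using fun n => exists_of_mem_chordSet_le ht (hN (n + N) (Nat.le_add_left N n))
  obtain ⟨y', -, φ, hφ, hlim⟩ := tendsto_subseq_of_bounded
    (isBounded_closedBall (x := (0 : X)) (r := 1 / t)) (x := y)
    (fun n => mem_closedBall_zero_iff.2 (hb n))
  have h1 : Tendsto (fun n => chord a (y (φ n))) atTop (𝓝 (chord a y')) :=
    ((continuous_chord a).tendsto y').comp hlim
  have h2 : Tendsto (fun n => chord a (y (φ n))) atTop (𝓝 (chord a y₀)) := by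
    simp only [hc]
    exact hz.comp ((tendsto_add_atTop_nat N).comp hφ.tendsto_atTop)
  have he := tendsto_nhds_unique h1 h2
  have hy' : y' ≠ 0 := fun h0 => h.chord_ne_zero (by rw [← he, h0]; simp [chord])
  rw [chord_inj h hy' he] at hlim
  obtain ⟨n, hn⟩ := ((tendsto_iff_norm_sub_tendsto_zero.1 hlim).eventually
    (eventually_lt_nhds hε)).exists
  exact hbad _ ⟨y (φ n), hy _, hc _, hn⟩

/-- Norming covectors at `a` also norm the pulled back image of `a + y`. -/
lemma norming_pullback [FiniteDimensional ℝ X] {a : X} (ha : a ≠ 0) {A : X ≃ₗ[ℝ] Y} {G : Set X}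
    (hsub : G ⊆ genSet T a) (hGcl : ∀ y, Off a y → y ∈ closure G)
    (hAG : ∀ y ∈ G, ∀ w, D1 (chord (T a) (T y)) (A w) = D1 (chord a y) w)
    {φ : X →L[ℝ] ℝ} (hφ : Norming φ a) {y : X} (hn : ‖y‖ = ‖a‖)
    (hK : ∀ η : X →L[ℝ] ℝ, Norming η a → η y = ‖a‖) :
    2 * ‖a‖ ≤ φ (A.symm (T a + T y)) := by
  have hy : φ y = ‖a‖ := hK φ hφ
  have : FiniteDimensional ℝ Y := hT.finiteDimensional
  set r := ‖a‖ with hr
  have hr0 : 0 < r := norm_pos_iff.2 ha
  have hy0 : y ≠ 0 := by rw [← norm_ne_zero_iff, hn]; exact hr0.ne'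
  have hu : chord a (-y) = r • (a + y) := by
    rw [chord, norm_neg, hn, smul_neg, sub_neg_eq_add, ← hr, smul_add]
  have hnu : φ (r • (a + y)) = 2 * r * r := by
    rw [map_smul, map_add, hφ.2, hy, smul_eq_mul]; ring
  have hnorm : ‖r • (a + y)‖ = 2 * r * r := by
    refine le_antisymm ?_ (hnu ▸ hφ.le _)
    rw [norm_smul, Real.norm_of_nonneg hr0.le]
    nlinarith [norm_add_le a y]
  have hoff : Off a (-y) := by
    refine off_of_chord_mem ha (neg_ne_zero.2 hy0) ?_
    rw [hu]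
    refine ⟨1 / (2 * r), by positivity, ?_⟩
    rw [show a - (1 / (2 * r)) • r • (a + y) = (1 / 2 : ℝ) • (a - y) by
      match_scalars <;> field_simp <;> ring, norm_smul, Real.norm_of_nonneg (by norm_num)]
    rcases (norm_sub_le a y).lt_or_eq with h | h
    · linarith
    · exfalso
      obtain ⟨η, hη⟩ := exists_norming (a - y)
      have h1 := hη.2
      rw [h, map_sub, hn, ← hr] at h1
      have h2 := hη.le a
      have h3 := hη.le (-y)
      rw [map_neg, norm_neg, hn] at h3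
      have h4 : η a = r := by linarith
      have h5 := hK η ⟨hη.1, h4.trans hr⟩
      linarith
  refine le_of_forall_pos_le_add fun ε hε => ?_
  set u := r • (a + y) with hudef
  set u' := A.symm (r • (T a + T y)) with hu'
  have hF : Continuous fun z => A.symm (chord (T a) (T z)) :=
    (A.symm.toLinearMap.continuous_of_finiteDimensional).comp
      ((continuous_chord _).comp hT.lipschitz.continuous)
  have hF0 : A.symm (chord (T a) (T (-y))) = u' := by
    rw [hu', hT.odd_general, chord, norm_neg, hT.norm_map, hT.norm_map, hn, smul_neg,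
      sub_neg_eq_add, ← hr, smul_add]
  clear_value u
  have hη : 0 < ε * r / 4 := by positivity
  have hκ : 0 < min 1 (ε * r / 4 / (3 + ‖u'‖)) := lt_min one_pos (by positivity)
  obtain ⟨δ, hδ, hball⟩ := Metric.continuous_iff.1 hF (-y) _ hη
  have hev := (exists_lift hoff (half_pos hδ))
  rw [hu] at hev
  have hpath : Tendsto (fun t : ℝ => u + t • (-u')) (𝓝[>] 0) (𝓝 u) := by
    have : Continuous fun t : ℝ => u + t • (-u') := by fun_prop
    simpa using (this.tendsto 0).mono_left nhdsWithin_le_nhds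
  obtain ⟨t, ⟨⟨z, hz, hzc, hzn⟩, htε⟩, ht : 0 < t⟩ := (((hpath.eventually hev).and
    (mem_nhdsWithin_of_mem_nhds (eventually_lt_nhds hκ))).and self_mem_nhdsWithin).exists
  have hne : ∀ᶠ w in 𝓝 z, ‖chord a w - chord a z‖ < t ^ 2 ∧ ‖w - -y‖ < δ := by
    refine Filter.Eventually.and ?_ ((continuous_id.sub continuous_const).norm.continuousAt.eventually
      (eventually_lt_nhds (by simpa using lt_trans hzn (half_lt_self hδ))))
    exact (((continuous_chord a).sub continuous_const).norm.continuousAt).eventually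
      (eventually_lt_nhds (by simpa using pow_pos ht 2))
  obtain ⟨w, ⟨hw1, hw2⟩, hwG⟩ := mem_closure_iff_frequently.1 (hGcl z hz) |>.and_eventually hne
    |>.exists.imp fun w h => (⟨h.2, h.1⟩ : _ ∧ w ∈ G)
  obtain ⟨-, hdX, hdY⟩ := hsub hwG
  set ξ := D1 (chord a w) with hξ
  have hξn : Norming ξ (chord a w) := norming_D1 hdX
  set e := chord a w - chord a z with he
  have hcw : chord a w = u + t • (-u') + e := by rw [he, hzc]; abel
  have h1 : ξ (chord a w) = ‖chord a w‖ := hξn.2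
  have h2 := hφ.le (chord a w)
  have h3 : ξ u ≤ φ u := by rw [hnu, ← hnorm]; exact hξn.le u
  have h4 : |ξ e| ≤ t ^ 2 := ((ξ.le_opNorm e).trans
    (mul_le_of_le_one_left (norm_nonneg _) hξn.1)).trans hw1.le
  have h5 : |φ e| ≤ t ^ 2 := ((φ.le_opNorm e).trans
    (mul_le_of_le_one_left (norm_nonneg _) hφ.1)).trans hw1.le
  have h6 : ξ u' ≤ φ u' + 2 * t := by
    simp only [hcw, map_add, map_smul, map_neg, smul_eq_mul] at h1 h2
    rw [abs_le] at h4 h5
    rw [← hcw] at h1 h2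
    nlinarith
  have h7 : ξ (A.symm (chord (T a) (T w))) = ‖chord a w‖ := by
    rw [hξ, ← hAG w hwG, A.apply_symm_apply, D1, hdY.fderiv_norm_self, ← hT.norm_chord]
  have h8 : |ξ (A.symm (chord (T a) (T w)) - u')| ≤ ε * r / 4 := by
    refine ((ξ.le_opNorm _).trans (mul_le_of_le_one_left (norm_nonneg _) hξn.1)).trans ?_
    have := hball w (by rw [dist_eq_norm]; exact hw2)
    rw [dist_eq_norm, hF0] at this
    exact this.le
  have h9 : φ u' = r * φ (A.symm (T a + T y)) := by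
    rw [hu', map_smul, map_smul, smul_eq_mul]
  have h10 : ‖u‖ - t * ‖u'‖ - t ^ 2 ≤ ‖chord a w‖ := by
    have g1 := hφ.le (chord a w)
    simp only [hcw, map_add, map_smul, map_neg, smul_eq_mul, hnu] at g1
    rw [← hcw] at g1
    have g2 := (le_abs_self _).trans ((φ.le_opNorm u').trans
      (mul_le_of_le_one_left (norm_nonneg _) hφ.1))
    rw [abs_le] at h5
    nlinarith [mul_le_mul_of_nonneg_left g2 ht.le]
  rw [map_sub, abs_le] at h8
  have h11 : t * (3 + ‖u'‖) ≤ ε * r / 4 :=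
    (le_div_iff₀ (by positivity)).1 (htε.le.trans (min_le_right _ _))
  have h12 : t ≤ 1 := htε.le.trans (min_le_left _ _)
  rw [hnorm] at h10
  have h13 : 2 * r * r ≤ r * φ (A.symm (T a + T y)) + ε * r := by
    nlinarith [mul_le_mul_of_nonneg_left h12 ht.le]
  exact le_of_mul_le_mul_left (by linarith) hr0

/-- At a blow-up point the shear vanishes. -/
lemma shear_zero [FiniteDimensional ℝ X] {a : X} (ha : a ≠ 0) {A : X ≃ₗ[ℝ] Y} {β : Y} {G : Set X}
    (hsub : G ⊆ genSet T a) (hGcl : ∀ y, Off a y → y ∈ closure G)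
    (hAG : ∀ y ∈ G, ∀ w, D1 (chord (T a) (T y)) (A w) = D1 (chord a y) w)
    (hAa : T a = A a + ‖a‖ • β)
    (hg : ∀ w, ∀ (t : ℕ → ℝ) (g : Y), Tendsto t atTop (𝓝[>] 0) →
      Tendsto (fun k => (t k)⁻¹ • (T (a + t k • w) - T a)) atTop (𝓝 g) →
        g = A w + dsup a w • β)
    (hiso : ∀ u, ‖A u‖ = ‖u‖) : β = 0 := by
  set r := ‖a‖ with hr
  have hr0 : 0 < r := norm_pos_iff.2 ha
  set b := A.symm β with hb
  have hsymm : ∀ z, ‖A.symm z‖ = ‖z‖ := fun z => by rw [← hiso, A.apply_symm_apply]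
  let K : Set X := {y | ‖y‖ ≤ r ∧ ∀ φ : X →L[ℝ] ℝ, Norming φ a → φ y = r}
  have hKc : Convex ℝ K := by
    intro x hx y hy p q hp hq hpq
    refine ⟨?_, fun φ hφ => ?_⟩
    · refine (norm_add_le _ _).trans ?_
      rw [norm_smul, norm_smul, Real.norm_of_nonneg hp, Real.norm_of_nonneg hq]
      nlinarith [hx.1, hy.1, mul_le_mul_of_nonneg_left hx.1 hp, mul_le_mul_of_nonneg_left hy.1 hq]
    · rw [map_add, map_smul, map_smul, hx.2 φ hφ, hy.2 φ hφ, smul_eq_mul, smul_eq_mul, ← add_mul,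
        hpq, one_mul]
  have haK : a ∈ K := ⟨le_rfl, fun φ hφ => hφ.2⟩
  have hKn : ∀ y ∈ K, ‖y‖ = r := fun y hy => by
    obtain ⟨φ, hφ⟩ := exists_norming a
    exact le_antisymm hy.1 (hy.2 φ hφ ▸ hφ.le y)
  have hKcpt : IsCompact K := by
    have : ProperSpace X := FiniteDimensional.proper ℝ X
    have e : K = closedBall (0 : X) r ∩ ⋂ φ ∈ {φ : X →L[ℝ] ℝ | Norming φ a}, {y | φ y = r} := by
      ext y
      simp [K]
    rw [e]
    exact (isCompact_closedBall _ _).inter_right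
      (isClosed_biInter fun φ _ => isClosed_eq φ.continuous continuous_const)
  let σ : X → X := fun y => A.symm (T y)
  have hσn : ∀ y, ‖σ y‖ = ‖y‖ := fun y => by rw [hsymm, hT.norm_map]
  have hσa : σ a = a + r • b := by
    show A.symm (T a) = _
    rw [hAa, map_add, map_smul, A.symm_apply_apply]
  have hval : ∀ φ : X →L[ℝ] ℝ, Norming φ a → ∀ y ∈ K, φ (σ a) + φ (σ y) = 2 * r := by
    intro φ hφ y hy
    refine le_antisymm ?_ ?_
    · have h1 := hφ.le (σ a)
      have h2 := hφ.le (σ y)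
      rw [hσn] at h1 h2
      linarith [hKn y hy]
    · rw [← map_add, show σ a + σ y = A.symm (T a + T y) from (map_add _ _ _).symm]
      exact hT.norming_pullback ha hsub hGcl hAG hφ (hKn y hy) hy.2
  have hσaφ : ∀ φ : X →L[ℝ] ℝ, Norming φ a → φ (σ a) = r := fun φ hφ => by
    linarith [hval φ hφ a haK]
  have hmaps : Set.MapsTo σ K K := fun y hy => by
    refine ⟨by rw [hσn]; exact hy.1, fun φ hφ => ?_⟩
    linarith [hval φ hφ y hy, hσaφ φ hφ]
  have haff := affine_of_isometry_convex hKcpt hKc hmaps fun x hx y hy => by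
    rw [← map_sub, hsymm, hT.dist_map _ _ ((hKn x hx).trans (hKn y hy).symm)]
  have htrans : ∀ y ∈ K, σ y = y + r • b := by
    intro y hy
    have hd : dsup a (y - a) = 0 := by
      obtain ⟨η, hη, h⟩ := exists_dsup_eq a (y - a)
      rw [← h, map_sub, hy.2 η hη, hη.2, ← hr, sub_self]
    have hs : Tendsto (fun k : ℕ => (1 : ℝ) / (k + 1)) atTop (𝓝[>] 0) :=
      tendsto_nhdsWithin_iff.2 ⟨tendsto_one_div_add_atTop_nhds_zero_nat,
        Eventually.of_forall fun k => show (0 : ℝ) < 1 / (k + 1) by positivity⟩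
    have hlim : Tendsto (fun k : ℕ => ((1 : ℝ) / (k + 1))⁻¹ •
        (T (a + ((1 : ℝ) / (k + 1)) • (y - a)) - T a)) atTop (𝓝 (A (σ y - σ a))) := by
      refine tendsto_const_nhds.congr fun k => ?_
      have ht : (1 : ℝ) / (k + 1) ∈ Set.Icc (0 : ℝ) 1 :=
        ⟨by positivity, (div_le_one (by positivity)).2 (by linarith [(Nat.cast_nonneg k : (0 : ℝ) ≤ k)])⟩
      set τ := (1 : ℝ) / (k + 1) with hτ
      have hτ0 : τ ≠ 0 := by positivity
      have e := haff a haK y hy τ ht
      rw [show (1 - τ) • a + τ • y = a + τ • (y - a) by module] at e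
      have e' := congrArg A e
      simp only [σ, A.apply_symm_apply, map_add, map_smul] at e'
      rw [e', map_sub, A.apply_symm_apply, A.apply_symm_apply,
        show (1 - τ) • T a + τ • T y - T a = τ • (T y - T a) by module, inv_smul_smul₀ hτ0]
    have h := hg (y - a) _ _ hs hlim
    rw [hd, zero_smul, add_zero] at h
    have h2 := A.injective h
    rw [hσa] at h2
    rw [← sub_eq_zero] at h2 ⊢
    rw [← h2]
    abel
  have hiter : ∀ n : ℕ, a + (n * r) • b ∈ K := by
    intro n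
    induction n with
    | zero => simpa using haK
    | succ n ih =>
      have := hmaps ih
      rw [htrans _ ih] at this
      push_cast
      rwa [add_mul, one_mul, add_smul, ← add_assoc]
  by_contra hβ
  have hb0 : 0 < ‖b‖ := norm_pos_iff.2 fun h => hβ (by
    rw [← A.apply_symm_apply β, ← hb, h]
    exact A.map_zero)
  obtain ⟨n, hn⟩ := exists_nat_gt (2 / ‖b‖)
  have h1 := (hiter n).1
  have h2 := norm_sub_le (a + ((n : ℝ) * r) • b) a
  rw [add_sub_cancel_left, norm_smul, Real.norm_of_nonneg (by positivity)] at h2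
  rw [div_lt_iff₀ hb0] at hn
  nlinarith

/-- Agreeing directional limits give differentiability. -/
lemma hasFDerivAt_of_limits [FiniteDimensional ℝ X] {a : X} (A : X →L[ℝ] Y)
    (h : ∀ w, ∀ (t : ℕ → ℝ) (g : Y), Tendsto t atTop (𝓝[>] 0) →
      Tendsto (fun k => (t k)⁻¹ • (T (a + t k • w) - T a)) atTop (𝓝 g) → g = A w) :
    HasFDerivAt T A a := by
  have : FiniteDimensional ℝ Y := hT.finiteDimensional
  have hright : ∀ w, Tendsto (fun t : ℝ => t⁻¹ • (T (a + t • w) - T a)) (𝓝[>] 0) (𝓝 (A w)) := by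
    refine fun w => tendsto_of_seq_tendsto fun s hs => tendsto_of_subseq_tendsto fun ns hns => ?_
    obtain ⟨φ, g, hφ, hlim⟩ := hT.exists_dir_limit a w (hs.comp hns)
    refine ⟨φ, ?_⟩
    rwa [h w _ g ((hs.comp hns).comp hφ.tendsto_atTop) hlim] at hlim
  refine hT.lipschitz.hasFDerivAt_of_hasLineDerivAt_of_closure (s := Set.univ) (by simp)
    fun u _ => ?_
  show HasDerivAt (fun t : ℝ => T (a + t • u)) (A u) 0
  rw [hasDerivAt_iff_tendsto_slope_zero, ← nhdsLT_sup_nhdsGT, tendsto_sup]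
  simp only [zero_add, zero_smul, add_zero]
  refine ⟨?_, hright u⟩
  have hneg : Tendsto (fun t : ℝ => -t) (𝓝[<] 0) (𝓝[>] 0) := by
    have h : Tendsto (fun t : ℝ => -t) (𝓝[<] 0) (𝓝[>] (-0)) := tendsto_neg_nhdsLT
    rwa [neg_zero] at h
  have h1 := ((hright (-u)).comp hneg).neg
  rw [map_neg, neg_neg] at h1
  refine h1.congr fun t => ?_
  simp only [Function.comp_apply, inv_neg, neg_smul, smul_neg, neg_neg]

/-- At a blow-up point `T` is differentiable and its derivative is a linear isometry, seen by the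
generic chords. -/
theorem iso_of_blowup [FiniteDimensional ℝ X] {a : X} {v : Y} {ρ : ℝ} (ha : a ≠ 0) (hρ : 0 ≤ ρ)
    (hvρ : ‖v‖ + ρ = 1) (hd : BlowupData T a v ρ) :
    ∃ A : X →L[ℝ] Y, HasFDerivAt T A a ∧ (∀ u, ‖A u‖ = ‖u‖) ∧ A a = T a ∧
      ∃ G : Set X, G ⊆ genSet T a ∧ (∀ y, Off a y → y ∈ closure G) ∧
        ∀ y ∈ G, ∀ w, D1 (chord (T a) (T y)) (A w) = D1 (chord a y) w := by
  have : FiniteDimensional ℝ Y := hT.finiteDimensional
  have : ProperSpace Y := FiniteDimensional.proper ℝ Y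
  obtain ⟨A, β, G, -, hsub, hGcl, hAG, hAa, hg⟩ := hT.exists_linear_of_blowup ha hρ hvρ hd
  have hiso : ∀ u, ‖A u‖ = ‖u‖ := hT.norm_eq_of_blowup ha
    (fun z hz => hT.norm_of_chordSet ha hsub hGcl hAG hg hz) hg
  have hβ := hT.shear_zero ha hsub hGcl hAG hAa hg hiso
  refine ⟨LinearMap.toContinuousLinearMap A.toLinearMap, ?_, hiso, ?_, G, hsub, hGcl,
    fun y hy w => hAG y hy w⟩
  · exact hT.hasFDerivAt_of_limits _ fun w t g ht hlim => by
      rw [hg w t g ht hlim, hβ, smul_zero, add_zero]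
      rfl
  · show A a = T a
    rw [hAa, hβ, smul_zero, add_zero]

end IsTingley

end Vale.Agent.P084
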