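import Mathlib.Analysis.Normed.Module.RCLike.Real
import Mathlib.Analysis.Calculus.FDeriv.Basic
import Mathlib.Analysis.Normed.Group.InfiniteSum
import Mathlib.Analysis.Normed.Operator.NormedSpace
import Mathlib.Analysis.SpecificLimits.Basic
import Mathlib.Topology.Instances.RealVectorSpace

/-!
A Lipschitz map with quadratically small second differences has a Lipschitz derivative.
-/

namespace Vale.Agent.P084

open Filter Topology Metric Asymptotics

variable {E G : Type*} [NormedAddCommGroup E] [NormedSpace ℝ E] [NormedAddCommGroup G]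
  [NormedSpace ℝ G] [CompleteSpace G] {F : E → G} {K : NNReal} {C R : ℝ} {x₀ : E}

/-- The derivative exists with a quadratic remainder. -/
lemma exists_quadratic_expansion (hF : LipschitzWith K F) (hC : 0 ≤ C)
    (hsd : ∀ x ∈ ball x₀ R, ∀ h : E, x + h ∈ ball x₀ R → x - h ∈ ball x₀ R →
      ‖F (x + h) + F (x - h) - (2 : ℝ) • F x‖ ≤ C * ‖h‖ ^ 2)
    {x : E} (hx : x ∈ ball x₀ (R / 2)) :
    ∃ L : E →L[ℝ] G, ∀ h : E, ‖h‖ < R / 2 → ‖F (x + h) - F x - L h‖ ≤ C * ‖h‖ ^ 2 := by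
  have hR : 0 < R / 2 := lt_of_le_of_lt dist_nonneg (mem_ball.1 hx)
  have hmem : ∀ h : E, ‖h‖ < R / 2 → x + h ∈ ball x₀ R := fun h hh => by
    rw [mem_ball] at hx ⊢
    have := dist_triangle (x + h) x x₀
    rw [dist_eq_norm (x + h) x, add_sub_cancel_left] at this
    linarith
  -- midpoint estimate
  have hmid : ∀ u w : E, ‖u‖ < R / 2 → ‖w‖ < R / 2 →
      ‖F (x + u) + F (x + w) - (2 : ℝ) • F (x + (1 / 2 : ℝ) • (u + w))‖
        ≤ C * (‖u - w‖ / 2) ^ 2 := by
    intro u w hu hw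
    have hm : ‖(1 / 2 : ℝ) • (u + w)‖ < R / 2 := by
      rw [norm_smul, Real.norm_of_nonneg (by norm_num)]
      linarith [norm_add_le u w]
    have e1 : x + (1 / 2 : ℝ) • (u + w) + (1 / 2 : ℝ) • (u - w) = x + u := by module
    have e2 : x + (1 / 2 : ℝ) • (u + w) - (1 / 2 : ℝ) • (u - w) = x + w := by module
    have := hsd _ (hmem _ hm) ((1 / 2 : ℝ) • (u - w)) (by rw [e1]; exact hmem u hu)
      (by rw [e2]; exact hmem w hw)
    rw [e1, e2, norm_smul, Real.norm_of_nonneg (by norm_num)] at this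
    calc _ ≤ _ := this
      _ = _ := by ring
  let s : ℕ → E → G := fun n v => (2 : ℝ) ^ n • (F (x + ((2 : ℝ) ^ n)⁻¹ • v) - F x)
  have hsmall : ∀ v : E, ∀ᶠ n : ℕ in atTop, ‖((2 : ℝ) ^ n)⁻¹ • v‖ < R / 2 := fun v => by
    have h1 : Tendsto (fun n : ℕ => ((2 : ℝ) ^ n)⁻¹ • v) atTop (𝓝 0) := by
      simpa using (tendsto_inv_atTop_zero.comp
        (tendsto_pow_atTop_atTop_of_one_lt (one_lt_two : (1 : ℝ) < 2))).smul (tendsto_const_nhds (x := v))
    exact (tendsto_zero_iff_norm_tendsto_zero.1 h1).eventually (eventually_lt_nhds hR)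
  have hstep : ∀ v : E, ∀ n : ℕ, ‖((2 : ℝ) ^ n)⁻¹ • v‖ < R / 2 →
      dist (s n v) (s (n + 1) v) ≤ C * ‖v‖ ^ 2 / 4 * ((2 : ℝ) ^ n)⁻¹ := by
    intro v n hn
    have h := hmid (((2 : ℝ) ^ n)⁻¹ • v) 0 hn (by simpa using hR)
    rw [add_zero, add_zero, sub_zero, norm_smul, smul_smul] at h
    have hp : (0 : ℝ) < 2 ^ n := by positivity
    have e : (1 / 2 : ℝ) * ((2 : ℝ) ^ n)⁻¹ = ((2 : ℝ) ^ (n + 1))⁻¹ := by
      rw [pow_succ, mul_inv]; ring
    rw [e] at h
    rw [dist_eq_norm, show s n v - s (n + 1) v = (2 : ℝ) ^ n •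
      (F (x + ((2 : ℝ) ^ n)⁻¹ • v) + F x - (2 : ℝ) • F (x + ((2 : ℝ) ^ (n + 1))⁻¹ • v)) by
        simp only [s, pow_succ]; module]
    rw [norm_smul, Real.norm_of_nonneg hp.le]
    refine (mul_le_mul_of_nonneg_left h hp.le).trans (le_of_eq ?_)
    rw [Real.norm_of_nonneg (inv_nonneg.2 hp.le)]
    field_simp
    ring
  have hlim : ∀ v : E, ∃ l, Tendsto (fun n => s n v) atTop (𝓝 l) := fun v => by
    obtain ⟨n₀, hn₀⟩ := eventually_atTop.1 (hsmall v)
    have hc : CauchySeq fun n => s (n + n₀) v := by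
      refine cauchySeq_of_le_geometric (1 / 2) (C * ‖v‖ ^ 2 / 4 * ((2 : ℝ) ^ n₀)⁻¹)
        (by norm_num) fun n => ?_
      rw [add_right_comm]
      refine (hstep v (n + n₀) (hn₀ _ (Nat.le_add_left _ _))).trans (le_of_eq ?_)
      rw [pow_add, mul_inv, div_pow, one_pow]
      ring
    obtain ⟨l, hl⟩ := cauchySeq_tendsto_of_complete hc
    exact ⟨l, (tendsto_add_atTop_iff_nat n₀).1 hl⟩
  choose L hL using hlim
  have hLip : ∀ u w, ‖L u - L w‖ ≤ K * ‖u - w‖ := fun u w => by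
    refine le_of_tendsto ((hL u).sub (hL w)).norm (Eventually.of_forall fun n => ?_)
    have hp : (0 : ℝ) < 2 ^ n := by positivity
    simp only [s, ← smul_sub, sub_sub_sub_cancel_right, norm_smul, Real.norm_of_nonneg hp.le]
    refine (mul_le_mul_of_nonneg_left (hF.norm_sub_le _ _) hp.le).trans (le_of_eq ?_)
    rw [add_sub_add_left_eq_sub, ← smul_sub, norm_smul, Real.norm_of_nonneg (inv_nonneg.2 hp.le)]
    field_simp
  have hzero : L 0 = 0 := tendsto_nhds_unique (hL 0) (by simp [s])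
  have hadd : ∀ u w, L u + L w = (2 : ℝ) • L ((1 / 2 : ℝ) • (u + w)) := fun u w => by
    refine tendsto_nhds_unique ((hL u).add (hL w))
      (((hL ((1 / 2 : ℝ) • (u + w))).const_smul (2 : ℝ)).congr_dist ?_)
    refine squeeze_zero' (Eventually.of_forall fun _ => dist_nonneg) ?_
      (show Tendsto (fun n : ℕ => C * (‖u - w‖ / 2) ^ 2 * ((2 : ℝ) ^ n)⁻¹) atTop (𝓝 0) by
        simpa using (tendsto_inv_atTop_zero.comp
          (tendsto_pow_atTop_atTop_of_one_lt (one_lt_two : (1 : ℝ) < 2))).const_mul (C * (‖u - w‖ / 2) ^ 2))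
    filter_upwards [hsmall u, hsmall w] with n hu hw
    have hp : (0 : ℝ) < 2 ^ n := by positivity
    have h := hmid _ _ hu hw
    rw [← smul_add, ← smul_sub, norm_smul, Real.norm_of_nonneg (inv_nonneg.2 hp.le),
      smul_comm (1 / 2 : ℝ)] at h
    rw [dist_eq_norm, ← norm_neg, show -((2 : ℝ) • s n ((1 / 2 : ℝ) • (u + w)) - (s n u + s n w))
      = (2 : ℝ) ^ n • (F (x + ((2 : ℝ) ^ n)⁻¹ • u) + F (x + ((2 : ℝ) ^ n)⁻¹ • w)
        - (2 : ℝ) • F (x + ((2 : ℝ) ^ n)⁻¹ • (1 / 2 : ℝ) • (u + w))) by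
        simp only [s]; module]
    rw [norm_smul, Real.norm_of_nonneg hp.le]
    refine (mul_le_mul_of_nonneg_left h hp.le).trans (le_of_eq ?_)
    field_simp
  have hadd' : ∀ u w, L (u + w) = L u + L w := fun u w => by
    rw [hadd u w]
    have h := hadd (u + w) 0
    rw [hzero, add_zero, add_zero] at h
    exact h
  let Lh : E →+ G := AddMonoidHom.mk' L hadd'
  have hLc : Continuous Lh :=
    (LipschitzWith.of_dist_le_mul (K := K) fun u w => by
      simp only [dist_eq_norm]; exact hLip u w).continuous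
  refine ⟨Lh.toRealLinearMap hLc, fun h hh => ?_⟩
  show ‖F (x + h) - F x - L h‖ ≤ _
  have hh' : ∀ n : ℕ, ‖((2 : ℝ) ^ n)⁻¹ • h‖ < R / 2 := fun n => by
    rw [norm_smul, Real.norm_of_nonneg (by positivity)]
    exact lt_of_le_of_lt (mul_le_of_le_one_left (norm_nonneg h)
      (inv_le_one_of_one_le₀ (one_le_pow₀ one_le_two))) hh
  have hd := dist_le_of_le_geometric_of_tendsto₀ (1 / 2) (C * ‖h‖ ^ 2 / 4) (by norm_num)
    (f := fun n => s n h) (fun n => by
      refine (hstep h n (hh' n)).trans (le_of_eq ?_)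
      rw [div_pow, one_pow]; ring) (hL h)
  simp only [s, pow_zero, inv_one, one_smul, dist_eq_norm] at hd
  refine hd.trans ?_
  rw [show (1 : ℝ) - 1 / 2 = 1 / 2 by norm_num]
  nlinarith [mul_nonneg hC (sq_nonneg ‖h‖)]

/-- The derivative is Lipschitz. -/
theorem differentiable_of_second_diff (hF : LipschitzWith K F) (hC : 0 ≤ C)
    (hsd : ∀ x ∈ ball x₀ R, ∀ h : E, x + h ∈ ball x₀ R → x - h ∈ ball x₀ R →
      ‖F (x + h) + F (x - h) - (2 : ℝ) • F x‖ ≤ C * ‖h‖ ^ 2) :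
    (∀ x ∈ ball x₀ (R / 2), DifferentiableAt ℝ F x) ∧
      ∀ x ∈ ball x₀ (R / 16), ∀ y ∈ ball x₀ (R / 16),
        ‖fderiv ℝ F x - fderiv ℝ F y‖ ≤ 7 * C * ‖x - y‖ := by
  choose L hL using fun (x : E) (hx : x ∈ ball x₀ (R / 2)) =>
    exists_quadratic_expansion hF hC hsd hx
  have hD : ∀ x, ∀ hx : x ∈ ball x₀ (R / 2), HasFDerivAt F (L x hx) x := by
    intro x hx
    have hR : 0 < R / 2 := lt_of_le_of_lt dist_nonneg (mem_ball.1 hx)
    rw [hasFDerivAt_iff_isLittleO_nhds_zero]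
    refine IsBigO.trans_isLittleO (g := fun h : E => ‖h‖ ^ 2) ?_ ?_
    · refine IsBigO.of_bound C ?_
      filter_upwards [ball_mem_nhds (0 : E) hR] with h hh
      rw [norm_pow, norm_norm]
      exact hL x hx h (mem_ball_zero_iff.1 hh)
    · exact isLittleO_norm_pow_id one_lt_two
  refine ⟨fun x hx => (hD x hx).differentiableAt, fun x hx y hy => ?_⟩
  have hR : 0 < R / 16 := lt_of_le_of_lt dist_nonneg (mem_ball.1 hx)
  have hx' : x ∈ ball x₀ (R / 2) := ball_subset_ball (by linarith) hx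
  have hy' : y ∈ ball x₀ (R / 2) := ball_subset_ball (by linarith) hy
  rw [(hD x hx').fderiv, (hD y hy').fderiv]
  set d := ‖x - y‖ with hd
  rcases eq_or_lt_of_le (show 0 ≤ d from norm_nonneg _) with h0 | hpos
  · have hxy : x = y := sub_eq_zero.1 (norm_eq_zero.1 h0.symm)
    subst hxy
    rw [sub_self, norm_zero, ← h0, mul_zero]
  have hdR : d < R / 8 := by
    have := dist_triangle_right x y x₀
    rw [dist_eq_norm x y] at this
    linarith [mem_ball.1 hx, mem_ball.1 hy]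
  refine ContinuousLinearMap.opNorm_le_bound _ (by positivity) fun e₀ => ?_
  rcases eq_or_ne e₀ 0 with rfl | he₀
  · simp
  set e := (d / ‖e₀‖) • e₀ with he
  have hen : ‖e‖ = d := by
    rw [he, norm_smul, Real.norm_of_nonneg (by positivity),
      div_mul_cancel₀ _ (norm_ne_zero_iff.2 he₀)]
  have h1 := hL x hx' e (by rw [hen]; linarith)
  have h2 := hL y hy' (x + e - y) (by
    have := norm_add_le (x - y) e
    rw [show x + e - y = x - y + e by abel]
    linarith)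
  have h3 := hL y hy' (x - y) (by rw [← hd]; linarith)
  have h4 := hL y hy' e (by rw [hen]; linarith)
  have hb : ‖x + e - y‖ ≤ 2 * d := by
    have := norm_add_le (x - y) e
    rw [show x + e - y = x - y + e by abel]
    linarith
  rw [add_sub_cancel] at h2 h3
  rw [hen] at h1
  rw [← hd] at h3
  have h5 : ‖(L x hx' - L y hy') e‖ ≤ 6 * C * d ^ 2 := by
    have key : (L x hx' - L y hy') e = -(F (x + e) - F x - L x hx' e)
        + (F (x + e) - F y - L y hy' (x + e - y)) - (F x - F y - L y hy' (x - y)) := by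
      simp only [sub_apply, map_sub, map_add]
      abel
    rw [key]
    refine (norm_sub_le _ _).trans ?_
    have h6 := norm_add_le (-(F (x + e) - F x - L x hx' e))
      (F (x + e) - F y - L y hy' (x + e - y))
    rw [norm_neg] at h6
    have h7 : C * ‖x + e - y‖ ^ 2 ≤ C * (2 * d) ^ 2 := by gcongr
    linarith
  have h8 : (L x hx' - L y hy') e₀ = (‖e₀‖ / d) • (L x hx' - L y hy') e := by
    rw [he, map_smul, smul_smul, div_mul_div_cancel₀ hpos.ne', div_self (norm_ne_zero_iff.2 he₀),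
      one_smul]
  rw [h8, norm_smul, Real.norm_of_nonneg (by positivity)]
  calc ‖e₀‖ / d * ‖(L x hx' - L y hy') e‖ ≤ ‖e₀‖ / d * (6 * C * d ^ 2) :=
        mul_le_mul_of_nonneg_left h5 (by positivity)
    _ = 6 * C * d * ‖e₀‖ := by field_simp
    _ ≤ 7 * C * d * ‖e₀‖ := by nlinarith [mul_nonneg (mul_nonneg hC hpos.le) (norm_nonneg e₀)]

end Vale.Agent.P084
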