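import Mathlib.Analysis.Normed.Operator.Bilinear
import Vale.Agent.P084.IsoPoint
import Vale.Agent.P084.SecondDiff

/-!
The extension is continuously differentiable; where its derivative is not a linear isometry
the second differences of the norm and of the extension are quadratically small.
-/

namespace Vale.Agent.P084

open Filter Topology Metric MeasureTheory

variable {X Y : Type*} [NormedAddCommGroup X] [NormedSpace ℝ X] [NormedAddCommGroup Y]
  [NormedSpace ℝ Y]

/-- The derivative of `T` at `x` is a linear isometry. -/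
def IsoAt (T : X → Y) (x : X) : Prop := ∀ u, ‖fderiv ℝ T x u‖ = ‖u‖

lemma dsup_of_differentiableAt [FiniteDimensional ℝ X] {a : X}
    (h : DifferentiableAt ℝ (fun z : X => ‖z‖) a) (w : X) : dsup a w = D1 a w := by
  obtain ⟨η, hη, he⟩ := exists_dsup_eq a w
  rw [← he, eq_D1_of_norming h hη.1 hη.2]

/-- A norm with additive one-sided derivative is differentiable. -/
lemma differentiableAt_norm_of_dsup [FiniteDimensional ℝ X] {a : X}
    (h : ∀ w, dsup a w + dsup a (-w) = 0) : DifferentiableAt ℝ (fun z : X => ‖z‖) a := by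
  obtain ⟨φ, hφ⟩ := exists_norming a
  have hd : ∀ w, dsup a w = φ w := fun w => by
    have h1 := le_dsup a hφ w
    have h2 := le_dsup a hφ (-w)
    rw [map_neg] at h2
    linarith [h w]
  refine (lipschitzWith_one_norm.hasFDerivAt_of_hasLineDerivAt_of_closure (L := φ) (s := Set.univ)
    (by simp) fun u _ => ?_).differentiableAt
  show HasDerivAt (fun t : ℝ => ‖a + t • u‖) (φ u) 0
  rw [hasDerivAt_iff_tendsto_slope_zero, ← nhdsLT_sup_nhdsGT, tendsto_sup]
  simp only [zero_add, zero_smul, add_zero, smul_eq_mul]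
  have hright : ∀ w, Tendsto (fun t : ℝ => t⁻¹ * (‖a + t • w‖ - ‖a‖)) (𝓝[>] 0) (𝓝 (φ w)) :=
    fun w => hd w ▸ tendsto_of_seq_tendsto fun s hs => tendsto_dsup a w hs
  refine ⟨?_, hright u⟩
  have hneg : Tendsto (fun t : ℝ => -t) (𝓝[<] 0) (𝓝[>] 0) := by
    have h : Tendsto (fun t : ℝ => -t) (𝓝[<] 0) (𝓝[>] (-0)) := tendsto_neg_nhdsLT
    rwa [neg_zero] at h
  have h1 := ((hright (-u)).comp hneg).neg
  rw [map_neg, neg_neg] at h1
  refine h1.congr fun t => ?_
  simp only [Function.comp_apply, inv_neg, neg_smul, smul_neg, neg_neg, neg_mul]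

/-- The norm is differentiable almost everywhere on the images of chords. -/
lemma norm_D1_tendsto [FiniteDimensional ℝ X] {z : X} {u : ℕ → X}
    (hz : DifferentiableAt ℝ (fun w : X => ‖w‖) z) (hu : Tendsto u atTop (𝓝 z)) {η : ℕ → X →L[ℝ] ℝ}
    (hη : ∀ᶠ n in atTop, Norming (η n) (u n)) : Tendsto η atTop (𝓝 (D1 z)) := by
  refine Metric.tendsto_nhds.2 fun ε hε => ?_
  filter_upwards [hη, hu.eventually (norming_close hz (half_pos hε))] with n h1 h2
  rw [dist_eq_norm]
  linarith [h2 _ h1.1 h1.2]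

/-- Normalised pairs have convergent subsequences. -/
lemma exists_limit_triple [FiniteDimensional ℝ X] [FiniteDimensional ℝ Y] (A : ℕ → X) (R : ℕ → Y)
    (c : ℕ → ℝ) (hA : ∀ n, ‖A n‖ = 1) (hc : ∀ n, 0 ≤ c n) (hσ : ∀ n, 0 < ‖R n‖ + c n) :
    ∃ (a : X) (v : Y) (ρ : ℝ) (φ : ℕ → ℕ), StrictMono φ ∧ ‖a‖ = 1 ∧
      Tendsto (fun n => A (φ n)) atTop (𝓝 a) ∧
      Tendsto (fun n => (‖R (φ n)‖ + c (φ n))⁻¹ • R (φ n)) atTop (𝓝 v) ∧
      Tendsto (fun n => c (φ n) / (‖R (φ n)‖ + c (φ n))) atTop (𝓝 ρ) ∧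
      0 ≤ ρ ∧ ‖v‖ + ρ = 1 := by
  have : ProperSpace X := FiniteDimensional.proper ℝ X
  have : ProperSpace Y := FiniteDimensional.proper ℝ Y
  obtain ⟨a, ha, φ₁, hφ₁, hlim₁⟩ := (isCompact_sphere (0 : X) 1).tendsto_subseq
    (fun n => mem_sphere_zero_iff_norm.2 (hA n))
  obtain ⟨v, -, φ₂, hφ₂, hlim₂⟩ := tendsto_subseq_of_bounded
    (isBounded_closedBall (x := (0 : Y)) (r := 1))
    (x := fun n => (‖R (φ₁ n)‖ + c (φ₁ n))⁻¹ • R (φ₁ n)) (fun n => by
      rw [mem_closedBall_zero_iff, norm_smul, Real.norm_of_nonneg (inv_nonneg.2 (hσ _).le),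
        inv_mul_le_iff₀ (hσ _), mul_one]
      exact le_add_of_nonneg_right (hc _))
  have l1 : Tendsto (fun n => A (φ₁ (φ₂ n))) atTop (𝓝 a) := hlim₁.comp hφ₂.tendsto_atTop
  have l2 : Tendsto (fun n => (‖R (φ₁ (φ₂ n))‖ + c (φ₁ (φ₂ n)))⁻¹ • R (φ₁ (φ₂ n))) atTop (𝓝 v) :=
    hlim₂
  have l3 : Tendsto (fun n => c (φ₁ (φ₂ n)) / (‖R (φ₁ (φ₂ n))‖ + c (φ₁ (φ₂ n)))) atTop
      (𝓝 (1 - ‖v‖)) := by
    refine (l2.norm.const_sub 1).congr fun n => ?_
    rw [norm_smul, Real.norm_of_nonneg (inv_nonneg.2 (hσ _).le)]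
    field_simp [(hσ (φ₁ (φ₂ n))).ne']
    ring
  refine ⟨a, v, 1 - ‖v‖, φ₁ ∘ φ₂, hφ₁.comp hφ₂, mem_sphere_zero_iff_norm.1 ha, l1, l2, l3, ?_,
    add_sub_cancel _ _⟩
  exact ge_of_tendsto l3 (Eventually.of_forall fun n => div_nonneg (hc _) (hσ _).le)

/-- Evaluation is continuous along filters. -/
lemma tendsto_apply {E F : Type*} [NormedAddCommGroup E] [NormedSpace ℝ E] [NormedAddCommGroup F]
    [NormedSpace ℝ F] {ι : Type*} {l : Filter ι} {L : ι → E →L[ℝ] F} {x : ι → E}
    {L₀ : E →L[ℝ] F} {x₀ : E} (hL : Tendsto L l (𝓝 L₀)) (hx : Tendsto x l (𝓝 x₀)) :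
    Tendsto (fun i => L i (x i)) l (𝓝 (L₀ x₀)) :=
  (isBoundedBilinearMap_apply.continuous.tendsto (L₀, x₀)).comp (hL.prodMk_nhds hx)

namespace IsTingley

variable {T : X → Y} {T' : Y → X} (hT : IsTingley T T')
include hT

/-- A point where the norm is not differentiable is an isometric point. -/
lemma iso_of_not_differentiable [FiniteDimensional ℝ X] {a : X} (ha : a ≠ 0)
    (hnd : ¬DifferentiableAt ℝ (fun z : X => ‖z‖) a) :
    ∃ A : X →L[ℝ] Y, HasFDerivAt T A a ∧ (∀ u, ‖A u‖ = ‖u‖) := by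
  have : FiniteDimensional ℝ Y := hT.finiteDimensional
  obtain ⟨w, hw⟩ : ∃ w, dsup a w + dsup a (-w) ≠ 0 := by
    by_contra h
    push Not at h
    exact hnd (differentiableAt_norm_of_dsup h)
  set s := dsup a w + dsup a (-w) with hs
  have hs0 : 0 < s := lt_of_le_of_ne (dsup_nonneg_add a w) (Ne.symm hw)
  let H : ℕ → X := fun k => ((1 : ℝ) / (k + 1)) • w
  let R : ℕ → Y := fun k => T (a + H k) + T (a - H k) - (2 : ℝ) • T a
  let c : ℕ → ℝ := fun k => normDiff a (H k)
  have hc : ∀ k : ℕ, (1 : ℝ) / (k + 1) * s ≤ c k := fun k => by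
    obtain ⟨η, hη, h1⟩ := exists_dsup_eq a w
    obtain ⟨η', hη', h2⟩ := exists_dsup_eq a (-w)
    have a1 := hη.le (a + H k)
    have a2 := hη'.le (a - H k)
    simp only [H, map_add, map_sub, map_smul, smul_eq_mul, hη.2, hη'.2, h1] at a1 a2
    rw [map_neg] at h2
    simp only [c, normDiff, H, hs]
    rw [← h2]
    nlinarith
  have hpos : ∀ k, 0 < ‖R k‖ + c k := fun k => by
    have : (0 : ℝ) < 1 / (k + 1) * s := by positivity
    linarith [norm_nonneg (R k), hc k]
  obtain ⟨a', v, ρ, φ, hφ, -, -, l2, l3, hρ, hsum⟩ := exists_limit_triple (fun _ => ‖a‖⁻¹ • a)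
    R c (fun _ => by rw [norm_smul, norm_inv, norm_norm, inv_mul_cancel₀ (norm_ne_zero_iff.2 ha)])
    (fun k => normDiff_nonneg _ _) hpos
  have hH : Tendsto H atTop (𝓝 0) := by
    simpa [H] using (tendsto_one_div_add_atTop_nhds_zero_nat (𝕜 := ℝ)).smul_const w
  have hsq : Tendsto (fun k => ‖H (φ k)‖ ^ 2 / (‖R (φ k)‖ + c (φ k))) atTop (𝓝 0) := by
    refine squeeze_zero (fun k => div_nonneg (sq_nonneg _) (hpos (φ k)).le) (fun k => ?_)
      ((?_ : Tendsto (fun k : ℕ => (1 : ℝ) / (k + 1) * (‖w‖ ^ 2 / s)) atTop (𝓝 0)).comp hφ.tendsto_atTop)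
    · have h1 := hc (φ k)
      have h2 := norm_nonneg (R (φ k))
      show ‖H (φ k)‖ ^ 2 / (‖R (φ k)‖ + c (φ k)) ≤ (1 : ℝ) / ((φ k : ℝ) + 1) * (‖w‖ ^ 2 / s)
      have ht : (0 : ℝ) < 1 / ((φ k : ℝ) + 1) := by positivity
      simp only [H, norm_smul, Real.norm_of_nonneg ht.le]
      rw [div_le_iff₀ (hpos (φ k))]
      calc ((1 : ℝ) / ((φ k : ℝ) + 1) * ‖w‖) ^ 2
          = 1 / ((φ k : ℝ) + 1) * (‖w‖ ^ 2 / s) * (1 / ((φ k : ℝ) + 1) * s) := by
            field_simp
        _ ≤ _ := mul_le_mul_of_nonneg_left (by linarith) (by positivity)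
    · simpa using (tendsto_one_div_add_atTop_nhds_zero_nat (𝕜 := ℝ)).mul_const (‖w‖ ^ 2 / s)
  obtain ⟨A, hA, hiso, -, -⟩ := hT.iso_of_blowup (v := v) (ρ := ρ) ha hρ hsum
    ⟨fun _ => a, fun k => H (φ k), tendsto_const_nhds, hH.comp hφ.tendsto_atTop,
      fun k => hpos (φ k), hsq, l2, l3⟩
  exact ⟨A, hA, hiso⟩

/-- `T` is differentiable away from the origin. -/
lemma differentiableAt_general [FiniteDimensional ℝ X] {a : X} (ha : a ≠ 0) :
    DifferentiableAt ℝ T a := by
  by_cases hN : DifferentiableAt ℝ (fun z : X => ‖z‖) a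
  swap
  · obtain ⟨A, hA, -⟩ := hT.iso_of_not_differentiable ha hN
    exact hA.differentiableAt
  have : FiniteDimensional ℝ Y := hT.finiteDimensional
  borelize X
  have hcl : ∀ y, Off a y → y ∈ closure (genSet T a) := fun y hy =>
    mem_closure_of_ae (hT.ae_genSet ha) hy
  have hs : Tendsto (fun k : ℕ => (1 : ℝ) / (k + 1)) atTop (𝓝[>] 0) :=
    tendsto_nhdsWithin_iff.2 ⟨tendsto_one_div_add_atTop_nhds_zero_nat,
      Eventually.of_forall fun k => show (0 : ℝ) < 1 / (k + 1) by positivity⟩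
  choose φ g hφ hg using fun w => hT.exists_dir_limit a w hs
  let κ : X → ℝ := fun y => (D1 (chord (T a) (T y)) (T a) - D1 (chord a y) a) / ‖a‖
  have hval : ∀ w, ∀ (t : ℕ → ℝ) (g : Y), Tendsto t atTop (𝓝[>] 0) →
      Tendsto (fun k => (t k)⁻¹ • (T (a + t k • w) - T a)) atTop (𝓝 g) → ∀ y ∈ genSet T a,
      D1 (chord (T a) (T y)) g = D1 (chord a y) w + D1 a w * κ y := by
    intro w t g' ht hlim y hy
    have h := hT.first_order_value hy ht hlim
    rw [dsup_of_differentiableAt hN, mul_div_assoc] at h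
    linarith
  have hgv : ∀ w, ∀ y ∈ genSet T a,
      D1 (chord (T a) (T y)) (g w) = D1 (chord a y) w + D1 a w * κ y := fun w =>
    hval w _ _ (hs.comp (hφ w).tendsto_atTop) (hg w)
  have huniq : ∀ w z, (∀ y ∈ genSet T a,
      D1 (chord (T a) (T y)) z = D1 (chord a y) w + D1 a w * κ y) → z = g w := fun w z hz =>
    sub_eq_zero.1 (hT.sep_target ha hcl (fun _ h => h) fun y hy => by
      rw [map_sub, hz y hy, hgv w y hy, sub_self])
  let A : X →ₗ[ℝ] Y :=
    { toFun := g
      map_add' := fun u w => (huniq (u + w) _ fun y hy => by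
        rw [map_add, map_add, map_add, hgv u y hy, hgv w y hy]; ring).symm
      map_smul' := fun c w => (huniq (c • w) _ fun y hy => by
        rw [RingHom.id_apply, map_smul, map_smul, map_smul, hgv w y hy]
        simp only [smul_eq_mul]; ring).symm }
  exact (hT.hasFDerivAt_of_limits (LinearMap.toContinuousLinearMap A) fun w t g' ht hlim =>
    huniq w g' (hval w t g' ht hlim)).differentiableAt

/-- The first-order chord identity for the derivative. -/
lemma chord_identity [FiniteDimensional ℝ X] {a y : X} (ha : a ≠ 0) (hy : y ∈ genSet T a) (w : X) :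
    D1 (chord (T a) (T y)) (fderiv ℝ T a w) - D1 (chord a y) w
      = dsup a w * ((D1 (chord (T a) (T y)) (T a) - D1 (chord a y) a) / ‖a‖) := by
  have hs : Tendsto (fun k : ℕ => (1 : ℝ) / (k + 1)) atTop (𝓝[>] 0) :=
    tendsto_nhdsWithin_iff.2 ⟨tendsto_one_div_add_atTop_nhds_zero_nat,
      Eventually.of_forall fun k => show (0 : ℝ) < 1 / (k + 1) by positivity⟩
  have hd := ((hT.differentiableAt_general ha).hasFDerivAt.hasLineDerivAt w).tendsto_slope_zero_right
  rw [← mul_div_assoc]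
  exact hT.first_order_value hy hs (hd.comp hs)

/-- `T` is continuously differentiable away from the origin. -/
lemma continuousAt_fderiv_general [FiniteDimensional ℝ X] {a : X} (ha : a ≠ 0) :
    ContinuousAt (fderiv ℝ T) a := by
  have : FiniteDimensional ℝ Y := hT.finiteDimensional
  have : ProperSpace Y := FiniteDimensional.proper ℝ Y
  borelize X
  suffices h : ∀ A : ℕ → X, Tendsto A atTop (𝓝 a) → ∀ w,
      Tendsto (fun k => fderiv ℝ T (A k) w) atTop (𝓝 (fderiv ℝ T a w)) by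
    refine continuousAt_clm_apply.2 fun w => ?_
    exact tendsto_nhds_iff_seq_tendsto.2 fun A hA => h A hA w
  intro A hA w
  refine (isCompact_closedBall (0 : Y) (3 * ‖w‖)).tendsto_nhds_of_unique_mapClusterPt
    (Eventually.of_forall fun k => mem_closedBall_zero_iff.2 ?_) fun L hL hcl => ?_
  · exact (ContinuousLinearMap.le_opNorm _ _).trans (mul_le_mul_of_nonneg_right
      (by simpa using norm_fderiv_le_of_lipschitz ℝ hT.lipschitz (x₀ := A k)) (norm_nonneg w))
  obtain ⟨φ, hφ, hlim⟩ := hcl.tendsto_subseq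
  have hA' : Tendsto (fun k => A (φ k)) atTop (𝓝 a) := hA.comp hφ.tendsto_atTop
  obtain ⟨N, hN⟩ := eventually_atTop.1 (hA'.eventually_ne ha)
  -- shift so that all points are nonzero
  set B : ℕ → X := fun k => A (φ (k + N)) with hB
  have hBa : Tendsto B atTop (𝓝 a) := hA'.comp (tendsto_add_atTop_nat N)
  have hB0 : ∀ k, B k ≠ 0 := fun k => hN _ (Nat.le_add_left N k)
  have hBL : Tendsto (fun k => fderiv ℝ T (B k) w) atTop (𝓝 L) :=
    hlim.comp (tendsto_add_atTop_nat N)
  refine sub_eq_zero.1 (hT.sep_target ha (G := {y | y ∈ genSet T a ∧ ∀ k, Off (B k) y →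
    y ∈ genSet T (B k)}) (fun y hy => mem_closure_of_ae ?_ hy) (fun _ h => h.1) fun y hy => ?_)
  · filter_upwards [hT.ae_genSet ha, ae_all_iff.2 fun k => hT.ae_genSet (hB0 k)] with z h1 h2 hz
    exact ⟨h1 hz, h2⟩
  obtain ⟨⟨hoff, hdX, hdY⟩, hy2⟩ := hy
  have hc1 : Tendsto (fun k => chord (B k) y) atTop (𝓝 (chord a y)) :=
    ((continuous_chord_left y).tendsto a).comp hBa
  have hc2 : Tendsto (fun k => chord (T (B k)) (T y)) atTop (𝓝 (chord (T a) (T y))) :=
    (((continuous_chord_left (T y)).comp hT.lipschitz.continuous).tendsto a).comp hBa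
  have hev : ∀ᶠ k in atTop, y ∈ genSet T (B k) := by
    have hcont : Continuous fun b : X => 2 * (‖b‖ * ‖y‖) - ‖‖y‖ • b + ‖b‖ • y‖ := by fun_prop
    filter_upwards [((hcont.tendsto a).comp hBa).eventually
      (eventually_gt_nhds (sub_pos.2 (show ‖‖y‖ • a + ‖a‖ • y‖ < 2 * (‖a‖ * ‖y‖) from hoff)))]
      with k hk
    exact hy2 k (sub_pos.1 hk)
  have hψ := norm_D1_tendsto hdY hc2 (hev.mono fun k hk => norming_D1 hk.2.2)
  have hξ := norm_D1_tendsto hdX hc1 (hev.mono fun k hk => norming_D1 hk.2.1)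
  let κ : X → ℝ := fun b => (D1 (chord (T b) (T y)) (T b) - D1 (chord b y) b) / ‖b‖
  have hκ : Tendsto (fun k => κ (B k)) atTop (𝓝 (κ a)) := by
    refine (((tendsto_apply hψ ((hT.lipschitz.continuous.tendsto a).comp hBa)).sub
      (tendsto_apply hξ hBa)).div hBa.norm (norm_ne_zero_iff.2 ha))
  have key : Tendsto (fun k => dsup (B k) w * κ (B k)) atTop
      (𝓝 (D1 (chord (T a) (T y)) L - D1 (chord a y) w)) := by
    refine ((tendsto_apply hψ hBL).sub (tendsto_apply hξ (tendsto_const_nhds (x := w)))).congr' ?_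
    filter_upwards [hev] with k hk
    exact hT.chord_identity (hB0 k) hk w
  have goal' : D1 (chord (T a) (T y)) L - D1 (chord a y) w = dsup a w * κ a := by
    by_cases hdN : DifferentiableAt ℝ (fun z : X => ‖z‖) a
    · have hd : Tendsto (fun k => dsup (B k) w) atTop (𝓝 (dsup a w)) := by
        choose η hη he using fun k => exists_dsup_eq (B k) w
        rw [dsup_of_differentiableAt hdN]
        refine Tendsto.congr he ?_
        exact tendsto_apply (norm_D1_tendsto hdN hBa (Eventually.of_forall hη)) tendsto_const_nhds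
      exact tendsto_nhds_unique key (hd.mul hκ)
    · have hκ0 : κ a = 0 := by
        by_contra hk0
        refine hdN (differentiableAt_norm_of_dsup fun u => ?_)
        have e1 := hT.chord_identity ha ⟨hoff, hdX, hdY⟩ u
        have e2 := hT.chord_identity ha ⟨hoff, hdX, hdY⟩ (-u)
        simp only [map_neg] at e2
        have : (dsup a u + dsup a (-u)) * κ a = 0 := by simp only [κ]; linarith
        exact (mul_eq_zero.1 this).resolve_right hk0
      rw [hκ0, mul_zero]
      refine tendsto_nhds_unique key (squeeze_zero_norm (fun k => ?_)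
        (by simpa [hκ0] using hκ.norm.const_mul ‖w‖))
      rw [norm_mul]
      refine mul_le_mul_of_nonneg_right ?_ (norm_nonneg _)
      rw [Real.norm_eq_abs, abs_le]
      obtain ⟨η, hη⟩ := exists_norming (B k)
      have h1 := le_dsup (B k) hη w
      have h2 := hη.le (-w)
      rw [map_neg, norm_neg] at h2
      exact ⟨by linarith, dsup_le_norm _ _⟩
  rw [map_sub]
  have := hT.chord_identity ha ⟨hoff, hdX, hdY⟩ w
  simp only [κ] at goal'
  linarith

/-- A point where the norm is not differentiable has an isometric derivative. -/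
lemma isoAt_of_not_differentiable [FiniteDimensional ℝ X] {a : X} (ha : a ≠ 0)
    (hnd : ¬DifferentiableAt ℝ (fun z : X => ‖z‖) a) : IsoAt T a := by
  obtain ⟨A, hA, hiso⟩ := hT.iso_of_not_differentiable ha hnd
  intro u
  rw [hA.fderiv]
  exact hiso u

lemma fderiv_smul_pos [FiniteDimensional ℝ X] {a : X} (ha : a ≠ 0) {s : ℝ} (hs : 0 < s) :
    fderiv ℝ T (s • a) = fderiv ℝ T a := by
  have h1 : HasFDerivAt (fun z : X => s • T (s⁻¹ • z))
      (s • (fderiv ℝ T a).comp (s⁻¹ • ContinuousLinearMap.id ℝ X)) (s • a) :=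
    (HasFDerivAt.comp (s • a) (by
      show HasFDerivAt T (fderiv ℝ T a) (s⁻¹ • s • a)
      rw [inv_smul_smul₀ hs.ne']
      exact (hT.differentiableAt_general ha).hasFDerivAt)
      ((hasFDerivAt_id _).const_smul s⁻¹)).const_smul s
  have h2 : (fun z : X => s • T (s⁻¹ • z)) = T := funext fun z => by
    rw [← hT.homog s _ hs, smul_inv_smul₀ hs.ne']
  rw [h2] at h1
  rw [h1.fderiv]
  ext u
  simp [hs.ne']

lemma fderiv_self_general [FiniteDimensional ℝ X] {a : X} (ha : a ≠ 0) :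
    fderiv ℝ T a a = T a := by
  have hc : HasDerivAt (fun s : ℝ => a + s • a) a 0 := by
    simpa using ((hasDerivAt_id (0 : ℝ)).smul_const a).const_add a
  have h1 : HasDerivAt (fun s : ℝ => T (a + s • a)) (fderiv ℝ T a a) 0 :=
    (hT.differentiableAt_general ha).hasFDerivAt.comp_hasDerivAt_of_eq (0 : ℝ) hc (by simp)
  have h2 : HasDerivAt (fun s : ℝ => T (a + s • a)) (T a) 0 := by
    have h3 : HasDerivAt (fun s : ℝ => T a + s • T a) (T a) 0 := by
      simpa using ((hasDerivAt_id (0 : ℝ)).smul_const (T a)).const_add (T a)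
    refine h3.congr_of_eventuallyEq ?_
    filter_upwards [Ioi_mem_nhds (show (-1 : ℝ) < 0 by norm_num)] with s hs
    rw [show a + s • a = (1 + s) • a by rw [add_smul, one_smul],
      hT.homog _ _ (by linarith [Set.mem_Ioi.1 hs]), add_smul, one_smul]
  exact h1.unique h2

lemma fderiv_left_general [FiniteDimensional ℝ X] {a : X} (ha : a ≠ 0) (u : X) :
    fderiv ℝ T' (T a) (fderiv ℝ T a u) = u := by
  have : FiniteDimensional ℝ Y := hT.finiteDimensional
  have h3 := (hT.symm.differentiableAt_general (hT.map_ne_zero ha)).hasFDerivAt.comp a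
    (hT.differentiableAt_general ha).hasFDerivAt
  rw [show T' ∘ T = id from funext hT.left] at h3
  exact congrArg (fun B : X →L[ℝ] X => B u) (h3.unique (hasFDerivAt_id a))

lemma fderiv_right_general [FiniteDimensional ℝ X] {a : X} (ha : a ≠ 0) (v : Y) :
    fderiv ℝ T a (fderiv ℝ T' (T a) v) = v := by
  have : FiniteDimensional ℝ Y := hT.finiteDimensional
  have := hT.symm.fderiv_left_general (hT.map_ne_zero ha) v
  rwa [hT.left] at this

lemma isoAt_of_symm [FiniteDimensional ℝ X] {a : X} (ha : a ≠ 0) (h : IsoAt T' (T a)) :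
    IsoAt T a := fun u => by
  rw [← h (fderiv ℝ T a u), hT.fderiv_left_general ha]

/-- The set of points with a non-isometric derivative is open. -/
lemma isOpen_not_isoAt [FiniteDimensional ℝ X] : IsOpen {x : X | x ≠ 0 ∧ ¬IsoAt T x} := by
  refine isOpen_iff_mem_nhds.2 fun x hx => ?_
  obtain ⟨hx0, hxi⟩ := hx
  simp only [IsoAt, not_forall] at hxi
  obtain ⟨u, hu⟩ := hxi
  have hc : ContinuousAt (fun z => ‖fderiv ℝ T z u‖) x :=
    ((hT.continuousAt_fderiv_general hx0).clm_apply continuousAt_const).norm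
  filter_upwards [hc.eventually_ne hu, continuousAt_id.eventually_ne hx0] with z hz hz0
  exact ⟨hz0, fun h => hz (h u)⟩

/-- Off the isometric points the second differences are quadratically small. -/
lemma exists_second_bound [FiniteDimensional ℝ X] {a : X} (ha : a ≠ 0) (hni : ¬IsoAt T a) :
    ∃ ε > 0, ∃ C : ℝ, 0 ≤ C ∧ ∀ x ∈ ball a ε, ∀ h : X, ‖h‖ < ε →
      ‖T (x + h) + T (x - h) - (2 : ℝ) • T x‖ + normDiff x h ≤ C * ‖h‖ ^ 2 := by
  have : FiniteDimensional ℝ Y := hT.finiteDimensional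
  by_contra hcon
  push Not at hcon
  choose A hA H hH hbig using fun n : ℕ =>
    hcon (1 / ((n : ℝ) + 1)) (by positivity) (n + 1) (by positivity)
  let R : ℕ → Y := fun n => T (A n + H n) + T (A n - H n) - (2 : ℝ) • T (A n)
  let c : ℕ → ℝ := fun n => normDiff (A n) (H n)
  have hpos : ∀ n, 0 < ‖R n‖ + c n := fun n => lt_of_le_of_lt (by positivity) (hbig n)
  obtain ⟨a', v, ρ, φ, hφ, -, -, l2, l3, hρ, hsum⟩ := exists_limit_triple (fun _ => ‖a‖⁻¹ • a)
    R c (fun _ => by rw [norm_smul, norm_inv, norm_norm, inv_mul_cancel₀ (norm_ne_zero_iff.2 ha)])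
    (fun k => normDiff_nonneg _ _) hpos
  have h0 := tendsto_one_div_add_atTop_nhds_zero_nat (𝕜 := ℝ)
  have hAa : Tendsto A atTop (𝓝 a) := tendsto_iff_dist_tendsto_zero.2
    (squeeze_zero (fun n => dist_nonneg) (fun n => (mem_ball.1 (hA n)).le) h0)
  have hH0 : Tendsto H atTop (𝓝 0) := squeeze_zero_norm (fun n => (hH n).le) h0
  have hsq : Tendsto (fun k => ‖H (φ k)‖ ^ 2 / (‖R (φ k)‖ + c (φ k))) atTop (𝓝 0) := by
    refine squeeze_zero (fun k => div_nonneg (sq_nonneg _) (hpos (φ k)).le) (fun k => ?_)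
      (h0.comp hφ.tendsto_atTop)
    show _ ≤ (1 : ℝ) / ((φ k : ℝ) + 1)
    rw [div_le_div_iff₀ (hpos (φ k)) (by positivity), one_mul]
    have := hbig (φ k)
    show _ ≤ ‖R (φ k)‖ + c (φ k)
    simp only [R, c]
    linarith
  obtain ⟨L, hL, hiso, -, -⟩ := hT.iso_of_blowup (v := v) (ρ := ρ) ha hρ hsum
    ⟨fun k => A (φ k), fun k => H (φ k), hAa.comp hφ.tendsto_atTop, hH0.comp hφ.tendsto_atTop,
      fun k => hpos (φ k), hsq, l2, l3⟩
  exact hni fun u => by rw [hL.fderiv]; exact hiso u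

/-- Off the isometric points the norm and `T` have locally Lipschitz derivatives. -/
lemma c11_of_not_isoAt [FiniteDimensional ℝ X] {a : X} (ha : a ≠ 0) (hni : ¬IsoAt T a) :
    ∃ r > 0, ∃ K : NNReal,
      ((∀ x ∈ ball a r, DifferentiableAt ℝ (fun z : X => ‖z‖) x) ∧
        LipschitzOnWith K (D1 (X := X)) (ball a r)) ∧ LipschitzOnWith K (fderiv ℝ T) (ball a r) := by
  have : FiniteDimensional ℝ Y := hT.finiteDimensional
  obtain ⟨ε, hε, C, hC, hb⟩ := hT.exists_second_bound ha hni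
  set R := ε / 2 with hR
  have hR0 : 0 < R := half_pos hε
  have hin : ∀ x ∈ ball a R, ∀ h : X, x + h ∈ ball a R → x ∈ ball a ε ∧ ‖h‖ < ε := by
    intro x hx h hp
    refine ⟨ball_subset_ball (by linarith) hx, ?_⟩
    have h1 := dist_triangle_right (x + h) x a
    rw [dist_eq_norm (x + h) x, add_sub_cancel_left] at h1
    linarith [mem_ball.1 hx, mem_ball.1 hp]
  obtain ⟨-, hlT⟩ := differentiable_of_second_diff (F := T) (x₀ := a) (R := R) hT.lipschitz hC
    (fun x hx h hp _ => by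
      obtain ⟨h1, h2⟩ := hin x hx h hp
      linarith [hb x h1 h h2, normDiff_nonneg x h])
  obtain ⟨hdN, hlN⟩ := differentiable_of_second_diff (F := fun z : X => ‖z‖) (x₀ := a) (R := R)
    lipschitzWith_one_norm hC (fun x hx h hp _ => by
      obtain ⟨h1, h2⟩ := hin x hx h hp
      show |normDiff x h| ≤ _
      rw [abs_of_nonneg (normDiff_nonneg x h)]
      show normDiff x h ≤ _
      linarith [hb x h1 h h2, norm_nonneg (T (x + h) + T (x - h) - (2 : ℝ) • T x)])
  refine ⟨R / 16, by linarith, (7 * C).toNNReal,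
    ⟨fun x hx => hdN x (ball_subset_ball (by linarith) hx), ?_⟩, ?_⟩ <;>
    refine LipschitzOnWith.of_dist_le_mul fun x hx y hy => ?_ <;>
    rw [dist_eq_norm, dist_eq_norm, Real.coe_toNNReal _ (by positivity)]
  · exact hlN x hx y hy
  · exact hlT x hx y hy

end IsTingley

end Vale.Agent.P084
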