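import Vale.Agent.P084.FlatGradient
import Mathlib.Topology.Sequences

/-!
A function whose gradient is annihilated by the adjugate of the derivative of a maximal monotone
homogeneous relation, single valued where the function is nonzero, is constant.
-/

namespace Vale.Agent.P084

open Filter Topology MeasureTheory Metric Module
open scoped NNReal

/-- Two-sided bounds for a closed homogeneous monotone relation and its regularisations. -/
lemma rel_bounds {E : Type*} [NormedAddCommGroup E] [NormedSpace ℝ E] [FiniteDimensional ℝ E]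
    (J : E →ₗ[ℝ] E →ₗ[ℝ] ℝ) (hJp : ∀ v, v ≠ 0 → 0 < J v v) {Rel : E → E → Prop}
    (hclosed : IsClosed {p : E × E | Rel p.1 p.2})
    (hhom : ∀ (s : ℝ) x y, 0 < s → Rel x y → Rel (s • x) (s • y))
    (h0 : ∀ y, Rel 0 y → y = 0) (h0' : ∀ x, Rel x 0 → x = 0) (h00 : Rel 0 0)
    (hmono : ∀ x y x' y', Rel x y → Rel x' y' → 0 ≤ J (y - y') (x - x')) :
    ∃ c C : ℝ, 0 < c ∧ 0 < C ∧ ∀ δ ∈ Set.Icc (0 : ℝ) 1, ∀ x y, Rel x y →
      c * ‖x‖ ≤ ‖y + δ • x‖ ∧ ‖y + δ • x‖ ≤ C * ‖x‖ := by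
  have : ProperSpace E := FiniteDimensional.proper ℝ E
  let S : Set (E × E) := {p | Rel p.1 p.2} ∩ closedBall (0 : E) 1 ×ˢ sphere (0 : E) 1
  have hS : IsCompact S :=
    ((isCompact_closedBall _ _).prod (isCompact_sphere _ _)).inter_left hclosed
  obtain ⟨m, hm, hmS⟩ := hS.exists_forall_le' (f := fun p => ‖p.1‖) (a := 0) (by fun_prop)
    fun p hp => norm_pos_iff.2 fun h => by
      have hz : p.2 ≠ 0 := ne_of_mem_sphere hp.2.2 one_ne_zero
      exact hz (h0 _ (h ▸ hp.1))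
  set C₀ := max 1 m⁻¹
  have hC₀ : (1 : ℝ) ≤ C₀ := le_max_left _ _
  have hupper : ∀ x y, Rel x y → ‖y‖ ≤ C₀ * ‖x‖ := by
    intro x y hxy
    rcases le_total ‖y‖ ‖x‖ with h | h
    · exact h.trans (le_mul_of_one_le_left (norm_nonneg x) hC₀)
    rcases eq_or_ne y 0 with rfl | hy
    · rw [norm_zero]; positivity
    have hn : 0 < ‖y‖ := norm_pos_iff.2 hy
    have hp : (‖y‖⁻¹ • x, ‖y‖⁻¹ • y) ∈ S := by
      refine ⟨hhom _ _ _ (inv_pos.2 hn) hxy, mem_closedBall_zero_iff.2 ?_,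
        mem_sphere_zero_iff_norm.2 ?_⟩
      · rw [norm_smul, norm_inv, norm_norm, inv_mul_le_iff₀ hn, mul_one]; exact h
      · rw [norm_smul, norm_inv, norm_norm, inv_mul_cancel₀ hn.ne']
    have h1 : m ≤ ‖‖y‖⁻¹ • x‖ := hmS _ hp
    rw [norm_smul, norm_inv, norm_norm, le_inv_mul_iff₀ hn] at h1
    calc ‖y‖ = m⁻¹ * (‖y‖ * m) := by field_simp
      _ ≤ m⁻¹ * ‖x‖ := mul_le_mul_of_nonneg_left h1 (inv_nonneg.2 hm.le)
      _ ≤ _ := mul_le_mul_of_nonneg_right (le_max_right _ _) (norm_nonneg x)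
  let T : Set (ℝ × E × E) := Set.Icc (0 : ℝ) 1 ×ˢ
    ({p | Rel p.1 p.2} ∩ sphere (0 : E) 1 ×ˢ closedBall (0 : E) C₀)
  have hT : IsCompact T := isCompact_Icc.prod
    (((isCompact_sphere _ _).prod (isCompact_closedBall _ _)).inter_left hclosed)
  obtain ⟨c, hc, hcT⟩ := hT.exists_forall_le' (f := fun q => ‖q.2.2 + q.1 • q.2.1‖) (a := 0)
    (by fun_prop) fun q hq => norm_pos_iff.2 fun h => by
      obtain ⟨⟨hδ, -⟩, hr, hx, -⟩ := hq
      have hx0 : q.2.1 ≠ 0 := ne_of_mem_sphere hx one_ne_zero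
      rcases hδ.eq_or_lt with h' | h'
      · rw [← h', zero_smul, add_zero] at h
        have hr' : Rel q.2.1 0 := h ▸ hr
        exact hx0 (h0' _ hr')
      · have := hmono _ _ _ _ hr h00
        rw [sub_zero, sub_zero, show q.2.2 = -(q.1 • q.2.1) from eq_neg_of_add_eq_zero_left h,
          map_neg, map_smul, LinearMap.neg_apply, LinearMap.smul_apply, smul_eq_mul] at this
        nlinarith [hJp _ hx0]
  refine ⟨c, C₀ + 1, hc, by linarith, fun δ hδ x y hxy => ⟨?_, ?_⟩⟩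
  · rcases eq_or_ne x 0 with rfl | hx
    · rw [norm_zero, mul_zero]; exact norm_nonneg _
    have hn : 0 < ‖x‖ := norm_pos_iff.2 hx
    have hs1 : ‖‖x‖⁻¹ • x‖ = 1 := by rw [norm_smul, norm_inv, norm_norm, inv_mul_cancel₀ hn.ne']
    have hr := hhom _ _ _ (inv_pos.2 hn) hxy
    have hq : (δ, ‖x‖⁻¹ • x, ‖x‖⁻¹ • y) ∈ T := by
      refine ⟨hδ, hr, mem_sphere_zero_iff_norm.2 hs1, mem_closedBall_zero_iff.2 ?_⟩
      exact (hupper _ _ hr).trans (by rw [hs1, mul_one])
    have h1 : c ≤ ‖‖x‖⁻¹ • y + δ • ‖x‖⁻¹ • x‖ := hcT _ hq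
    rw [smul_comm δ, ← smul_add, norm_smul, norm_inv, norm_norm, le_inv_mul_iff₀ hn] at h1
    linarith
  · refine (norm_add_le _ _).trans ?_
    rw [add_mul, one_mul, norm_smul, Real.norm_of_nonneg hδ.1]
    exact add_le_add (hupper _ _ hxy) (mul_le_of_le_one_left (norm_nonneg x) hδ.2)

theorem const_of_flat_gradient_gen {E : Type*} [NormedAddCommGroup E] [NormedSpace ℝ E]
    [FiniteDimensional ℝ E] [MeasurableSpace E] [BorelSpace E] (μ : MeasureTheory.Measure E)
    [μ.IsAddHaarMeasure]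
    (hdim : 1 < Module.rank ℝ E) (J : E →ₗ[ℝ] E →ₗ[ℝ] ℝ) (hJs : ∀ u v, J u v = J v u)
    (hJp : ∀ v, v ≠ 0 → 0 < J v v)
    {Rel : E → E → Prop} (hclosed : IsClosed {p : E × E | Rel p.1 p.2})
    (hhom : ∀ (s : ℝ) x y, 0 < s → Rel x y → Rel (s • x) (s • y))
    (h0 : ∀ y, Rel 0 y → y = 0) (h0' : ∀ x, Rel x 0 → x = 0)
    (hmono : ∀ x y x' y', Rel x y → Rel x' y' → 0 ≤ J (y - y') (x - x'))
    (hsurj : ∀ δ : ℝ, 0 ≤ δ → ∀ w, ∃ x y, Rel x y ∧ y + δ • x = w)
    {U : Set E} (hU : IsOpen U) (hU0 : (0 : E) ∉ U) {Φ : E → E}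
    (hΦU : ∀ x ∈ U, ∀ y, Rel x y ↔ y = Φ x) (hΦ : LocallyLipschitzOn U Φ)
    {g : E → ℝ} (hgc : ContinuousOn g ({0}ᶜ : Set E))
    (hghom : ∀ (s : ℝ) x, 0 < s → x ≠ 0 → g (s • x) = g x)
    (hsupp : ∀ x, x ≠ 0 → x ∈ closure {z : E | g z ≠ 0} → x ∈ U) (hg : LocallyLipschitzOn U g)
    (hfib : ∀ x x' y, y ≠ 0 → Rel x y → Rel x' y → g x = g x')
    (hflat : ∀ᵐ x ∂μ, x ∈ U → ∀ z : E, fderiv ℝ Φ x z = 0 → fderiv ℝ g x z = 0)
    (hreg : ∀ᵐ x ∂μ, x ∈ U → Function.Injective (fderiv ℝ Φ x) → fderiv ℝ g x = 0) :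
    ∀ x y : E, x ≠ 0 → y ≠ 0 → g x = g y := by
  have hP : ProperSpace E := FiniteDimensional.proper ℝ E
  have hnt : Nontrivial E := rank_pos_iff_nontrivial.1 (zero_lt_one.trans hdim)
  let Jc : E →L[ℝ] E →L[ℝ] ℝ := LinearMap.toContinuousLinearMap
    ((LinearMap.toContinuousLinearMap (𝕜 := ℝ) (E := E) (F' := ℝ)).toLinearMap.comp J)
  have hJc : ∀ u v, Jc u v = J u v := fun u v => rfl
  obtain ⟨κ, hκ, hκJ⟩ : ∃ κ : ℝ, 0 < κ ∧ ∀ v, κ * ‖v‖ ^ 2 ≤ J v v := by
    have hcont : Continuous fun v : E => Jc v v := Jc.continuous.clm_apply continuous_id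
    obtain ⟨v, hv, hmin⟩ := (isCompact_sphere (0 : E) 1).exists_isMinOn
      (NormedSpace.sphere_nonempty.2 zero_le_one) hcont.continuousOn
    refine ⟨J v v, hJp v (ne_of_mem_sphere hv one_ne_zero), fun w => ?_⟩
    rcases eq_or_ne w 0 with rfl | hw
    · simp
    have hw' : 0 < ‖w‖ := norm_pos_iff.2 hw
    have h1 : J v v ≤ J (‖w‖⁻¹ • w) (‖w‖⁻¹ • w) := by
      have := hmin (show ‖w‖⁻¹ • w ∈ sphere (0 : E) 1 by simp [norm_smul, hw])
      simpa [hJc] using this
    simp only [map_smul, LinearMap.smul_apply, smul_eq_mul] at h1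
    calc J v v * ‖w‖ ^ 2 ≤ ‖w‖⁻¹ * (‖w‖⁻¹ * J w w) * ‖w‖ ^ 2 :=
          mul_le_mul_of_nonneg_right h1 (sq_nonneg _)
      _ = J w w := by field_simp
  have hanti : ∀ δ : ℝ, 0 ≤ δ → ∀ x y x' y', Rel x y → Rel x' y' →
      δ * κ * ‖x - x'‖ ≤ ‖Jc‖ * ‖(y + δ • x) - (y' + δ • x')‖ := by
    intro δ hδ x y x' y' hxy hxy'
    rcases eq_or_ne (x - x') 0 with h | h
    · rw [h, norm_zero, mul_zero]; positivity
    have hn : 0 < ‖x - x'‖ := norm_pos_iff.2 h
    have h1 : δ * (κ * ‖x - x'‖ ^ 2) ≤ J ((y + δ • x) - (y' + δ • x')) (x - x') := by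
      rw [show (y + δ • x) - (y' + δ • x') = (y - y') + δ • (x - x') by module, map_add,
        LinearMap.add_apply, map_smul, LinearMap.smul_apply, smul_eq_mul]
      nlinarith [hmono x y x' y' hxy hxy', mul_le_mul_of_nonneg_left (hκJ (x - x')) hδ]
    have h2 : J ((y + δ • x) - (y' + δ • x')) (x - x')
        ≤ ‖Jc‖ * ‖(y + δ • x) - (y' + δ • x')‖ * ‖x - x'‖ := by
      rw [← hJc]; exact (le_abs_self _).trans (Jc.le_opNorm₂ _ _)
    nlinarith
  have h00 : Rel 0 0 := by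
    obtain ⟨x, y, hxy, he⟩ := hsurj 0 le_rfl 0
    rw [zero_smul, add_zero] at he
    subst he
    have hx := h0' x hxy
    subst hx
    exact hxy
  obtain ⟨c, C, hc0, hC0, hbnd⟩ := rel_bounds J hJp hclosed hhom h0 h0' h00 hmono
  let u : ℕ → ℝ := fun n => 1 / ((n : ℝ) + 1)
  have hu0 : ∀ n, 0 < u n := fun n => by positivity
  have hu1 : ∀ n, u n ∈ Set.Icc (0 : ℝ) 1 := fun n =>
    ⟨(hu0 n).le, (div_le_one (by positivity)).2 (le_add_of_nonneg_left (Nat.cast_nonneg n))⟩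
  have hut : Tendsto u atTop (𝓝 0) := tendsto_one_div_add_atTop_nhds_zero_nat
  choose Ψ Υ hΨR hΨE using fun (n : ℕ) (w : E) => hsurj (u n) (hu0 n).le w
  have huniq : ∀ n x y, Rel x y → Ψ n (y + u n • x) = x := by
    intro n x y hxy
    have h1 := hanti (u n) (hu0 n).le _ _ x y (hΨR n (y + u n • x)) hxy
    rw [hΨE, sub_self, norm_zero, mul_zero] at h1
    exact sub_eq_zero.1 (norm_le_zero_iff.1 (nonpos_of_mul_nonpos_right h1 (mul_pos (hu0 n) hκ)))
  have hΨlip : ∀ n, LipschitzWith (Real.toNNReal (‖Jc‖ / (u n * κ))) (Ψ n) := fun n => by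
    refine LipschitzWith.of_dist_le' fun a b => ?_
    have h1 := hanti (u n) (hu0 n).le _ _ _ _ (hΨR n a) (hΨR n b)
    rw [hΨE, hΨE] at h1
    rw [dist_eq_norm, dist_eq_norm, div_mul_eq_mul_div, le_div_iff₀ (mul_pos (hu0 n) hκ)]
    linarith
  have hΨb : ∀ n w, ‖w‖ / C ≤ ‖Ψ n w‖ ∧ ‖Ψ n w‖ ≤ ‖w‖ / c := fun n w => by
    obtain ⟨h1, h2⟩ := hbnd (u n) (hu1 n) _ _ (hΨR n w)
    rw [hΨE] at h1 h2
    exact ⟨(div_le_iff₀ hC0).2 (by linarith), (le_div_iff₀ hc0).2 (by linarith)⟩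
  -- `g` is locally Lipschitz off the origin
  have hg' : LocallyLipschitzOn ({0}ᶜ : Set E) g := by
    intro x hx
    by_cases hcl : x ∈ closure {z : E | g z ≠ 0}
    · obtain ⟨K, t, ht, hK⟩ := hg (hsupp x hx hcl)
      rw [nhdsWithin_eq_nhds.2 (hU.mem_nhds (hsupp x hx hcl))] at ht
      exact ⟨K, t, mem_nhdsWithin_of_mem_nhds ht, hK⟩
    · refine ⟨0, (closure {z : E | g z ≠ 0})ᶜ,
        mem_nhdsWithin_of_mem_nhds (isClosed_closure.isOpen_compl.mem_nhds hcl), ?_⟩
      intro y hy z hz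
      rw [show g y = 0 from not_not.1 fun h => hy (subset_closure h),
        show g z = 0 from not_not.1 fun h => hz (subset_closure h)]
      simp
  have hgloc0 : ∀ x, x ∉ closure {z : E | g z ≠ 0} → g =ᶠ[𝓝 x] fun _ => 0 := fun x hx => by
    filter_upwards [isClosed_closure.isOpen_compl.mem_nhds hx] with z hz
    exact not_not.1 fun h => hz (subset_closure h)
  -- the function on the target side
  choose X₀ Y₀ hXR hXE using fun w : E => hsurj 0 le_rfl w
  let G : E → ℝ := fun w => g (X₀ w)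
  have hX₀ : ∀ w, Rel (X₀ w) w := fun w => by
    have := hXE w
    rw [zero_smul, add_zero] at this
    have hr := hXR w
    rwa [this] at hr
  have hseq : ∀ (xs ys : ℕ → E) (w : E), w ≠ 0 → (∀ n, Rel (xs n) (ys n)) →
      Tendsto ys atTop (𝓝 w) → (∃ R, ∀ n, ‖xs n‖ ≤ R) →
      Tendsto (fun n => g (xs n)) atTop (𝓝 (G w)) := by
    intro xs ys w hw hR hys ⟨R, hxb⟩
    refine tendsto_of_subseq_tendsto fun ns hns => ?_
    obtain ⟨z, -, φ, hφ, hz⟩ := (isCompact_closedBall (0 : E) R).tendsto_subseq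
      (x := fun n => xs (ns n)) fun n => mem_closedBall_zero_iff.2 (hxb _)
    have hzw : Rel z w := hclosed.mem_of_tendsto
      (hz.prodMk_nhds ((hys.comp hns).comp hφ.tendsto_atTop))
      (Eventually.of_forall fun n => hR _)
    have hz0 : z ≠ 0 := fun h => hw (h0 w (h ▸ hzw))
    refine ⟨φ, ?_⟩
    have hfw : G w = g z := hfib _ _ w hw (hX₀ w) hzw
    rw [hfw]
    exact ((hgc.continuousAt (isOpen_compl_singleton.mem_nhds hz0)).tendsto).comp hz
  have hlim : ∀ w, w ≠ 0 → Tendsto (fun n => g (Ψ n w)) atTop (𝓝 (G w)) := by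
    intro w hw
    refine hseq (fun n => Ψ n w) (fun n => Υ n w) w hw (fun n => hΨR n w) ?_
      ⟨‖w‖ / c, fun n => (hΨb n w).2⟩
    refine squeeze_zero_norm' (a := fun n => u n * (‖w‖ / c))
      (Eventually.of_forall fun n => ?_) (by simpa using hut.mul_const (‖w‖ / c)) |>
      fun h => tendsto_sub_nhds_zero_iff.1 h
    rw [show Υ n w - w = -(u n • Ψ n w) by
      calc Υ n w - w = Υ n w - (Υ n w + u n • Ψ n w) := by rw [hΨE]
        _ = _ := by abel]
    rw [norm_neg, norm_smul, Real.norm_of_nonneg (hu0 n).le]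
    exact mul_le_mul_of_nonneg_left (hΨb n w).2 (hu0 n).le
  have hGc : ContinuousOn G ({0}ᶜ : Set E) := by
    refine continuousOn_of_forall_continuousAt fun w hw => ?_
    refine tendsto_iff_seq_tendsto.2 fun ys hys => ?_
    refine hseq (fun n => X₀ (ys n)) ys w hw (fun n => hX₀ _) hys ?_
    obtain ⟨R, hR⟩ := (hys.norm.isBoundedUnder_le).bddAbove_range
    refine ⟨R / c, fun n => (le_div_iff₀ hc0).2 ?_⟩
    have h1 := (hbnd 0 ⟨le_rfl, zero_le_one⟩ _ _ (hX₀ (ys n))).1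
    rw [zero_smul, add_zero] at h1
    have h2 : ‖ys n‖ ≤ R := hR ⟨n, rfl⟩
    linarith
  suffices hweak : ∀ (φ : E → ℝ) (v : E), ContDiff ℝ 1 φ → HasCompactSupport φ →
      (0 : E) ∉ tsupport φ → ∫ y, G y * fderiv ℝ φ y v ∂μ = 0 by
    have hG := const_of_weak_deriv_zero μ hdim hGc hweak
    have hval : ∀ x, x ≠ 0 → g x ≠ 0 → ∀ w, w ≠ 0 → g x = G w := by
      intro x hx hgx w hw
      have hxU := hsupp x hx (subset_closure hgx)
      have hr : Rel x (Φ x) := (hΦU x hxU _).2 rfl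
      have hne : Φ x ≠ 0 := fun h => hx (h0' x (h ▸ hr))
      rw [hfib x (X₀ (Φ x)) (Φ x) hne hr (hX₀ _)]
      exact hG _ _ hne hw
    obtain ⟨e, he⟩ := exists_ne (0 : E)
    intro x y hx hy
    by_contra hne
    have hkey : ∀ a b : E, a ≠ 0 → b ≠ 0 → g a = 0 → g b ≠ 0 → False := by
      intro a b ha hb hga hgb
      have hpre := (isConnected_compl_singleton_of_one_lt_rank hdim (0 : E)).isPreconnected
      obtain ⟨m, hm, hgm⟩ : g b / 2 ∈ g '' ({0}ᶜ : Set E) := by
        rcases lt_or_gt_of_ne hgb with h | h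
        · exact hpre.intermediate_value hb ha hgc ⟨by linarith, by linarith⟩
        · exact hpre.intermediate_value ha hb hgc ⟨by linarith, by linarith⟩
      have h1 := hval m hm (by rw [hgm]; simpa using hgb) e he
      have h2 := hval b hb hgb e he
      exact hgb (by linarith)
    rcases eq_or_ne (g x) 0 with h | h
    · exact hkey x y hx hy h fun h' => hne (h.trans h'.symm)
    · rcases eq_or_ne (g y) 0 with h' | h'
      · exact hkey y x hy hx h' h
      · exact hne ((hval x hx h e he).trans (hval y hy h' e he).symm)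
  intro φ v hφ hφc hφ0
  have hopen : IsOpen (tsupport φ)ᶜ := (isClosed_tsupport φ).isOpen_compl
  obtain ⟨ρ, hρ, hρball⟩ := Metric.isOpen_iff.1 hopen 0 hφ0
  obtain ⟨R, hR⟩ := hφc.isBounded.subset_closedBall (0 : E)
  let shell : ℝ → ℝ → Set E := fun a b => {y : E | a ≤ ‖y‖ ∧ ‖y‖ ≤ b}
  have hshell : ∀ a b, IsCompact (shell a b) := fun a b =>
    (isCompact_closedBall (0 : E) b).of_isClosed_subset
      ((isClosed_le continuous_const continuous_norm).inter (isClosed_le continuous_norm continuous_const))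
      fun y hy => mem_closedBall_zero_iff.2 hy.2
  set b := max R ρ + 1
  have hb : R < b := by simp only [b]; linarith [le_max_left R ρ]
  have hnear : ∀ y ∈ tsupport φ, shell (ρ / 2) b ∈ 𝓝 y := by
    intro y hy
    have h2 : ρ ≤ ‖y‖ := not_lt.1 fun h => hρball (mem_ball_zero_iff.2 h) hy
    have h3 : ‖y‖ ≤ R := mem_closedBall_zero_iff.1 (hR hy)
    have h1 : {z : E | ρ / 2 < ‖z‖ ∧ ‖z‖ < b} ∈ 𝓝 y :=
      ((isOpen_lt continuous_const continuous_norm).inter
        (isOpen_lt continuous_norm continuous_const)).mem_nhds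
          (show ρ / 2 < ‖y‖ ∧ ‖y‖ < b from ⟨by linarith, by linarith⟩)
    exact mem_of_superset h1 fun z hz => ⟨hz.1.le, hz.2.le⟩
  set a' := ρ / (2 * C)
  set b' := b / c
  have ha' : 0 < a' := by positivity
  have hshell0 : shell a' b' ⊆ ({0}ᶜ : Set E) := by
    intro y hy hy0
    have hy' : y = 0 := hy0
    have := hy.1
    rw [hy', norm_zero] at this
    linarith
  obtain ⟨Kg, hKg⟩ := (hg'.mono hshell0).exists_lipschitzOnWith_of_compact (hshell a' b')
  have hΨshell : ∀ n, ∀ y ∈ shell (ρ / 2) b, Ψ n y ∈ shell a' b' := by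
    intro n y hy
    obtain ⟨h1, h2⟩ := hΨb n y
    refine ⟨le_trans (le_of_eq ?_) (le_trans (div_le_div_of_nonneg_right hy.1 hC0.le) h1),
      h2.trans (div_le_div_of_nonneg_right hy.2 hc0.le)⟩
    simp only [a']; field_simp
  -- the compact part of the support
  set K₀ : Set E := closure {z : E | g z ≠ 0} ∩ shell a' b'
  have hK₀U : K₀ ⊆ U := fun x hx => hsupp x (hshell0 hx.2) hx.1
  have hK₀ : IsCompact K₀ := (hshell a' b').inter_left isClosed_closure
  obtain ⟨r, hr, hrU⟩ := hK₀.exists_cthickening_subset_open hU hK₀U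
  set K₁ := cthickening r K₀
  obtain ⟨KΦ, hKΦ⟩ := (hΦ.mono hrU).exists_lipschitzOnWith_of_compact hK₀.cthickening
  obtain ⟨Kg', hKg'⟩ := (hg.mono hrU).exists_lipschitzOnWith_of_compact hK₀.cthickening
  -- Lipschitz extensions of `g ∘ Ψ n`
  have hext : ∀ n, ∃ f : E → ℝ, (∃ K, LipschitzWith K f) ∧
      Set.EqOn (g ∘ Ψ n) f (shell (ρ / 2) b) := by
    intro n
    have h1 := hKg.comp (hΨlip n).lipschitzOnWith (hΨshell n)
    obtain ⟨f, hf1, hf2⟩ := h1.extend_real
    exact ⟨f, ⟨_, hf1⟩, hf2⟩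
  choose f hfL hfeq using hext
  choose Kf hfK using hfL
  set s : Set E := U ∩ ({x | DifferentiableAt ℝ Φ x} ∩ {x | DifferentiableAt ℝ g x})
  have hs : MeasurableSet s :=
    hU.measurableSet.inter ((measurableSet_of_differentiableAt ℝ Φ).inter
      (measurableSet_of_differentiableAt ℝ g))
  have hNnull : μ (U \ s) = 0 := by
    refine measure_mono_null (fun x hx => ?_) (ae_iff.1
      ((ae_diff_of_locallyLipschitzOn μ hU hΦ).and (ae_diff_of_locallyLipschitzOn μ hU hg)))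
    intro h
    exact hx.2 ⟨hx.1, h.1 hx.1, h.2 hx.1⟩
  have hΨP : ∀ n, ∀ x ∈ U, Ψ n (pert Φ (u n) x) = x := fun n x hx =>
    huniq n x (Φ x) ((hΦU x hx _).2 rfl)
  have hPΨ : ∀ n w, Ψ n w ∈ U → pert Φ (u n) (Ψ n w) = w := by
    intro n w hw
    have := (hΦU _ hw _).1 (hΨR n w)
    rw [pert, ← this]
    exact hΨE n w
  let M : ℕ → E → E →L[ℝ] E := fun n x => fderiv ℝ Φ x + u n • ContinuousLinearMap.id ℝ E
  have hM : ∀ n, ∀ x ∈ s, HasFDerivAt (pert Φ (u n)) (M n x) x := fun n x hx =>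
    hx.2.1.hasFDerivAt.add ((hasFDerivAt_id x).const_smul (u n))
  have hinj : ∀ n, Set.InjOn (pert Φ (u n)) s := fun n x hx y hy hxy => by
    rw [← hΨP n x hx.1, hxy, hΨP n y hy.1]
  let h : ℕ → E → ℝ := fun n y => lineDeriv ℝ (f n) y v * φ y
  have hφi : Integrable φ μ := hφ.continuous.integrable_of_hasCompactSupport hφc
  have hhi : ∀ n, Integrable (h n) μ := fun n =>
    hφi.bdd_mul (c := Kf n * ‖v‖) (aestronglyMeasurable_lineDeriv (hfK n).continuous μ)
      (ae_of_all _ fun y => norm_lineDeriv_le_of_lipschitz ℝ (hfK n))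
  let F : ℕ → E → ℝ := fun n x => |(M n x).det| • h n (pert Φ (u n) x)
  have hzero : ∀ n, ∀ᵐ y ∂μ, y ∉ pert Φ (u n) '' s → h n y = 0 := by
    intro n
    have hnull : μ (pert Φ (u n) '' (U \ s)) = 0 :=
      image_null_of_locallyLipschitzOn μ hU (fun x hx => by
        obtain ⟨K, t, ht, hK⟩ := hΦ hx
        exact ⟨K + ‖u n‖₊, t, ht, hK.add (lipschitzWith_smul (u n)).lipschitzOnWith⟩)
        Set.sdiff_subset hNnull
    refine ae_iff.2 (measure_mono_null (fun y hy => ?_) hnull)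
    obtain ⟨hy1, hy2⟩ := Classical.not_imp.1 hy
    have hys : y ∈ tsupport φ := by
      by_contra hcon
      exact hy2 (by simp [h, image_eq_zero_of_notMem_tsupport hcon])
    have hyn := hnear y hys
    by_cases hxU : Ψ n y ∈ U
    · exact ⟨Ψ n y, ⟨hxU, fun hc => hy1 ⟨_, hc, hPΨ n y hxU⟩⟩, hPΨ n y hxU⟩
    · exfalso
      have hx0 : Ψ n y ≠ 0 := hshell0 (hΨshell n y (mem_of_mem_nhds hyn))
      have hev := (hΨlip n).continuous.continuousAt.eventually
        (hgloc0 _ fun hc => hxU (hsupp _ hx0 hc))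
      have hf0 : HasFDerivAt (f n) (0 : E →L[ℝ] ℝ) y := by
        refine (hasFDerivAt_const (0 : ℝ) y).congr_of_eventuallyEq ?_
        filter_upwards [hyn, hev] with z hz hgz
        rw [← hfeq n hz]
        exact hgz
      apply hy2
      simp only [h]
      rw [(hf0.hasLineDerivAt v).lineDeriv]
      simp
  have hcov : ∀ n, ∫ y, h n y ∂μ = ∫ x in s, F n x ∂μ := fun n => by
    rw [← setIntegral_eq_integral_of_ae_compl_eq_zero (hzero n)]
    exact integral_image_eq_integral_abs_det_fderiv_smul μ hs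
      (fun x hx => (hM n x hx).hasFDerivWithinAt) (hinj n) (h n)
  have hFi : ∀ n, IntegrableOn (F n) s μ := fun n =>
    (integrableOn_image_iff_integrableOn_abs_det_fderiv_smul μ hs
      (fun x hx => (hM n x hx).hasFDerivWithinAt) (hinj n) (h n)).1 (hhi n).integrableOn
  obtain ⟨Cφ, hCφ⟩ := hφ.continuous.bounded_above_of_compact_support hφc
  have hMinj : ∀ n, ∀ x ∈ s, Function.Injective (M n x) := by
    intro n x hx
    rw [injective_iff_map_eq_zero]
    intro z hz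
    have hlin : Tendsto (fun t : ℝ => t⁻¹ • (pert Φ (u n) (x + t • z) - pert Φ (u n) x))
        (𝓝[≠] 0) (𝓝 (M n x z)) := ((hM n x hx).hasLineDerivAt z).tendsto_slope_zero
    rw [hz] at hlin
    have hmem : ∀ᶠ t in 𝓝[≠] (0 : ℝ), x + t • z ∈ U :=
      (((show Continuous fun t : ℝ => x + t • z by fun_prop).tendsto' 0 x (by simp)).eventually
        (hU.mem_nhds hx.1)).filter_mono nhdsWithin_le_nhds
    have hle : ∀ᶠ t in 𝓝[≠] (0 : ℝ), u n * κ * ‖z‖
        ≤ ‖Jc‖ * ‖t⁻¹ • (pert Φ (u n) (x + t • z) - pert Φ (u n) x)‖ := by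
      filter_upwards [self_mem_nhdsWithin, hmem] with t (ht : t ≠ 0) htU
      have := hanti (u n) (hu0 n).le _ _ _ _ ((hΦU _ htU _).2 rfl) ((hΦU x hx.1 _).2 rfl)
      rw [add_sub_cancel_left, norm_smul] at this
      rw [norm_smul, norm_inv]
      have ht' : 0 < ‖t‖ := norm_pos_iff.2 ht
      rw [← mul_le_mul_iff_right₀ ht']
      calc ‖t‖ * (u n * κ * ‖z‖) = u n * κ * (‖t‖ * ‖z‖) := by ring
        _ ≤ ‖Jc‖ * ‖pert Φ (u n) (x + t • z) - pert Φ (u n) x‖ := this
        _ = _ := by field_simp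
    have hlim0 : Tendsto (fun t : ℝ =>
        ‖Jc‖ * ‖t⁻¹ • (pert Φ (u n) (x + t • z) - pert Φ (u n) x)‖) (𝓝[≠] 0) (𝓝 0) := by
      simpa using hlin.norm.const_mul ‖Jc‖
    have := ge_of_tendsto hlim0 hle
    exact norm_le_zero_iff.1 (nonpos_of_mul_nonpos_right this (mul_pos (hu0 n) hκ))
  have hFbound : ∀ n, ∀ x ∈ s, ‖F n x‖ ≤ ‖fderiv ℝ g x (adjVec v (M n x))‖ * Cφ ∧
      (x ∉ K₀ → F n x = 0) := by
    intro n x hx
    set y := pert Φ (u n) x
    by_cases hy : y ∈ tsupport φ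
    swap
    · have : F n x = 0 := by simp [F, h, y, image_eq_zero_of_notMem_tsupport hy]
      rw [this, norm_zero]
      exact ⟨mul_nonneg (norm_nonneg _) ((norm_nonneg _).trans (hCφ 0)), fun _ => rfl⟩
    have hyn := hnear y hy
    have hxs : x ∈ shell a' b' := by
      have := hΨshell n y (mem_of_mem_nhds hyn)
      rwa [hΨP n x hx.1] at this
    set D := (M n x).det
    have hD : D ≠ 0 := det_ne_zero_of_injective (hMinj n x hx)
    let Me : E ≃L[ℝ] E := (LinearEquiv.ofBijective (M n x : E →ₗ[ℝ] E)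
      ⟨hMinj n x hx, LinearMap.surjective_of_injective (hMinj n x hx)⟩).toContinuousLinearEquiv
    have hMe : ∀ z, Me z = M n x z := fun z => rfl
    have hMd : HasFDerivAt (pert Φ (u n)) (Me : E →L[ℝ] E) (Ψ n y) := by
      rw [hΨP n x hx.1]
      exact hM n x hx
    have hloc : ∀ᶠ z in 𝓝 y, pert Φ (u n) (Ψ n z) = z := by
      filter_upwards [(hΨlip n).continuous.continuousAt.eventually
        (show U ∈ 𝓝 (Ψ n y) by rw [hΨP n x hx.1]; exact hU.mem_nhds hx.1)] with z hz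
      exact hPΨ n z hz
    have hΨd : HasFDerivAt (Ψ n) (Me.symm : E →L[ℝ] E) y :=
      hMd.of_local_left_inverse (hΨlip n).continuous.continuousAt hloc
    have hfd : HasFDerivAt (f n) ((fderiv ℝ g x).comp (Me.symm : E →L[ℝ] E)) y := by
      refine HasFDerivAt.congr_of_eventuallyEq ?_
        (eventually_of_mem hyn fun z hz => (hfeq n hz).symm)
      exact HasFDerivAt.comp y (g := g) (by rw [hΨP n x hx.1]; exact hx.2.2.hasFDerivAt) hΨd
    have hval : Me.symm v = D⁻¹ • adjVec v (M n x) := by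
      apply Me.injective
      rw [Me.apply_symm_apply, map_smul, hMe, apply_adjVec, inv_smul_smul₀ hD]
    have e : F n x = |D| * ((D⁻¹ * fderiv ℝ g x (adjVec v (M n x))) * φ y) := by
      simp only [F, h, smul_eq_mul]
      rw [(hfd.hasLineDerivAt v).lineDeriv]
      simp [hval, D, y]
    refine ⟨?_, fun h' => ?_⟩
    · rw [e, norm_mul, norm_mul, norm_mul, Real.norm_eq_abs, abs_abs, norm_inv, Real.norm_eq_abs,
        ← mul_assoc, ← mul_assoc, mul_inv_cancel₀ (abs_ne_zero.2 hD), one_mul]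
      exact mul_le_mul_of_nonneg_left (hCφ y) (norm_nonneg _)
    · have hnc : x ∉ closure {z : E | g z ≠ 0} := fun hc => h' ⟨hc, hxs⟩
      have hd0 : fderiv ℝ g x = 0 := by
        rw [(hgloc0 x hnc).fderiv_eq]
        simp
      rw [e, hd0]
      simp
  obtain ⟨A, hA⟩ := (isCompact_closedBall (0 : E →L[ℝ] E) (KΦ + 1)).exists_bound_of_continuousOn
    (continuous_adjVec v).continuousOn
  set B : E → ℝ := K₀.indicator fun _ => (Kg' : ℝ) * A * Cφ
  have hBi : IntegrableOn B s μ :=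
    ((integrableOn_const hK₀.measure_lt_top.ne).integrable_indicator hK₀.measurableSet).integrableOn
  have hdom : ∀ n, ∀ᵐ x ∂μ.restrict s, ‖F n x‖ ≤ B x := by
    intro n
    filter_upwards [ae_restrict_mem hs] with x hx
    by_cases hxK : x ∈ K₀
    swap
    · rw [(hFbound n x hx).2 hxK, norm_zero]
      simp [B, hxK]
    have hnb : K₁ ∈ 𝓝 x := mem_of_superset
      (isOpen_thickening.mem_nhds (self_subset_thickening hr K₀ hxK))
      (thickening_subset_cthickening r K₀)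
    have h1 : ‖fderiv ℝ g x‖ ≤ Kg' := norm_fderiv_le_of_lipschitzOn ℝ hnb hKg'
    have h2 : ‖fderiv ℝ Φ x‖ ≤ KΦ := norm_fderiv_le_of_lipschitzOn ℝ hnb hKΦ
    have h3 : M n x ∈ closedBall (0 : E →L[ℝ] E) (KΦ + 1) := by
      rw [mem_closedBall_zero_iff]
      refine (norm_add_le _ _).trans (add_le_add h2 ?_)
      rw [norm_smul, Real.norm_of_nonneg (hu0 n).le]
      exact mul_le_one₀ (hu1 n).2 (norm_nonneg _) ContinuousLinearMap.norm_id_le
    refine (hFbound n x hx).1.trans ?_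
    simp only [B, Set.indicator_of_mem hxK]
    refine mul_le_mul_of_nonneg_right ?_ ((norm_nonneg _).trans (hCφ 0))
    exact (ContinuousLinearMap.le_opNorm _ _).trans
      (mul_le_mul h1 (hA _ h3) (norm_nonneg _) Kg'.2)
  have hptlim : ∀ᵐ x ∂μ.restrict s, Tendsto (fun n => F n x) atTop (𝓝 0) := by
    filter_upwards [ae_restrict_mem hs, ae_restrict_of_ae hflat, ae_restrict_of_ae hreg]
      with x hx hf' hr'
    have hM0 : Tendsto (fun n => M n x) atTop (𝓝 (fderiv ℝ Φ x)) := by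
      simpa [M] using (hut.smul_const (ContinuousLinearMap.id ℝ E)).const_add (fderiv ℝ Φ x)
    have hz : fderiv ℝ g x (adjVec v (fderiv ℝ Φ x)) = 0 := by
      rcases eq_or_ne (fderiv ℝ Φ x).det 0 with hd | hd
      · refine hf' hx.1 _ ?_
        rw [apply_adjVec, hd, zero_smul]
      · rw [hr' hx.1 (injective_of_det_ne_zero hd)]
        rfl
    refine squeeze_zero_norm (fun n => (hFbound n x hx).1) ?_
    have := ((((fderiv ℝ g x).continuous.comp (continuous_adjVec v)).tendsto _).comp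
      hM0).norm.mul_const Cφ
    simpa [hz] using this
  have hlimL : Tendsto (fun n => ∫ y, h n y ∂μ) atTop (𝓝 0) := by
    simp only [hcov]
    simpa using tendsto_integral_of_dominated_convergence B (fun n => (hFi n).aestronglyMeasurable)
      hBi hdom hptlim
  obtain ⟨Lφ, hLφ⟩ : ∃ L, LipschitzWith L φ :=
    hφ.lipschitzWith_of_hasCompactSupport hφc one_ne_zero
  have hparts : ∀ n, ∫ y, h n y ∂μ = -∫ y, g (Ψ n y) * fderiv ℝ φ y v ∂μ := by
    intro n
    rw [(hfK n).integral_lineDeriv_mul_eq hLφ hφc v, ← integral_neg]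
    refine integral_congr_ae (ae_of_all _ fun y => ?_)
    dsimp only
    rw [(hφ.differentiable one_ne_zero y).lineDeriv_eq_fderiv, map_neg]
    by_cases hy : y ∈ tsupport φ
    · rw [← hfeq n (mem_of_mem_nhds (hnear y hy))]
      simp only [Function.comp_apply]; ring
    · have : fderiv ℝ φ y = 0 :=
        image_eq_zero_of_notMem_tsupport fun h2 => hy (tsupport_fderiv_subset ℝ h2)
      simp [this]
  obtain ⟨Bg, hBg⟩ := (hshell a' b').exists_bound_of_continuousOn (hgc.mono hshell0)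
  have hsupp' : ∀ y, fderiv ℝ φ y v ≠ 0 → y ∈ tsupport φ := fun y hy => by
    by_contra h'
    exact hy (image_eq_zero_of_notMem_tsupport (f := fun y => fderiv ℝ φ y v)
      fun h2 => h' (tsupport_fderiv_apply_subset ℝ v h2))
  have hlimR : Tendsto (fun n => ∫ y, g (Ψ n y) * fderiv ℝ φ y v ∂μ) atTop
      (𝓝 (∫ y, G y * fderiv ℝ φ y v ∂μ)) := by
    refine tendsto_integral_of_dominated_convergence
      (fun y => Bg * ‖fderiv ℝ φ y v‖) (fun n => ?_) ?_ (fun n => ae_of_all _ fun y => ?_)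
      (ae_of_all _ fun y => ?_)
    · have hcts : Continuous fun y => f n y * fderiv ℝ φ y v :=
        (hfK n).continuous.mul ((hφ.continuous_fderiv one_ne_zero).clm_apply continuous_const)
      refine hcts.aestronglyMeasurable.congr (ae_of_all _ fun y => ?_)
      by_cases hy : fderiv ℝ φ y v = 0
      · simp [hy]
      · have := hfeq n (mem_of_mem_nhds (hnear y (hsupp' y hy)))
        simp only [Function.comp_apply] at this
        simp [this]
    · exact (((hφ.continuous_fderiv one_ne_zero).clm_apply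
        continuous_const).integrable_of_hasCompactSupport
        ((hφc.fderiv ℝ).comp_left (g := fun L : E →L[ℝ] ℝ => L v) rfl)).norm.const_mul Bg
    · by_cases hy : fderiv ℝ φ y v = 0
      · simp [hy]
      · rw [norm_mul]
        exact mul_le_mul_of_nonneg_right
          (hBg _ (hΨshell n y (mem_of_mem_nhds (hnear y (hsupp' y hy))))) (norm_nonneg _)
    · by_cases hy : fderiv ℝ φ y v = 0
      · simp [hy]
      · have hy0 : y ≠ 0 := fun h' => hφ0 (h' ▸ hsupp' y hy)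
        exact (hlim y hy0).mul_const _
  simp only [hparts] at hlimL
  have := tendsto_nhds_unique hlimL hlimR.neg
  linarith

end Vale.Agent.P084
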