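import Vale.Agent.P084.FlatGradient
import Mathlib.MeasureTheory.Integral.IntervalIntegral.AbsolutelyContinuousFun
import Mathlib.Algebra.QuadraticDiscriminant

/-!
A function whose gradient is controlled by the Hessian is constant along flat segments.
-/

namespace Vale.Agent.P084

open Filter Topology MeasureTheory Metric Set
open scoped NNReal

/-- Cauchy-Schwarz for a positive semidefinite form, in operator norm. -/
lemma norm_apply_le_of_psd {E : Type*} [NormedAddCommGroup E] [NormedSpace ℝ E]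
    {H : E →L[ℝ] E →L[ℝ] ℝ} (hs : ∀ u v, H u v = H v u) (h0 : ∀ v, 0 ≤ H v v) {K η : ℝ}
    (hK : ‖H‖ ≤ K) (hη : 0 < η) (k : E) : ‖H k‖ ≤ η + K / (4 * η) * H k k := by
  have hK0 : 0 ≤ K := (norm_nonneg H).trans hK
  have hA := h0 k
  set R := η + K / (4 * η) * H k k with hR
  have hR0 : 0 ≤ R := by positivity
  refine ContinuousLinearMap.opNorm_le_bound _ hR0 fun v => ?_
  have h1 : H k v ^ 2 ≤ H k k * H v v := by
    have := discrim_le_zero (a := H k k) (b := 2 * H k v) (c := H v v) fun s => by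
      have h := h0 (v + s • k)
      simp only [map_add, map_smul, add_apply, smul_apply, smul_eq_mul] at h
      rw [hs v k] at h
      linarith
    unfold discrim at this
    linarith
  have h2 : H v v ≤ K * ‖v‖ ^ 2 := by
    refine ((le_abs_self _).trans (H.le_opNorm₂ v v)).trans ?_
    rw [sq, ← mul_assoc]
    gcongr
  have h3 : H k k * K ≤ R ^ 2 := by
    have h5 := four_mul_le_sq_add η (K / (4 * η) * H k k)
    have e : 4 * η * (K / (4 * η) * H k k) = H k k * K := by field_simp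
    rw [hR]
    linarith
  have h4 : H k v ^ 2 ≤ (R * ‖v‖) ^ 2 := by
    rw [mul_pow]
    calc H k v ^ 2 ≤ H k k * (K * ‖v‖ ^ 2) := h1.trans (mul_le_mul_of_nonneg_left h2 hA)
      _ = H k k * K * ‖v‖ ^ 2 := by ring
      _ ≤ _ := mul_le_mul_of_nonneg_right h3 (sq_nonneg _)
  rw [Real.norm_eq_abs]
  exact abs_le_of_sq_le_sq h4 (mul_nonneg hR0 (norm_nonneg _))

theorem eq_of_flat_segment {E : Type*} [NormedAddCommGroup E] [NormedSpace ℝ E]
    [FiniteDimensional ℝ E] [MeasurableSpace E] [BorelSpace E] (μ : MeasureTheory.Measure E)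
    [μ.IsAddHaarMeasure] {U : Set E} (hU : IsOpen U) {Φ : E → E →L[ℝ] ℝ}
    (hΦ : LocallyLipschitzOn U Φ) {g : E → ℝ} (hg : LocallyLipschitzOn U g)
    (hHs : ∀ᵐ x ∂μ, x ∈ U → ∀ u v, fderiv ℝ Φ x u v = fderiv ℝ Φ x v u)
    (hH0 : ∀ᵐ x ∂μ, x ∈ U → ∀ v, 0 ≤ fderiv ℝ Φ x v v)
    (hker : ∀ C : Set E, IsCompact C → C ⊆ U → ∀ ε : ℝ, 0 < ε → ∃ M : ℝ, ∀ᵐ x ∂μ, x ∈ C →
      ∀ k : E, |fderiv ℝ g x k| ≤ ε * ‖k‖ + M * ‖fderiv ℝ Φ x k‖)
    {a b : E} (hab : segment ℝ a b ⊆ U) (hflat : (Φ b - Φ a) (b - a) = 0) : g a = g b := by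
  have hP : ProperSpace E := FiniteDimensional.proper ℝ E
  set k := b - a with hk
  have hseg : IsCompact (segment ℝ a b) := by
    rw [segment_eq_image']
    exact isCompact_Icc.image (by fun_prop)
  obtain ⟨r, hr, hrU⟩ := hseg.exists_cthickening_subset_open hU hab
  set C := cthickening r (segment ℝ a b)
  have hC : IsCompact C := hseg.cthickening
  obtain ⟨Kg, hKg⟩ := (hg.mono hrU).exists_lipschitzOnWith_of_compact hC
  obtain ⟨KΦ, hKΦ⟩ := (hΦ.mono hrU).exists_lipschitzOnWith_of_compact hC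
  have hmem : ∀ z : E, ‖z‖ < r → ∀ t ∈ Icc (0 : ℝ) 1, C ∈ 𝓝 (a + t • k + z) := by
    intro z hz t ht
    refine mem_of_superset (isOpen_thickening.mem_nhds ?_) (thickening_subset_cthickening r _)
    exact mem_thickening_iff.2 ⟨a + t • k, by rw [segment_eq_image']; exact ⟨t, ht, rfl⟩,
      by rwa [dist_eq_norm, add_sub_cancel_left]⟩
  by_contra hne
  set δ := |g b - g a|
  have hδ : 0 < δ := abs_pos.2 (sub_ne_zero.2 (Ne.symm hne))
  set ε := δ / (4 * (‖k‖ + 1))
  obtain ⟨M₀, hM₀⟩ := hker C hC hrU ε (by positivity)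
  set M := max M₀ 0
  set η := δ / (4 * (M + 1))
  have hη : 0 < η := by positivity
  set L := M * (KΦ / (4 * η))
  have hdg := ae_diff_of_locallyLipschitzOn μ hU hg
  have hdΦ := ae_diff_of_locallyLipschitzOn μ hU hΦ
  have hgood : ∀ᵐ x ∂μ, x ∈ C → C ∈ 𝓝 x → DifferentiableAt ℝ g x ∧ DifferentiableAt ℝ Φ x ∧
      |fderiv ℝ g x k| ≤ ε * ‖k‖ + M * η + L * fderiv ℝ Φ x k k := by
    filter_upwards [hdg, hdΦ, hHs, hH0, hM₀] with x h1 h2 h3 h4 h5 hx hn
    refine ⟨h1 (hrU hx), h2 (hrU hx), (h5 hx k).trans ?_⟩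
    have h6 := norm_apply_le_of_psd (h3 (hrU hx)) (h4 (hrU hx))
      (norm_fderiv_le_of_lipschitzOn ℝ hn hKΦ) hη k
    have h7 : M₀ * ‖fderiv ℝ Φ x k‖ ≤ M * (η + KΦ / (4 * η) * fderiv ℝ Φ x k k) :=
      (mul_le_mul_of_nonneg_right (le_max_left _ _) (norm_nonneg _)).trans
        (mul_le_mul_of_nonneg_left h6 (le_max_right _ _))
    simp only [L]
    linarith
  obtain ⟨s, hsub, hsm, hs0⟩ := exists_measurable_superset_of_null (ae_iff.1 hgood)
  have hline : ∀ᵐ z ∂μ, ∀ᵐ t : ℝ, a + t • k + z ∉ s := by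
    refine (Measure.ae_ae_comm (p := fun (t : ℝ) (z : E) => a + t • k + z ∉ s) ?_).1
      (ae_of_all _ fun t => ?_)
    · exact ((show Continuous fun p : ℝ × E => a + p.1 • k + p.2 by fun_prop).measurable hsm).compl
    · have := (measurePreserving_add_left μ (a + t • k)).quasiMeasurePreserving.preimage_null hs0
      exact ae_iff.2 (measure_mono_null (fun z hz => not_not.1 hz) this)
  have hbound : ∀ᵐ z ∂μ, ‖z‖ < r →
      |g (b + z) - g (a + z)| - L * (Φ (b + z) - Φ (a + z)) k ≤ ε * ‖k‖ + M * η := by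
    filter_upwards [hline] with z hz hzr
    let γ : ℝ → E := fun t => a + t • k + z
    have hγd : ∀ t, HasDerivAt γ k t := fun t => by
      simpa [γ] using (((hasDerivAt_id t).smul_const k).const_add a).add_const z
    have hmaps : MapsTo γ (uIcc 0 1) C := fun t ht =>
      mem_of_mem_nhds (hmem z hzr t (by rwa [uIcc_of_le zero_le_one] at ht))
    have hγl : LipschitzWith ‖k‖₊ γ := LipschitzWith.of_dist_le_mul fun t t' => by
      simp [γ, dist_eq_norm, ← sub_smul, norm_smul, mul_comm]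
    have hF1 := (hKg.comp hγl.lipschitzOnWith hmaps).absolutelyContinuousOnInterval
    have hF2 := (((ContinuousLinearMap.apply ℝ ℝ k).lipschitz.comp_lipschitzOnWith hKΦ).comp
      hγl.lipschitzOnWith hmaps).absolutelyContinuousOnInterval
    have hi := (intervalIntegrable_const (μ := volume) (a := (0 : ℝ)) (b := 1)
      (c := ε * ‖k‖ + M * η)).add (hF2.intervalIntegrable_deriv.const_mul L)
    have hle : ‖∫ t in (0 : ℝ)..1, deriv (g ∘ γ) t‖
        ≤ ∫ t in (0 : ℝ)..1,
          (ε * ‖k‖ + M * η + L * deriv ((⇑(ContinuousLinearMap.apply ℝ ℝ k) ∘ Φ) ∘ γ) t) := by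
      refine intervalIntegral.norm_integral_le_of_norm_le zero_le_one ?_ hi
      filter_upwards [hz] with t ht htI
      have hn := hmem z hzr t (Ioc_subset_Icc_self htI)
      have hgood' : C ∈ 𝓝 (γ t) → DifferentiableAt ℝ g (γ t) ∧ DifferentiableAt ℝ Φ (γ t) ∧
          |fderiv ℝ g (γ t) k| ≤ ε * ‖k‖ + M * η + L * fderiv ℝ Φ (γ t) k k := fun h => by
        by_contra hcon
        exact ht (hsub fun h' => hcon (h' (mem_of_mem_nhds h) h))
      obtain ⟨d1, d2, d3⟩ := hgood' hn
      have e1 : HasDerivAt (g ∘ γ) (fderiv ℝ g (γ t) k) t :=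
        d1.hasFDerivAt.comp_hasDerivAt t (hγd t)
      have e2 : HasDerivAt ((⇑(ContinuousLinearMap.apply ℝ ℝ k) ∘ Φ) ∘ γ)
          (fderiv ℝ Φ (γ t) k k) t :=
        ((ContinuousLinearMap.apply ℝ ℝ k).hasFDerivAt.comp (γ t) d2.hasFDerivAt).comp_hasDerivAt
          t (hγd t)
      rw [e1.deriv, e2.deriv, Real.norm_eq_abs]
      exact d3
    rw [intervalIntegral.integral_add intervalIntegrable_const
      (hF2.intervalIntegrable_deriv.const_mul L), intervalIntegral.integral_const,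
      intervalIntegral.integral_const_mul, hF1.integral_deriv_eq_sub, hF2.integral_deriv_eq_sub,
      Real.norm_eq_abs] at hle
    have e : a + k + z = b + z := by rw [hk]; abel
    simp only [Function.comp_apply, γ, zero_smul, one_smul, add_zero, e, sub_zero, smul_eq_mul,
      one_mul, ContinuousLinearMap.apply_apply] at hle
    simp only [sub_apply]
    linarith
  have hcont : ContinuousAt
      (fun z => |g (b + z) - g (a + z)| - L * (Φ (b + z) - Φ (a + z)) k) 0 := by
    have hgc : ∀ p ∈ segment ℝ a b, ContinuousAt (fun z => g (p + z)) 0 := fun p hp => by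
      refine ContinuousAt.comp ?_ (by fun_prop)
      simpa using hg.continuousOn.continuousAt (hU.mem_nhds (hab hp))
    have hΦc : ∀ p ∈ segment ℝ a b, ContinuousAt (fun z => Φ (p + z)) 0 := fun p hp => by
      refine ContinuousAt.comp ?_ (by fun_prop)
      simpa using hΦ.continuousOn.continuousAt (hU.mem_nhds (hab hp))
    exact ((hgc b (right_mem_segment ℝ a b)).sub (hgc a (left_mem_segment ℝ a b))).abs.sub
      ((((hΦc b (right_mem_segment ℝ a b)).sub (hΦc a (left_mem_segment ℝ a b))).clm_apply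
        continuousAt_const).const_mul L)
  have h0 : ε * ‖k‖ + M * η < |g (b + 0) - g (a + 0)| - L * (Φ (b + 0) - Φ (a + 0)) k := by
    rw [add_zero, add_zero, hflat, mul_zero, sub_zero]
    have h1 : ε * ‖k‖ ≤ δ / 4 := by
      simp only [ε]
      rw [div_mul_eq_mul_div, div_le_div_iff₀ (by positivity) (by norm_num)]
      nlinarith [norm_nonneg k]
    have h2 : M * η ≤ δ / 4 := by
      simp only [η]
      rw [mul_div_assoc', div_le_div_iff₀ (by positivity) (by norm_num)]
      nlinarith [le_max_right M₀ 0]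
    linarith
  have hev := (hcont.eventually (lt_mem_nhds h0)).and (ball_mem_nhds (0 : E) hr)
  refine (Measure.measure_pos_of_mem_nhds μ hev).ne' (measure_mono_null ?_ (ae_iff.1 hbound))
  intro z hz hbd
  exact not_lt.2 (hbd (mem_ball_zero_iff.1 hz.2)) hz.1

end Vale.Agent.P084
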