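import Vale.Agent.P084.Relation
import Vale.Agent.P084.SegmentFlat
import Vale.Agent.P084.FlatGradientGen

/-!
Lipschitz functions of the derivative supported away from the isometric points are constant.
-/

namespace Vale.Agent.P084

open Filter Topology Metric MeasureTheory

variable {X Y : Type*} [NormedAddCommGroup X] [NormedSpace ℝ X] [NormedAddCommGroup Y]
  [NormedSpace ℝ Y]

/-- The derivative of a Lipschitz function of a map. -/
lemma abs_fderiv_comp_le {E : Type*} [NormedAddCommGroup E] [NormedSpace ℝ E] {G : X → E}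
    {F : E → ℝ} {C : NNReal} (hF : LipschitzWith C F) {z : X} {Q : X →L[ℝ] E}
    (hG : HasFDerivAt G Q z) (hd : DifferentiableAt ℝ (fun y => F (G y)) z) (k : X) :
    |fderiv ℝ (fun y => F (G y)) z k| ≤ C * ‖Q k‖ := by
  refine le_of_tendsto_of_tendsto (hd.hasFDerivAt.hasLineDerivAt k).tendsto_slope_zero.abs
    (((hG.hasLineDerivAt k).tendsto_slope_zero.norm).const_mul (C : ℝ))
    (Eventually.of_forall fun t => ?_)
  show |t⁻¹ • (F (G (z + t • k)) - F (G z))| ≤ C * ‖t⁻¹ • (G (z + t • k) - G z)‖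
  rw [smul_eq_mul, abs_mul, norm_smul, Real.norm_eq_abs, mul_left_comm]
  refine mul_le_mul_of_nonneg_left ?_ (abs_nonneg _)
  simpa [dist_eq_norm] using hF.dist_le_mul (G (z + t • k)) (G z)

namespace IsTingley

variable {T : X → Y} {T' : Y → X} (hT : IsTingley T T') [FiniteDimensional ℝ X]
include hT

lemma locallyLipschitz_halfGrad : LocallyLipschitzOn (Uset T) (halfGrad (X := X)) := by
  intro x hx
  obtain ⟨r, hr, K, ⟨-, hK⟩, -⟩ := hT.c11_of_not_isoAt hx.1 hx.2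
  set M : ℝ := ‖x‖ + r with hM
  refine ⟨(1 + M * K).toNNReal, ball x r, mem_nhdsWithin_of_mem_nhds (ball_mem_nhds x hr),
    LipschitzOnWith.of_dist_le_mul fun a ha b hb => ?_⟩
  have hMb : ‖b‖ ≤ M := by
    have := norm_le_norm_add_norm_sub' b x
    rw [← dist_eq_norm] at this
    linarith [mem_ball.1 hb]
  have hM0 : 0 ≤ M := (norm_nonneg b).trans hMb
  rw [dist_eq_norm, dist_eq_norm, Real.coe_toNNReal _ (by positivity),
    show halfGrad a - halfGrad b = (‖a‖ - ‖b‖) • D1 a + ‖b‖ • (D1 a - D1 b) by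
      simp only [halfGrad]; module]
  refine (norm_add_le _ _).trans ?_
  rw [norm_smul, norm_smul, norm_norm, Real.norm_eq_abs]
  have h1 : |‖a‖ - ‖b‖| * ‖D1 a‖ ≤ ‖a - b‖ :=
    (mul_le_of_le_one_right (abs_nonneg _) (norm_D1_le a)).trans (abs_norm_sub_norm_le a b)
  have h2 : ‖b‖ * ‖D1 a - D1 b‖ ≤ M * (K * ‖a - b‖) := by
    refine mul_le_mul hMb ?_ (norm_nonneg _) hM0
    simpa [dist_eq_norm] using hK.dist_le_mul a ha b hb
  linarith

lemma hasFDerivAt_halfGrad {x : X} {H : X →L[ℝ] X →L[ℝ] ℝ} (hx : x ∈ Uset T) (hH : HessAt x H) :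
    HasFDerivAt (halfGrad (X := X)) (‖x‖ • H + (D1 x).smulRight (D1 x)) x :=
  (hT.norm_diff hx).hasFDerivAt.smul hH

lemma locallyLipschitz_comp {F : (X →L[ℝ] Y) → ℝ} {C : NNReal} (hF : LipschitzWith C F) :
    LocallyLipschitzOn (Uset T) (fun z => F (fderiv ℝ T z)) := by
  intro z hz
  obtain ⟨K, t, ht, hK⟩ := hT.locallyLipschitz_fderiv hz
  exact ⟨_, t, ht, hF.comp_lipschitzOnWith hK⟩

variable [MeasurableSpace X] [BorelSpace X]

/-- The hypothesis of the segment lemma. -/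
lemma kernel_ae {F : (X →L[ℝ] Y) → ℝ} {CF : NNReal} (hF : LipschitzWith CF F) {C : Set X}
    (hC : IsCompact C) (hCU : C ⊆ Uset T) {ε : ℝ} (hε : 0 < ε) :
    ∃ M : ℝ, ∀ᵐ x ∂(μH[Module.finrank ℝ X] : Measure X), x ∈ C → ∀ k : X,
      |fderiv ℝ (fun z => F (fderiv ℝ T z)) x k|
        ≤ ε * ‖k‖ + M * ‖fderiv ℝ (halfGrad (X := X)) x k‖ := by
  have : FiniteDimensional ℝ Y := hT.finiteDimensional
  rcases C.eq_empty_or_nonempty with rfl | hne
  · exact ⟨0, Eventually.of_forall fun x hx => hx.elim⟩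
  obtain ⟨R₁, hR₁⟩ := exists_fderiv_bound hT.isOpen_Uset hT.locallyLipschitz_D1 hC hCU
  obtain ⟨R₂, hR₂⟩ := exists_fderiv_bound hT.isOpen_Uset hT.locallyLipschitz_fderiv hC hCU
  obtain ⟨x₀, hx₀, hmin⟩ := hC.exists_isMinOn hne continuous_norm.continuousOn
  set m := ‖x₀‖
  have hm : 0 < m := norm_pos_iff.2 (hCU hx₀).1
  obtain ⟨M, hM0, hM⟩ := hT.exists_kernel_bound hC hCU (max R₁ (3 * R₂))
    (ε := ε / (3 * CF + 1)) (by positivity)
  refine ⟨3 * CF * M * (2 / m + 1), ?_⟩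
  filter_upwards [hT.ae_secondJet, ae_differentiableAt_open (μH[Module.finrank ℝ X] : Measure X)
    hT.isOpen_Uset (hT.locallyLipschitz_comp hF)] with x hx hd hxC k
  have hxU := hCU hxC
  obtain ⟨q1, q2, hj⟩ := hx hxU
  set Q := fderiv ℝ (fderiv ℝ T) x
  set H := fderiv ℝ (D1 (X := X)) x
  set q := pullQ T T' x Q
  have hL : ∀ v, ‖fderiv ℝ T x v‖ ≤ 3 * ‖v‖ := fun v => (ContinuousLinearMap.le_opNorm _ v).trans
    (mul_le_mul_of_nonneg_right (by simpa using norm_fderiv_le_of_lipschitz ℝ hT.lipschitz (x₀ := x))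
      (norm_nonneg v))
  have hL' : ∀ v, ‖fderiv ℝ T' (T x) v‖ ≤ 3 * ‖v‖ := fun v =>
    (ContinuousLinearMap.le_opNorm _ v).trans (mul_le_mul_of_nonneg_right
      (by simpa using norm_fderiv_le_of_lipschitz ℝ hT.symm.lipschitz (x₀ := T x)) (norm_nonneg v))
  have hR2 : 0 ≤ R₂ := (norm_nonneg _).trans (hR₂ x hxC)
  have hqR : ‖q‖ ≤ max R₁ (3 * R₂) := by
    refine le_trans ?_ (le_max_right _ _)
    refine ContinuousLinearMap.opNorm_le_bound₂ _ (by positivity) fun u v => ?_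
    have h1 : ‖Q u v‖ ≤ R₂ * ‖u‖ * ‖v‖ := ((Q u).le_opNorm v).trans (mul_le_mul_of_nonneg_right
      ((Q.le_opNorm u).trans (mul_le_mul_of_nonneg_right (hR₂ x hxC) (norm_nonneg u))) (norm_nonneg v))
    exact (hL' (Q u v)).trans ((mul_le_mul_of_nonneg_left h1 (by norm_num : (0 : ℝ) ≤ 3)).trans
      (le_of_eq (by ring)))
  have h1 := hM x hxC H q hj ((hR₁ x hxC).trans (le_max_left _ _)) hqR k
  have hQk : ‖Q k‖ ≤ 3 * ‖q k‖ := by
    refine ContinuousLinearMap.opNorm_le_bound _ (by positivity) fun v => ?_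
    have e : fderiv ℝ T x (q k v) = Q k v := hT.fderiv_right_general hxU.1 _
    rw [← e, mul_assoc]
    exact (hL _).trans (mul_le_mul_of_nonneg_left ((q k).le_opNorm v) (by norm_num))
  have h2 := abs_fderiv_comp_le hF q1 (hd hxU) k
  -- the derivative of the gradient controls the flatness
  rw [(hT.hasFDerivAt_halfGrad hxU q2).fderiv]
  set D := (‖x‖ • H + (D1 x).smulRight (D1 x)) k with hD
  have hxn : m ≤ ‖x‖ := hmin hxC
  have hD1 : |D1 x k| ≤ ‖D‖ := by
    have h3 := D.le_opNorm x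
    rw [Real.norm_eq_abs] at h3
    have e : D x = D1 x k * ‖x‖ := by
      simp [hD, hj.radial k, norm_D1_self (hT.norm_diff hxU)]
    rw [e, abs_mul, abs_norm] at h3
    exact le_of_mul_le_mul_right h3 (hm.trans_le hxn)
  have hH : ‖H k‖ ≤ 2 / m * ‖D‖ := by
    have e : ‖x‖ • H k = D - D1 x k • D1 x := by simp [hD]
    have h3 := congrArg (fun f : X →L[ℝ] ℝ => ‖f‖) e
    simp only [norm_smul, norm_norm] at h3
    have h4 := norm_sub_le D (D1 x k • D1 x)
    rw [norm_smul, Real.norm_eq_abs] at h4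
    have h5 := mul_le_of_le_one_right (abs_nonneg (D1 x k)) (norm_D1_le x)
    rw [div_mul_eq_mul_div, le_div_iff₀ hm]
    nlinarith [norm_nonneg (H k)]
  have h6 : ‖H k‖ + |D1 x k| ≤ (2 / m + 1) * ‖D‖ := by linarith
  have h7 : ‖q k‖ ≤ ε / (3 * CF + 1) * ‖k‖ + M * ((2 / m + 1) * ‖D‖) :=
    h1.trans (add_le_add le_rfl (mul_le_mul_of_nonneg_left h6 hM0))
  have h8 : (3 : ℝ) * CF * (ε / (3 * CF + 1)) ≤ ε := by
    rw [mul_div_assoc', div_le_iff₀ (by positivity)]
    nlinarith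
  calc |fderiv ℝ (fun z => F (fderiv ℝ T z)) x k| ≤ CF * ‖Q k‖ := h2
    _ ≤ CF * (3 * ‖q k‖) := mul_le_mul_of_nonneg_left hQk CF.2
    _ ≤ CF * (3 * (ε / (3 * CF + 1) * ‖k‖ + M * ((2 / m + 1) * ‖D‖))) := by gcongr
    _ ≤ ε * ‖k‖ + 3 * CF * M * (2 / m + 1) * ‖D‖ := by
      nlinarith [mul_le_mul_of_nonneg_right h8 (norm_nonneg k)]

/-- Constancy on segments with constant gradient. -/
lemma eq_on_flat_segment {F : (X →L[ℝ] Y) → ℝ} {CF : NNReal} (hF : LipschitzWith CF F) {a b : X}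
    (hab : segment ℝ a b ⊆ Uset T) (hflat : (halfGrad b - halfGrad a) (b - a) = 0) :
    F (fderiv ℝ T a) = F (fderiv ℝ T b) := by
  refine eq_of_flat_segment (μH[Module.finrank ℝ X] : Measure X) hT.isOpen_Uset
    hT.locallyLipschitz_halfGrad (hT.locallyLipschitz_comp hF) ?_ ?_
    (fun C hC hCU ε hε => hT.kernel_ae hF hC hCU hε) hab hflat
  · filter_upwards [hT.ae_secondJet] with x hx hxU u v
    obtain ⟨-, q2, hj⟩ := hx hxU
    rw [(hT.hasFDerivAt_halfGrad hxU q2).fderiv]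
    simp [hj.symm u v]
    ring
  · filter_upwards [hT.ae_secondJet] with x hx hxU v
    obtain ⟨-, q2, hj⟩ := hx hxU
    rw [(hT.hasFDerivAt_halfGrad hxU q2).fderiv]
    simp only [add_apply, smul_apply, ContinuousLinearMap.smulRight_apply, smul_eq_mul]
    nlinarith [hj.nonneg v, norm_nonneg x, mul_self_nonneg (D1 x v)]

omit [MeasurableSpace X] [BorelSpace X] in
lemma continuousOn_comp {F : (X →L[ℝ] Y) → ℝ} {CF : NNReal} (hF : LipschitzWith CF F) :
    ContinuousOn (fun z => F (fderiv ℝ T z)) ({0}ᶜ : Set X) := fun _ hz =>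
  (hF.continuous.continuousAt.comp (hT.continuousAt_fderiv_general hz)).continuousWithinAt

/-- Constancy along the segments of a common subgradient. -/
lemma eq_on_fibre {F : (X →L[ℝ] Y) → ℝ} {CF : NNReal} (hF : LipschitzWith CF F)
    (hsupp : ∀ x, x ≠ 0 → x ∈ closure {z | F (fderiv ℝ T z) ≠ 0} → x ∈ Uset T)
    {J : X →L[ℝ] X →L[ℝ] ℝ} (hJp : ∀ v, v ≠ 0 → 0 < J v v) {x x' y : X} (hy : y ≠ 0)
    (h : SubGrad J x y) (h' : SubGrad J x' y) :
    F (fderiv ℝ T x) = F (fderiv ℝ T x') := by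
  let p : ℝ → X := fun t => (1 - t) • x + t • x'
  let g : ℝ → ℝ := fun t => F (fderiv ℝ T (p t))
  have hrel : ∀ t ∈ Set.Icc (0 : ℝ) 1, SubGrad J (p t) y := fun t ht => h.segment h' ht
  have hp0 : ∀ t ∈ Set.Icc (0 : ℝ) 1, p t ≠ 0 := fun t ht h0 =>
    hy ((h0 ▸ hrel t ht : SubGrad J 0 y).eq_zero_left hJp)
  have hpc : Continuous p := by fun_prop
  have hgc : ContinuousOn g (Set.Icc 0 1) :=
    (hT.continuousOn_comp hF).comp hpc.continuousOn hp0
  have hloc : ∀ t ∈ Set.Icc (0 : ℝ) 1, g t ≠ 0 →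
      ∀ᶠ s in 𝓝[Set.Icc (0 : ℝ) 1] t, g s = g t := by
    intro t ht hgt
    have htU : p t ∈ Uset T := hsupp _ (hp0 t ht) (subset_closure hgt)
    obtain ⟨δ, hδ, hball⟩ := Metric.isOpen_iff.1 (hT.isOpen_Uset.preimage hpc) t htU
    filter_upwards [inter_mem_nhdsWithin _ (ball_mem_nhds t hδ)] with s hs
    have hseg : segment ℝ (p s) (p t) ⊆ Uset T := by
      rintro z ⟨u, v, hu, hv, huv, rfl⟩
      rw [show u • p s + v • p t = p (u • s + v • t) by
        simp only [p, smul_eq_mul]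
        obtain rfl : v = 1 - u := by linarith
        module]
      exact hball ((convex_ball t δ) hs.2 (mem_ball_self hδ) hu hv huv)
    refine hT.eq_on_flat_segment hF hseg ?_
    rw [← (subGrad_iff (hT.norm_diff htU)).1 (hrel t ht),
      ← (subGrad_iff (hT.norm_diff (hball hs.2))).1 (hrel s hs.1), sub_self]
    rfl
  have hall : ∀ t₀ ∈ Set.Icc (0 : ℝ) 1, g t₀ ≠ 0 → ∀ t ∈ Set.Icc (0 : ℝ) 1, g t = g t₀ := by
    intro t₀ ht₀ hne
    have : PreconnectedSpace (Set.Icc (0 : ℝ) 1) :=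
      isPreconnected_iff_preconnectedSpace.1 isPreconnected_Icc
    let S : Set (Set.Icc (0 : ℝ) 1) := {t | g t = g t₀}
    have hclosed : IsClosed S := isClosed_eq hgc.domRestrict continuous_const
    have hopen : IsOpen S := isOpen_iff_mem_nhds.2 fun t (ht : g t = g t₀) =>
      ((eventually_nhds_subtype_iff _ _ (fun s => g s = g t₀)).2
        ((hloc t t.2 (ht ▸ hne)).mono fun s hs => hs.trans ht))
    have huniv := IsClopen.eq_univ ⟨hclosed, hopen⟩ ⟨⟨t₀, ht₀⟩, rfl⟩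
    exact fun t ht => (huniv ▸ Set.mem_univ (⟨t, ht⟩ : Set.Icc (0 : ℝ) 1) :
      (⟨t, ht⟩ : Set.Icc (0 : ℝ) 1) ∈ S)
  by_cases h0 : g 0 = 0
  · by_cases h1 : g 1 = 0
    · have e0 : p 0 = x := by simp [p]
      have e1 : p 1 = x' := by simp [p]
      have := h0.trans h1.symm
      simp only [g, e0, e1] at this
      exact this
    · exact absurd (hall 1 (by simp) h1 0 (by simp)) (fun e => h1 (e ▸ h0))
  · have := hall 0 (by simp) h0 1 (by simp)
    simpa [g, p] using this.symm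

end IsTingley

end Vale.Agent.P084
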