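import Mathlib.Analysis.InnerProductSpace.PiL2
import Mathlib.Analysis.InnerProductSpace.Spectrum
import Mathlib.Analysis.InnerProductSpace.Projection.Submodule
import Mathlib.Analysis.Calculus.Deriv.Pow
import Mathlib.Analysis.Calculus.Deriv.Add
import Mathlib.Analysis.Calculus.Deriv.Mul
import Mathlib.Analysis.Calculus.LocalExtr.Basic
import Mathlib.Analysis.SpecialFunctions.Sqrt

/-!
A symmetric cubic form which is annihilated, up to multiples of the base point, by the gradient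
of a positively homogeneous positive function vanishes.
-/

namespace Vale.Agent.P084

open Filter Topology
open scoped RealInnerProductSpace

variable {V : Type*} [NormedAddCommGroup V] [InnerProductSpace ℝ V]
  {q : V →ₗ[ℝ] V →ₗ[ℝ] V} {p : V → V}

/-- An orthogonal eigenpair has eigenvalue zero. -/
lemma eigen_zero (hpos : ∀ v, v ≠ 0 → 0 < ⟪p v, v⟫)
    (heq : ∀ v, v ≠ 0 → ∃ a : ℝ, ∀ u, ⟪p v, q u v⟫ = a * ⟪u, v⟫) {v w : V} {k : ℝ} (hw : w ≠ 0)
    (hvw : ⟪v, w⟫ = 0) (hk : q v w = k • w) : k = 0 := by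
  obtain ⟨a, ha⟩ := heq w hw
  have h := ha v
  rw [hvw, mul_zero, hk, real_inner_smul_right] at h
  exact (mul_eq_zero.1 h).resolve_right (hpos w hw).ne'

/-- A diagonal two-dimensional block vanishes. -/
lemma pair_zero (hsymm : ∀ u w, q u w = q w u) (hp : ∀ v, v ≠ 0 → ContinuousAt p v)
    (hpos : ∀ v, v ≠ 0 → 0 < ⟪p v, v⟫)
    (heq : ∀ v, v ≠ 0 → ∃ a : ℝ, ∀ u, ⟪p v, q u v⟫ = a * ⟪u, v⟫) {v w : V} {g c : ℝ}
    (hv : ⟪v, v⟫ = 1) (hw : ⟪w, w⟫ = 1) (hvw : ⟪v, w⟫ = 0) (hvwq : q v w = 0)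
    (hg : q v v = g • v) (hc : q w w = c • w) : g = 0 := by
  have hwvq : q w v = 0 := by rw [hsymm, hvwq]
  have hwv : ⟪w, v⟫ = 0 := by rw [real_inner_comm, hvw]
  have key : ∀ α β : ℝ, α • v + β • w ≠ 0 → ∃ a : ℝ,
      α * g * ⟪p (α • v + β • w), v⟫ = a * α ∧ β * c * ⟪p (α • v + β • w), w⟫ = a * β := by
    intro α β hne
    obtain ⟨a, ha⟩ := heq _ hne
    refine ⟨a, ?_, ?_⟩
    · have h := ha v
      simp only [map_add, map_smul, hg, hvwq, smul_zero, add_zero, real_inner_smul_right,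
        inner_add_right, hv, hvw, mul_one, mul_zero] at h
      linarith
    · have h := ha w
      simp only [map_add, map_smul, hc, hwvq, smul_zero, zero_add, real_inner_smul_right,
        inner_add_right, hw, hwv, mul_one, mul_zero] at h
      linarith
  have hne : ∀ β : ℝ, v + β • w ≠ 0 := fun β h => by
    have h' : ⟪v, v + β • w⟫ = 0 := by rw [h, inner_zero_right]
    rw [inner_add_right, real_inner_smul_right, hv, hvw] at h'
    simp at h'
  by_contra hg0
  rcases eq_or_ne c 0 with hc0 | hc0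
  · have h0 : ∀ β : ℝ, β ≠ 0 → ⟪p (v + β • w), v⟫ = 0 := by
      intro β hβ
      obtain ⟨a, h1, h2⟩ := key 1 β (by rw [one_smul]; exact hne β)
      rw [one_smul] at h1 h2
      rw [hc0, mul_zero, zero_mul] at h2
      have ha : a = 0 := (mul_eq_zero.1 h2.symm).resolve_right hβ
      rw [ha, zero_mul, one_mul] at h1
      exact (mul_eq_zero.1 h1).resolve_left hg0
    have hcont : ContinuousAt (fun β : ℝ => ⟪p (v + β • w), v⟫) 0 := by
      refine ContinuousAt.inner ?_ continuousAt_const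
      have h1 : ContinuousAt p (v + (0 : ℝ) • w) := hp _ (hne 0)
      exact h1.comp (f := fun β : ℝ => v + β • w)
        (continuousAt_const.add (continuousAt_id.smul continuousAt_const))
    have h1 := tendsto_nhds_unique
      (hcont.tendsto.mono_left (nhdsWithin_le_nhds (s := {(0 : ℝ)}ᶜ)))
      (tendsto_const_nhds.congr'
        (eventually_nhdsWithin_of_forall fun β hβ => (h0 β hβ).symm))
    have hv0 : v ≠ 0 := fun h => by simp [h] at hv
    have := hpos v hv0
    simp only [zero_smul, add_zero] at h1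
    linarith
  · have hne' : g • v + (-c) • w ≠ 0 := fun h => by
      have h' : ⟪v, g • v + (-c) • w⟫ = 0 := by rw [h, inner_zero_right]
      rw [inner_add_right, real_inner_smul_right, real_inner_smul_right, hv, hvw] at h'
      exact hg0 (by linarith)
    obtain ⟨a, h1, h2⟩ := key g (-c) hne'
    have h1' : g * ⟪p (g • v + (-c) • w), v⟫ = a :=
      mul_left_cancel₀ hg0 (by linarith)
    have h2' : c * ⟪p (g • v + (-c) • w), w⟫ = a :=
      mul_left_cancel₀ (neg_ne_zero.2 hc0) (by linarith)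
    have h := hpos _ hne'
    set P := p (g • v + (-c) • w) with hP
    simp only [inner_add_right, real_inner_smul_right] at h
    linarith

/-- Every nonzero invariant subspace contains a unit vector with `q v v` a multiple of it. -/
lemma exists_fixed (hsymm : ∀ u w, q u w = q w u) (hsa : ∀ u w z, ⟪q u w, z⟫ = ⟪w, q u z⟫)
    [FiniteDimensional ℝ V] {W : Submodule ℝ V} (hW : W ≠ ⊥) (hinv : ∀ u ∈ W, ∀ w ∈ W, q u w ∈ W) :
    ∃ v ∈ W, ⟪v, v⟫ = 1 ∧ ∃ g : ℝ, q v v = g • v := by
  let G : V → ℝ := fun x => ⟪q x x, x⟫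
  have hGc : Continuous G := by
    have h1 : Continuous fun x : V => q x x := by
      let B : V →L[ℝ] V →L[ℝ] V :=
        LinearMap.toContinuousLinearMap
          ((LinearMap.toContinuousLinearMap (𝕜 := ℝ) (E := V) (F' := V)).toLinearMap ∘ₗ q)
      have : (fun x : V => q x x) = fun x => B x x := rfl
      rw [this]
      exact B.continuous.clm_apply continuous_id
    exact h1.inner continuous_id
  obtain ⟨w₀, hw₀, hw₀0⟩ := W.exists_mem_ne_zero_of_ne_bot hW
  have hcpt : IsCompact ((W : Set V) ∩ Metric.sphere (0 : V) 1) :=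
    (isCompact_sphere _ _).inter_left W.closed_of_finiteDimensional
  have hnem : ((W : Set V) ∩ Metric.sphere (0 : V) 1).Nonempty :=
    ⟨‖w₀‖⁻¹ • w₀, W.smul_mem _ hw₀, by
      simp [norm_smul, hw₀0]⟩
  obtain ⟨v, ⟨hvW, hv1⟩, hmax⟩ := hcpt.exists_isMaxOn hnem hGc.continuousOn
  have hv : ⟪v, v⟫ = 1 := by
    rw [real_inner_self_eq_norm_sq, mem_sphere_zero_iff_norm.1 hv1, one_pow]
  refine ⟨v, hvW, hv, G v, ?_⟩
  set r := q v v - G v • v with hr
  have hrW : r ∈ W := W.sub_mem (hinv v hvW v hvW) (W.smul_mem _ hvW)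
  have hrv : ⟪r, v⟫ = 0 := by
    rw [hr, inner_sub_left, real_inner_smul_left, hv, mul_one, sub_self]
  rw [← sub_eq_zero, ← hr]
  by_contra hr0
  set u := ‖r‖⁻¹ • r with hu
  have hu1 : ⟪u, u⟫ = 1 := by
    rw [real_inner_self_eq_norm_sq]; simp [hu, norm_smul, hr0]
  have huv : ⟪v, u⟫ = 0 := by
    rw [hu, real_inner_smul_right, real_inner_comm, hrv, mul_zero]
  have huW : u ∈ W := W.smul_mem _ hrW
  let φ : ℝ → ℝ := fun t => G (v + t • u) - G v * Real.sqrt (1 + t ^ 2) ^ 3
  have hle : ∀ t, φ t ≤ φ 0 := by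
    intro t
    have hn : ‖v + t • u‖ = Real.sqrt (1 + t ^ 2) := by
      rw [norm_eq_sqrt_real_inner]
      congr 1
      simp only [inner_add_left, inner_add_right, real_inner_smul_left, real_inner_smul_right,
        real_inner_comm v u, hv, hu1, huv]
      ring
    have hpos : 0 < ‖v + t • u‖ := by rw [hn]; positivity
    have hm : G (‖v + t • u‖⁻¹ • (v + t • u)) ≤ G v :=
      hmax ⟨W.smul_mem _ (W.add_mem hvW (W.smul_mem _ huW)), by
        rw [mem_sphere_zero_iff_norm, norm_smul, norm_inv, norm_norm, inv_mul_cancel₀ hpos.ne']⟩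
    have hG3 : ∀ (s : ℝ) (x : V), G (s • x) = s ^ 3 * G x := fun s x => by
      simp [G, map_smul, LinearMap.smul_apply, real_inner_smul_left, real_inner_smul_right]
      ring
    rw [hG3, inv_pow, inv_mul_le_iff₀ (by positivity), hn] at hm
    simp only [φ, zero_smul, add_zero, ne_eq, OfNat.ofNat_ne_zero, not_false_eq_true, zero_pow,
      Real.sqrt_one, one_pow, mul_one, sub_self]
    linarith
  have hd : HasDerivAt φ (3 * ⟪q v v, u⟫) 0 := by
    have hexp : (fun t : ℝ => G (v + t • u)) = fun t => G v + t * (3 * ⟪q v v, u⟫)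
        + t ^ 2 * (3 * ⟪q v u, u⟫) + t ^ 3 * G u := by
      funext t
      have e1 : ⟪q u v, v⟫ = ⟪q v v, u⟫ := by rw [hsymm u v, hsa, real_inner_comm]
      have e2 : ⟪q u u, v⟫ = ⟪q v u, u⟫ := by
        rw [hsa, hsymm u v, real_inner_comm]
      have e3 : ⟪q v u, v⟫ = ⟪q v v, u⟫ := by rw [hsa, real_inner_comm]
      have e4 : ⟪q u v, u⟫ = ⟪q v u, u⟫ := by rw [hsymm u v]
      simp only [G, map_add, map_smul, LinearMap.add_apply, LinearMap.smul_apply, inner_add_left,
        inner_add_right, real_inner_smul_left, real_inner_smul_right, e1, e2, e3, e4]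
      ring
    have h1 : HasDerivAt (fun t : ℝ => G (v + t • u)) (3 * ⟪q v v, u⟫) 0 := by
      rw [hexp]
      simpa [Pi.add_def] using ((((hasDerivAt_id (0 : ℝ)).mul_const (3 * ⟪q v v, u⟫)).const_add (G v)).add
        ((hasDerivAt_pow 2 (0 : ℝ)).mul_const (3 * ⟪q v u, u⟫))).add
          ((hasDerivAt_pow 3 (0 : ℝ)).mul_const (G u))
    have h2 : HasDerivAt (fun t : ℝ => G v * Real.sqrt (1 + t ^ 2) ^ 3) 0 0 := by
      simpa using (((((hasDerivAt_pow 2 (0 : ℝ)).const_add 1).sqrt (by norm_num)).pow 3).const_mul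
        (G v))
    simpa [φ, Pi.sub_def] using h1.sub h2
  have h0 := (show IsLocalMax φ 0 from Eventually.of_forall hle).hasDerivAt_eq_zero hd
  have : ⟪r, u⟫ = 0 := by
    rw [hr, inner_sub_left, real_inner_smul_left, huv, mul_zero]
    linarith
  rw [hu, real_inner_smul_right] at this
  simp [hr0] at this

/-- The cubic form vanishes in dimension at least two. -/
theorem cubic_vanish [FiniteDimensional ℝ V] (hdim : 2 ≤ Module.finrank ℝ V)
    (hsymm : ∀ u w, q u w = q w u) (hsa : ∀ u w z, ⟪q u w, z⟫ = ⟪w, q u z⟫)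
    (hp : ∀ v, v ≠ 0 → ContinuousAt p v) (hpos : ∀ v, v ≠ 0 → 0 < ⟪p v, v⟫)
    (heq : ∀ v, v ≠ 0 → ∃ a : ℝ, ∀ u, ⟪p v, q u v⟫ = a * ⟪u, v⟫) : ∀ u w, q u w = 0 := by
  -- split off one fixed vector
  have split : ∀ W : Submodule ℝ V, W ≠ ⊥ → (∀ u ∈ W, ∀ w ∈ W, q u w ∈ W) →
      ∃ v ∈ W, ∃ g : ℝ, ⟪v, v⟫ = 1 ∧ q v v = g • v ∧
        (∀ w ∈ W ⊓ (ℝ ∙ v)ᗮ, q v w = 0) ∧
        ∀ u ∈ W ⊓ (ℝ ∙ v)ᗮ, ∀ w ∈ W ⊓ (ℝ ∙ v)ᗮ, q u w ∈ W ⊓ (ℝ ∙ v)ᗮ := by
    intro W hW hinv
    obtain ⟨v, hvW, hv, g, hg⟩ := exists_fixed hsymm hsa hW hinv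
    set W' := W ⊓ (ℝ ∙ v)ᗮ with hW'
    have hmem : ∀ {x}, x ∈ W' ↔ x ∈ W ∧ ⟪v, x⟫ = 0 := by
      intro x
      rw [hW', Submodule.mem_inf, Submodule.mem_orthogonal_singleton_iff_inner_right]
    have hqW : ∀ w ∈ W', q v w ∈ W' := by
      intro w hw
      obtain ⟨hwW, hwv⟩ := hmem.1 hw
      refine hmem.2 ⟨hinv v hvW w hwW, ?_⟩
      rw [← hsa, hg, real_inner_smul_left, hwv, mul_zero]
    let S : W' →ₗ[ℝ] W' := (q v).restrict hqW
    have hS : S.IsSymmetric := fun a b => by
      simp only [S, Submodule.coe_inner, LinearMap.restrict_apply]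
      exact hsa _ _ _
    have hzero : ∀ w ∈ W', q v w = 0 := by
      intro w hw
      have hb : S = 0 := by
        refine (hS.eigenvectorBasis rfl).toBasis.ext fun i => ?_
        have hev := hS.apply_eigenvectorBasis rfl i
        set k : ℝ := hS.eigenvalues rfl i
        set e := hS.eigenvectorBasis rfl i with he
        have he0 : (e : V) ≠ 0 := by
          simpa using (hS.eigenvectorBasis rfl).orthonormal.ne_zero i
        have hk : q v (e : V) = k • (e : V) := by
          have := congrArg (fun x : W' => (x : V)) hev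
          simpa [S] using this
        have hk0 := eigen_zero hpos heq he0 (hmem.1 e.2).2 hk
        simp only [OrthonormalBasis.coe_toBasis, LinearMap.zero_apply]
        rw [← he, hev]
        simp [hk0]
      have h' := congrArg (fun f : W' →ₗ[ℝ] W' => ((f ⟨w, hw⟩ : W') : V)) hb
      simpa [S] using h'
    refine ⟨v, hvW, g, hv, hg, hzero, fun u hu w hw => hmem.2 ⟨hinv u (hmem.1 hu).1 w (hmem.1 hw).1, ?_⟩⟩
    rw [real_inner_comm, hsa, hsymm u v, hzero u hu, inner_zero_right]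
  -- induction on the dimension of an invariant subspace
  suffices H : ∀ n, ∀ W : Submodule ℝ V, Module.finrank ℝ W = n → 2 ≤ n →
      (∀ u ∈ W, ∀ w ∈ W, q u w ∈ W) → ∀ u ∈ W, ∀ w ∈ W, q u w = 0 by
    intro u w
    exact H _ ⊤ (finrank_top ℝ V) hdim (fun _ _ _ _ => Submodule.mem_top) u Submodule.mem_top w
      Submodule.mem_top
  intro n
  induction n using Nat.strong_induction_on with
  | _ n ih =>
    intro W hn h2 hinv
    have hW : W ≠ ⊥ := fun h => by rw [h, finrank_bot] at hn; omega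
    obtain ⟨v, hvW, g, hv, hg, hvz, hinv'⟩ := split W hW hinv
    set W' := W ⊓ (ℝ ∙ v)ᗮ with hW'
    have hv0 : v ≠ 0 := fun h => by simp [h] at hv
    have hfr : Module.finrank ℝ W' = n - 1 := by
      have h := Submodule.finrank_add_inf_finrank_orthogonal
        ((Submodule.span_singleton_le_iff_mem v W).2 hvW)
      rw [finrank_span_singleton hv0, inf_comm, hn] at h
      rw [hW']
      omega
    have hW'0 : W' ≠ ⊥ := fun h => by rw [h, finrank_bot] at hfr; omega
    obtain ⟨w, hwW', c, hw, hc, hwz, -⟩ := split W' hW'0 hinv'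
    have hvw : ⟪v, w⟫ = 0 :=
      Submodule.mem_orthogonal_singleton_iff_inner_right.1 (Submodule.mem_inf.1 hwW').2
    have hwv : ⟪w, v⟫ = 0 := by rw [real_inner_comm, hvw]
    have hgz : g = 0 := pair_zero hsymm hp hpos heq hv hw hvw (hvz w hwW') hg hc
    have hW'z : ∀ a ∈ W', ∀ b ∈ W', q a b = 0 := by
      rcases Nat.lt_or_ge (n - 1) 2 with hlt | hge
      · have hcz : c = 0 :=
          pair_zero hsymm hp hpos heq hw hv hwv (by rw [hsymm, hvz w hwW']) hc hg
        have hw0 : w ≠ 0 := fun h => by simp [h] at hw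
        have hspan : (ℝ ∙ w) = W' := Submodule.eq_of_le_of_finrank_le
          ((Submodule.span_singleton_le_iff_mem w W').2 hwW')
          (by rw [finrank_span_singleton hw0]; omega)
        intro a ha b hb
        rw [← hspan, Submodule.mem_span_singleton] at ha hb
        obtain ⟨α, rfl⟩ := ha
        obtain ⟨β, rfl⟩ := hb
        simp [hc, hcz]
      · exact ih (n - 1) (by omega) W' hfr hge hinv'
    intro a ha b hb
    have hdec : ∀ x ∈ W, ∃ s : ℝ, ∃ y ∈ W', x = s • v + y := by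
      intro x hx
      refine ⟨⟪v, x⟫, x - ⟪v, x⟫ • v, Submodule.mem_inf.2
        ⟨W.sub_mem hx (W.smul_mem _ hvW), ?_⟩, by abel⟩
      rw [Submodule.mem_orthogonal_singleton_iff_inner_right, inner_sub_right,
        real_inner_smul_right, hv, mul_one, sub_self]
    obtain ⟨s, y, hy, rfl⟩ := hdec a ha
    obtain ⟨s', y', hy', rfl⟩ := hdec b hb
    simp [hg, hgz, hvz y' hy', hsymm y v, hvz y hy, hW'z y hy y' hy']

end Vale.Agent.P084
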