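import Vale.Agent.P084.Cubic

/-!
A symmetric cubic form annihilated, up to multiples of the base point, by some norming covector of
an arbitrary norm vanishes.  This is `cubic_vanish` without continuity of the covectors.
-/

namespace Vale.Agent.P084

open Filter Topology
open scoped RealInnerProductSpace

variable {V : Type*} [NormedAddCommGroup V] [InnerProductSpace ℝ V]
  {q : V →ₗ[ℝ] V →ₗ[ℝ] V} {p : V → V} {N : Seminorm ℝ V}

/-- A diagonal two-dimensional block vanishes. -/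
lemma pair_zero_gen (hsymm : ∀ u w, q u w = q w u) (hN : ∀ v, v ≠ 0 → 0 < N v)
    (hp1 : ∀ v, v ≠ 0 → ⟪p v, v⟫ = N v) (hp2 : ∀ v, v ≠ 0 → ∀ u, |⟪p v, u⟫| ≤ N u)
    (heq : ∀ v, v ≠ 0 → ∃ a : ℝ, ∀ u, ⟪p v, q u v⟫ = a * ⟪u, v⟫) {v w : V} {g c : ℝ}
    (hv : ⟪v, v⟫ = 1) (hw : ⟪w, w⟫ = 1) (hvw : ⟪v, w⟫ = 0) (hvwq : q v w = 0)
    (hg : q v v = g • v) (hc : q w w = c • w) : g = 0 := by
  have hwvq : q w v = 0 := by rw [hsymm, hvwq]
  have hwv : ⟪w, v⟫ = 0 := by rw [real_inner_comm, hvw]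
  have key : ∀ α β : ℝ, α • v + β • w ≠ 0 → ∃ a : ℝ,
      α * g * ⟪p (α • v + β • w), v⟫ = a * α ∧ β * c * ⟪p (α • v + β • w), w⟫ = a * β := by
    intro α β hne
    obtain ⟨a, ha⟩ := heq _ hne
    refine ⟨a, ?_, ?_⟩
    · have h := ha v
      simp only [map_add, map_smul, hg, hvwq, smul_zero, add_zero, real_inner_smul_right,
        inner_add_right, hv, hvw, mul_one, mul_zero] at h
      linarith
    · have h := ha w
      simp only [map_add, map_smul, hc, hwvq, smul_zero, zero_add, real_inner_smul_right,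
        inner_add_right, hw, hwv, mul_one, mul_zero] at h
      linarith
  have hne : ∀ α β : ℝ, α ≠ 0 → α • v + β • w ≠ 0 := fun α β hα h => by
    have h' : ⟪v, α • v + β • w⟫ = 0 := by rw [h, inner_zero_right]
    simp only [inner_add_right, real_inner_smul_right, hv, hvw, mul_one, mul_zero, add_zero] at h'
    exact hα h'
  by_contra hg0
  rcases eq_or_ne c 0 with hc0 | hc0
  · have hv0 : v ≠ 0 := fun h => by simp [h] at hv
    have hb : ∀ β : ℝ, 0 < β → N v ≤ 2 * β * N w := by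
      intro β hβ
      have hvb := hne 1 β one_ne_zero
      obtain ⟨a, h1, h2⟩ := key 1 β hvb
      rw [hc0, mul_zero, zero_mul] at h2
      have ha : a = 0 := (mul_eq_zero.1 h2.symm).resolve_right hβ.ne'
      rw [ha, zero_mul, one_mul] at h1
      have h0 := (mul_eq_zero.1 h1).resolve_left hg0
      rw [one_smul] at h0 hvb
      have h3 : N (v + β • w) ≤ β * N w := by
        rw [← hp1 _ hvb]
        rw [inner_add_right]
        rw [h0, zero_add, real_inner_smul_right]
        exact mul_le_mul_of_nonneg_left ((le_abs_self _).trans (hp2 _ hvb w)) hβ.le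
      have h4 := map_sub_le_add N (v + β • w) (β • w)
      rw [add_sub_cancel_right, map_smul_eq_mul, Real.norm_eq_abs, abs_of_pos hβ] at h4
      linarith
    have hw0 : 0 ≤ N w := apply_nonneg N w
    have h5 := hb (N v / (4 * (N w + 1))) (div_pos (hN v hv0) (by linarith))
    rw [show 2 * (N v / (4 * (N w + 1))) * N w = N v * (N w / (2 * (N w + 1))) by
      field_simp; ring] at h5
    have h6 : N w / (2 * (N w + 1)) < 1 := by rw [div_lt_one (by linarith)]; linarith
    nlinarith [hN v hv0]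
  · have hne' := hne g (-c) hg0
    obtain ⟨a, h1, h2⟩ := key g (-c) hne'
    have h1' : g * ⟪p (g • v + (-c) • w), v⟫ = a :=
      mul_left_cancel₀ hg0 (by linarith)
    have h2' : c * ⟪p (g • v + (-c) • w), w⟫ = a :=
      mul_left_cancel₀ (neg_ne_zero.2 hc0) (by linarith)
    have h := hN _ hne'
    rw [← hp1 _ hne'] at h
    set P := p (g • v + (-c) • w) with hP
    simp only [inner_add_right, real_inner_smul_right] at h
    linarith

/-- The cubic form vanishes in dimension at least two. -/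
theorem cubic_vanish_gen [FiniteDimensional ℝ V] (hdim : 2 ≤ Module.finrank ℝ V)
    (hsymm : ∀ u w, q u w = q w u) (hsa : ∀ u w z, ⟪q u w, z⟫ = ⟪w, q u z⟫)
    (hN : ∀ v, v ≠ 0 → 0 < N v)
    (hp1 : ∀ v, v ≠ 0 → ⟪p v, v⟫ = N v) (hp2 : ∀ v, v ≠ 0 → ∀ u, |⟪p v, u⟫| ≤ N u)
    (heq : ∀ v, v ≠ 0 → ∃ a : ℝ, ∀ u, ⟪p v, q u v⟫ = a * ⟪u, v⟫) : ∀ u w, q u w = 0 := by
  have hpos : ∀ v, v ≠ 0 → 0 < ⟪p v, v⟫ := fun v hv => (hp1 v hv).symm ▸ hN v hv
  -- split off one fixed vector
  have split : ∀ W : Submodule ℝ V, W ≠ ⊥ → (∀ u ∈ W, ∀ w ∈ W, q u w ∈ W) →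
      ∃ v ∈ W, ∃ g : ℝ, ⟪v, v⟫ = 1 ∧ q v v = g • v ∧
        (∀ w ∈ W ⊓ (ℝ ∙ v)ᗮ, q v w = 0) ∧
        ∀ u ∈ W ⊓ (ℝ ∙ v)ᗮ, ∀ w ∈ W ⊓ (ℝ ∙ v)ᗮ, q u w ∈ W ⊓ (ℝ ∙ v)ᗮ := by
    intro W hW hinv
    obtain ⟨v, hvW, hv, g, hg⟩ := exists_fixed hsymm hsa hW hinv
    set W' := W ⊓ (ℝ ∙ v)ᗮ with hW'
    have hmem : ∀ {x}, x ∈ W' ↔ x ∈ W ∧ ⟪v, x⟫ = 0 := by
      intro x
      rw [hW', Submodule.mem_inf, Submodule.mem_orthogonal_singleton_iff_inner_right]
    have hqW : ∀ w ∈ W', q v w ∈ W' := by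
      intro w hw
      obtain ⟨hwW, hwv⟩ := hmem.1 hw
      refine hmem.2 ⟨hinv v hvW w hwW, ?_⟩
      rw [← hsa, hg, real_inner_smul_left, hwv, mul_zero]
    let S : W' →ₗ[ℝ] W' := (q v).restrict hqW
    have hS : S.IsSymmetric := fun a b => by
      simp only [S, Submodule.coe_inner, LinearMap.restrict_apply]
      exact hsa _ _ _
    have hzero : ∀ w ∈ W', q v w = 0 := by
      intro w hw
      have hb : S = 0 := by
        refine (hS.eigenvectorBasis rfl).toBasis.ext fun i => ?_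
        have hev := hS.apply_eigenvectorBasis rfl i
        have he0 : ((hS.eigenvectorBasis rfl i : W') : V) ≠ 0 := by
          simpa using (hS.eigenvectorBasis rfl).orthonormal.ne_zero i
        have hk := congrArg (fun x : W' => (x : V)) hev
        simp only [S, LinearMap.coe_restrict_apply, Submodule.coe_smul,
          RCLike.ofReal_real_eq_id, id_eq] at hk
        have hk0 := eigen_zero hpos heq he0 (hmem.1 (hS.eigenvectorBasis rfl i).2).2 hk
        simp only [OrthonormalBasis.coe_toBasis, LinearMap.zero_apply]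
        rw [hev]
        simp [hk0]
      have h' := congrArg (fun f : W' →ₗ[ℝ] W' => ((f ⟨w, hw⟩ : W') : V)) hb
      simpa [S] using h'
    refine ⟨v, hvW, g, hv, hg, hzero, fun u hu w hw =>
      hmem.2 ⟨hinv u (hmem.1 hu).1 w (hmem.1 hw).1, ?_⟩⟩
    rw [real_inner_comm, hsa, hsymm u v, hzero u hu, inner_zero_right]
  -- induction on the dimension of an invariant subspace
  suffices H : ∀ n, ∀ W : Submodule ℝ V, Module.finrank ℝ W = n → 2 ≤ n →
      (∀ u ∈ W, ∀ w ∈ W, q u w ∈ W) → ∀ u ∈ W, ∀ w ∈ W, q u w = 0 by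
    intro u w
    exact H _ ⊤ (finrank_top ℝ V) hdim (fun _ _ _ _ => Submodule.mem_top) u Submodule.mem_top w
      Submodule.mem_top
  intro n
  induction n using Nat.strong_induction_on with
  | _ n ih =>
    intro W hn h2 hinv
    have hW : W ≠ ⊥ := fun h => by rw [h, finrank_bot] at hn; omega
    obtain ⟨v, hvW, g, hv, hg, hvz, hinv'⟩ := split W hW hinv
    set W' := W ⊓ (ℝ ∙ v)ᗮ with hW'
    have hv0 : v ≠ 0 := fun h => by simp [h] at hv
    have hfr : Module.finrank ℝ W' = n - 1 := by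
      have h := Submodule.finrank_add_inf_finrank_orthogonal
        ((Submodule.span_singleton_le_iff_mem v W).2 hvW)
      rw [finrank_span_singleton hv0, inf_comm, hn] at h
      rw [hW']
      omega
    have hW'0 : W' ≠ ⊥ := fun h => by rw [h, finrank_bot] at hfr; omega
    obtain ⟨w, hwW', c, hw, hc, hwz, -⟩ := split W' hW'0 hinv'
    have hvw : ⟪v, w⟫ = 0 :=
      Submodule.mem_orthogonal_singleton_iff_inner_right.1 (Submodule.mem_inf.1 hwW').2
    have hwv : ⟪w, v⟫ = 0 := by rw [real_inner_comm, hvw]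
    have hgz : g = 0 := pair_zero_gen hsymm hN hp1 hp2 heq hv hw hvw (hvz w hwW') hg hc
    have hW'z : ∀ a ∈ W', ∀ b ∈ W', q a b = 0 := by
      rcases Nat.lt_or_ge (n - 1) 2 with hlt | hge
      · have hcz : c = 0 :=
          pair_zero_gen hsymm hN hp1 hp2 heq hw hv hwv (by rw [hsymm, hvz w hwW']) hc hg
        have hw0 : w ≠ 0 := fun h => by simp [h] at hw
        have hspan : (ℝ ∙ w) = W' := Submodule.eq_of_le_of_finrank_le
          ((Submodule.span_singleton_le_iff_mem w W').2 hwW')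
          (by rw [finrank_span_singleton hw0]; omega)
        intro a ha b hb
        rw [← hspan, Submodule.mem_span_singleton] at ha hb
        obtain ⟨α, rfl⟩ := ha
        obtain ⟨β, rfl⟩ := hb
        simp [hc, hcz]
      · exact ih (n - 1) (by omega) W' hfr hge hinv'
    intro a ha b hb
    have hdec : ∀ x ∈ W, ∃ s : ℝ, ∃ y ∈ W', x = s • v + y := by
      intro x hx
      refine ⟨⟪v, x⟫, x - ⟪v, x⟫ • v, Submodule.mem_inf.2
        ⟨W.sub_mem hx (W.smul_mem _ hvW), ?_⟩, by abel⟩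
      rw [Submodule.mem_orthogonal_singleton_iff_inner_right, inner_sub_right,
        real_inner_smul_right, hv, mul_one, sub_self]
    obtain ⟨s, y, hy, rfl⟩ := hdec a ha
    obtain ⟨s', y', hy', rfl⟩ := hdec b hb
    simp [hg, hgz, hvz y' hy', hsymm y v, hvz y hy, hW'z y hy y' hy']

end Vale.Agent.P084
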