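import Mathlib.Analysis.Normed.Affine.MazurUlam
import Mathlib.Analysis.Calculus.MeanValue
import Vale.Agent.P084.Constancy

/-!
The extension of a surjective isometry of the spheres of finite-dimensional spaces of dimension at
least three is linear.
-/

namespace Vale.Agent.P084

open Filter Topology Metric MeasureTheory
open scoped RealInnerProductSpace

/-- A map which is isometric to first order is a contraction. -/
lemma norm_sub_le_of_isometric_deriv {V : Type*} [NormedAddCommGroup V] [NormedSpace ℝ V]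
    {F : V → V} (hc : Continuous F) (hd : ∀ z, z ≠ 0 → DifferentiableAt ℝ F z)
    (hn : ∀ z, z ≠ 0 → ∀ w, ‖fderiv ℝ F z w‖ ≤ ‖w‖) (a b : V) : ‖F a - F b‖ ≤ ‖a - b‖ := by
  have hseg : ∀ a b : V, (0 : V) ∉ segment ℝ a b → ‖F a - F b‖ ≤ ‖a - b‖ := by
    intro a b h0
    have hne : ∀ z ∈ segment ℝ a b, z ≠ 0 := fun z hz h => h0 (h ▸ hz)
    have := (convex_segment a b).norm_image_sub_le_of_norm_fderiv_le (𝕜 := ℝ) (C := 1)
      (fun z hz => hd z (hne z hz))
      (fun z hz => ContinuousLinearMap.opNorm_le_bound _ zero_le_one fun w => by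
        rw [one_mul]; exact hn z (hne z hz) w)
      (right_mem_segment ℝ a b) (left_mem_segment ℝ a b)
    rwa [one_mul] at this
  have hzero : ∀ a : V, ‖F a - F 0‖ ≤ ‖a‖ := by
    intro a
    rcases eq_or_ne a 0 with rfl | ha
    · simp
    have hc' : Continuous fun τ : ℝ => F (τ • a) := hc.comp (continuous_id.smul continuous_const)
    have hlim : Tendsto (fun τ : ℝ => ‖F a - F (τ • a)‖) (𝓝[>] 0) (𝓝 ‖F a - F 0‖) := by
      have := ((tendsto_const_nhds (x := F a)).sub (hc'.tendsto 0)).norm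
      simpa using this.mono_left nhdsWithin_le_nhds
    refine le_of_tendsto hlim ?_
    filter_upwards [Ioo_mem_nhdsGT (show (0 : ℝ) < 1 by norm_num)] with τ hτ
    refine (hseg a (τ • a) ?_).trans ?_
    · rintro ⟨u, v, hu, hv, huv, h⟩
      rw [smul_smul, ← add_smul, smul_eq_zero] at h
      refine h.elim (fun h => ?_) ha
      have h1 : 0 < u + v * τ := by
        rcases eq_or_lt_of_le hu with h' | h'
        · have hv1 : v = 1 := by linarith
          rw [← h', hv1]; linarith [hτ.1]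
        · nlinarith [hτ.1, mul_nonneg hv hτ.1.le]
      linarith
    · rw [show a - τ • a = (1 - τ) • a by rw [sub_smul, one_smul], norm_smul,
        Real.norm_of_nonneg (by linarith [hτ.2])]
      nlinarith [hτ.1, norm_nonneg a]
  by_cases h0 : (0 : V) ∈ segment ℝ a b
  · obtain ⟨u, v, hu, hv, huv, h⟩ := h0
    refine (norm_sub_le_norm_sub_add_norm_sub _ (F 0) _).trans ?_
    rw [norm_sub_rev (F 0)]
    refine (add_le_add (hzero a) (hzero b)).trans (le_of_eq ?_)
    have e1 : a = v • (a - b) := by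
      calc a = (u + v) • a := by rw [huv, one_smul]
        _ = u • a + v • b + v • (a - b) := by module
        _ = v • (a - b) := by rw [h, zero_add]
    have e2 : b = -(u • (a - b)) := by
      calc b = (u + v) • b := by rw [huv, one_smul]
        _ = u • a + v • b + -(u • (a - b)) := by module
        _ = -(u • (a - b)) := by rw [h, zero_add]
    rw [congrArg norm e1, congrArg norm e2, norm_neg, norm_smul, norm_smul, Real.norm_of_nonneg hu,
      Real.norm_of_nonneg hv, ← add_mul, add_comm v, huv, one_mul]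
  · exact hseg a b h0

variable {X Y : Type*} [NormedAddCommGroup X] [NormedSpace ℝ X] [NormedAddCommGroup Y]
  [NormedSpace ℝ Y]

namespace IsTingley

variable {T : X → Y} {T' : Y → X} (hT : IsTingley T T') [FiniteDimensional ℝ X]
include hT

/-- If every derivative is an isometry, the extension is linear. -/
lemma linear_of_isoAt [Nontrivial X] (hiso : ∀ x, x ≠ 0 → IsoAt T x) :
    ∃ U : X →ₗ[ℝ] Y, ∀ x, U x = T x := by
  have : FiniteDimensional ℝ Y := hT.finiteDimensional
  obtain ⟨a, ha⟩ := exists_ne (0 : X)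
  have hinj : Function.Injective (fderiv ℝ T a).toLinearMap := by
    rw [injective_iff_map_eq_zero]
    intro u hu
    rw [← norm_eq_zero, ← hiso a ha u]
    exact norm_eq_zero.2 hu
  let Le : X ≃L[ℝ] Y := (LinearEquiv.ofBijective (fderiv ℝ T a).toLinearMap ⟨hinj,
    (LinearMap.injective_iff_surjective_of_finrank_eq_finrank hT.finrank_eq).1 hinj⟩).toContinuousLinearEquiv
  have hLe : ∀ u, ‖Le u‖ = ‖u‖ := fun u => hiso a ha u
  have hLe' : ∀ v, ‖Le.symm v‖ = ‖v‖ := fun v => by rw [← hLe, Le.apply_symm_apply]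
  have hiso' : ∀ y, y ≠ 0 → IsoAt T' y := by
    intro y hy
    refine hT.symm.isoAt_of_symm hy ?_
    exact hiso _ (hT.symm.map_ne_zero hy)
  obtain ⟨B, hBs, hBp, -, hBM⟩ := exists_invariant_form_gen (V := X)
  obtain ⟨e₀, he⟩ := exists_orth_coord B hBs hBp
  let e : EuclideanSpace ℝ (Fin (Module.finrank ℝ X)) ≃L[ℝ] X := e₀.toContinuousLinearEquiv
  have hev : ∀ w, e w = e₀ w := fun _ => rfl
  have horth : ∀ (M : X →L[ℝ] X), (∀ v, ‖M v‖ = ‖v‖) → ∀ w, ‖e.symm (M (e w))‖ = ‖w‖ := by
    intro M hM w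
    refine (sq_eq_sq₀ (norm_nonneg _) (norm_nonneg _)).1 ?_
    rw [← real_inner_self_eq_norm_sq, ← real_inner_self_eq_norm_sq, ← he, ← he, ← hev, ← hev,
      e.apply_symm_apply]
    exact hBM M.toLinearMap hM _ _
  let F : EuclideanSpace ℝ (Fin (Module.finrank ℝ X)) → EuclideanSpace ℝ (Fin (Module.finrank ℝ X)) :=
    fun z => e.symm (Le.symm (T (e z)))
  let G : EuclideanSpace ℝ (Fin (Module.finrank ℝ X)) → EuclideanSpace ℝ (Fin (Module.finrank ℝ X)) :=
    fun z => e.symm (T' (Le (e z)))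
  have hFc : Continuous F := e.symm.continuous.comp (Le.symm.continuous.comp
    (hT.lipschitz.continuous.comp e.continuous))
  have hGc : Continuous G := e.symm.continuous.comp (hT.symm.lipschitz.continuous.comp
    (Le.continuous.comp e.continuous))
  have hFd : ∀ z, z ≠ 0 → DifferentiableAt ℝ F z ∧ ∀ w, ‖fderiv ℝ F z w‖ ≤ ‖w‖ := by
    intro z hz
    have hez : e z ≠ 0 := fun h => hz (e.map_eq_zero_iff.1 h)
    have hd : HasFDerivAt F _ z := e.symm.hasFDerivAt.comp z
      (Le.symm.hasFDerivAt.comp z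
        ((hT.differentiableAt_general hez).hasFDerivAt.comp z e.hasFDerivAt))
    refine ⟨hd.differentiableAt, fun w => le_of_eq ?_⟩
    rw [hd.fderiv]
    exact horth ((Le.symm : Y →L[ℝ] X).comp (fderiv ℝ T (e z)))
      (fun v => (hLe' _).trans (hiso _ hez v)) w
  have hGd : ∀ z, z ≠ 0 → DifferentiableAt ℝ G z ∧ ∀ w, ‖fderiv ℝ G z w‖ ≤ ‖w‖ := by
    intro z hz
    have hez : Le (e z) ≠ 0 := fun h => hz (e.map_eq_zero_iff.1 (Le.map_eq_zero_iff.1 h))
    have hd : HasFDerivAt G _ z := e.symm.hasFDerivAt.comp z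
      ((hT.symm.differentiableAt_general hez).hasFDerivAt.comp z
        (Le.hasFDerivAt.comp z e.hasFDerivAt))
    refine ⟨hd.differentiableAt, fun w => le_of_eq ?_⟩
    rw [hd.fderiv]
    exact horth ((fderiv ℝ T' (Le (e z))).comp (Le : X →L[ℝ] Y))
      (fun v => (hiso' _ hez _).trans (hLe v)) w
  have hF := norm_sub_le_of_isometric_deriv hFc (fun z hz => (hFd z hz).1) fun z hz => (hFd z hz).2
  have hG := norm_sub_le_of_isometric_deriv hGc (fun z hz => (hGd z hz).1) fun z hz => (hGd z hz).2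
  have hGF : ∀ z, G (F z) = z := fun z => by simp [F, G, hT.left]
  have hFG : ∀ z, F (G z) = z := fun z => by simp [F, G, hT.right]
  let Fi : EuclideanSpace ℝ (Fin (Module.finrank ℝ X)) ≃ᵢ EuclideanSpace ℝ (Fin (Module.finrank ℝ X)) :=
    { toFun := F
      invFun := G
      left_inv := hGF
      right_inv := hFG
      isometry_toFun := Isometry.of_dist_eq fun p q => by
        rw [dist_eq_norm, dist_eq_norm]
        refine le_antisymm (hF p q) ?_
        have := hG (F p) (F q)
        rwa [hGF, hGF] at this }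
  let Fl := Fi.toRealLinearIsometryEquivOfMapZero (show F 0 = 0 by simp [F, hT.map_zero])
  refine ⟨(Le : X →L[ℝ] Y).toLinearMap ∘ₗ (e : _ →L[ℝ] X).toLinearMap ∘ₗ Fl.toLinearEquiv.toLinearMap ∘ₗ
    (e.symm : X →L[ℝ] _).toLinearMap, fun x => ?_⟩
  show Le (e (Fl (e.symm x))) = T x
  rw [show Fl (e.symm x) = F (e.symm x) from rfl]
  simp [F]

variable [MeasurableSpace X] [BorelSpace X]

/-- A Lipschitz function of the derivative supported away from the isometric points is constant. -/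
theorem const_of_lipschitz (hdim : 3 ≤ Module.finrank ℝ X) {F : (X →L[ℝ] Y) → ℝ} {CF : NNReal}
    (hF : LipschitzWith CF F)
    (hsupp : ∀ x, x ≠ 0 → x ∈ closure {z | F (fderiv ℝ T z) ≠ 0} → x ∈ Uset T) {x y : X}
    (hx : x ≠ 0) (hy : y ≠ 0) : F (fderiv ℝ T x) = F (fderiv ℝ T y) := by
  have : FiniteDimensional ℝ Y := hT.finiteDimensional
  obtain ⟨J, e, he, hJs, hJn, hJp⟩ := exists_innerForm (X := X)
  let Φ : X → X := fun z => e.symm (halfGrad z)
  have hrank : 1 < Module.rank ℝ X := by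
    rw [← Module.finrank_eq_rank]
    exact_mod_cast (by omega : 1 < Module.finrank ℝ X)
  have hjet : ∀ᵐ z ∂(μH[Module.finrank ℝ X] : Measure X), z ∈ Uset T → ∃ H,
      HasFDerivAt (fderiv ℝ T) (fderiv ℝ (fderiv ℝ T) z) z ∧
      SecondJet (D1 z) z H (pullQ T T' z (fderiv ℝ (fderiv ℝ T) z)) ∧
      DifferentiableAt ℝ (fun w => F (fderiv ℝ T w)) z ∧
      fderiv ℝ Φ z = (e.symm : (X →L[ℝ] ℝ) →L[ℝ] X).comp
        (‖z‖ • H + (D1 z).smulRight (D1 z)) := by
    filter_upwards [hT.ae_secondJet, ae_differentiableAt_open (μH[Module.finrank ℝ X] : Measure X)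
      hT.isOpen_Uset (hT.locallyLipschitz_comp hF)] with z hz hd hzU
    obtain ⟨q1, q2, hj⟩ := hz hzU
    exact ⟨_, q1, hj, hd hzU,
      ((e.symm : (X →L[ℝ] ℝ) →L[ℝ] X).hasFDerivAt.comp z (hT.hasFDerivAt_halfGrad hzU q2)).fderiv⟩
  have hQ0 : ∀ {z k : X}, z ∈ Uset T → ∀ {Q : X →L[ℝ] X →L[ℝ] Y},
      HasFDerivAt (fderiv ℝ T) Q z → DifferentiableAt ℝ (fun w => F (fderiv ℝ T w)) z →
      pullQ T T' z Q k = 0 → fderiv ℝ (fun w => F (fderiv ℝ T w)) z k = 0 := by
    intro z k hz Q hQ hd hq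
    have h := abs_fderiv_comp_le hF hQ hd k
    have hQk : Q k = 0 := by
      ext v
      rw [← hT.fderiv_right_general hz.1 (Q k v), ← pullQ_apply, hq, zero_apply,
        ContinuousLinearMap.map_zero]
      rfl
    rw [hQk, norm_zero, mul_zero] at h
    exact abs_nonpos_iff.1 h
  refine const_of_flat_gradient_gen (μH[Module.finrank ℝ X] : Measure X) hrank J.toLinearMap₁₂
    hJs hJp (Rel := SubGrad J) isClosed_subGrad (fun s x y hs h => h.smul hs)
    (fun y h => h.eq_zero_left hJp) (fun x h => h.eq_zero_right)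
    (fun _ _ _ _ h h' => h.mono h') (fun δ hδ w => exists_subGrad_add hJs hJn hδ w)
    (U := Uset T) hT.isOpen_Uset (fun h => h.1 rfl) (Φ := Φ) ?_ ?_
    (g := fun w => F (fderiv ℝ T w)) (hT.continuousOn_comp hF)
    (fun s z hs hz => by rw [hT.fderiv_smul_pos hz hs]) hsupp (hT.locallyLipschitz_comp hF)
    (fun a b c hc h h' => hT.eq_on_fibre hF hsupp hJp hc h h') ?_ ?_ x y hx hy
  · intro z hz w
    rw [subGrad_iff (hT.norm_diff hz), ← he]
    exact ⟨fun h => by show w = e.symm (halfGrad z); rw [← h, e.symm_apply_apply],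
      fun h => by rw [h]; exact e.apply_symm_apply _⟩
  · intro z hz
    obtain ⟨K, t, ht, hK⟩ := hT.locallyLipschitz_halfGrad hz
    exact ⟨_, t, ht, (e.symm : (X →L[ℝ] ℝ) →L[ℝ] X).lipschitz.comp_lipschitzOnWith hK⟩
  · filter_upwards [hjet] with z hz hzU w hw
    obtain ⟨H, q1, hj, hd, hΦ⟩ := hz hzU
    rw [hΦ, ContinuousLinearMap.comp_apply, ContinuousLinearEquiv.coe_coe,
      ContinuousLinearEquiv.map_eq_zero_iff] at hw
    simp only [add_apply, smul_apply, ContinuousLinearMap.smulRight_apply] at hw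
    have hself := norm_D1_self (hT.norm_diff hzU)
    have hθ : D1 z w = 0 := by
      have h := congrArg (fun B : X →L[ℝ] ℝ => B z) hw
      simp [hj.radial, hself] at h
      exact h.resolve_right hzU.1
    have hH : H w = 0 := by
      rw [hθ, zero_smul, add_zero] at hw
      exact (smul_eq_zero.1 hw).resolve_left (norm_ne_zero_iff.2 hzU.1)
    exact hQ0 hzU q1 hd (jet_kernel (D1 z) (by rw [hself]; exact norm_ne_zero_iff.2 hzU.1) H _
      hj.symm hj.nonneg hj.radial hj.qsymm hj.qmem hj.qradial hj.cubic hj.min hθ hH)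
  · filter_upwards [hjet] with z hz hzU hinjz
    obtain ⟨H, q1, hj, hd, hΦ⟩ := hz hzU
    rw [hΦ] at hinjz
    have hq := jet_zero (D1 z) (by rw [norm_D1_self (hT.norm_diff hzU)]; exact norm_ne_zero_iff.2 hzU.1)
      H _ hj.symm hj.nonneg hj.radial hj.qsymm hj.qmem hj.qradial hj.cubic hj.min hdim fun w hθ hw => by
      by_contra hle
      have hzero : H w w = 0 := le_antisymm (not_lt.1 hle) (hj.nonneg w)
      have hrow : H w = 0 := by
        ext v
        have key : ∀ t : ℝ, 0 ≤ H v v * (t * t) + 2 * H w v * t + 0 := fun t => by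
          have := hj.nonneg (w + t • v)
          simp only [map_add, map_smul, add_apply, smul_apply, smul_eq_mul, hzero,
            hj.symm v w] at this
          linarith
        have h := discrim_le_zero key
        rw [discrim] at h
        show H w v = 0
        nlinarith [sq_nonneg (H w v)]
      refine hw (hinjz ?_)
      rw [ContinuousLinearMap.map_zero]
      simp [hθ, hrow]
    exact ContinuousLinearMap.ext fun k => hQ0 hzU q1 hd (by rw [hq]; rfl)

/-- In dimension at least three the extension is linear. -/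
theorem linear_general (hdim : 3 ≤ Module.finrank ℝ X) : ∃ U : X →ₗ[ℝ] Y, ∀ x, U x = T x := by
  have : FiniteDimensional ℝ Y := hT.finiteDimensional
  have : Nontrivial X := Module.nontrivial_of_finrank_pos (R := ℝ) (by omega)
  by_cases hall : ∀ x, x ≠ 0 → IsoAt T x
  · exact hT.linear_of_isoAt hall
  push Not at hall
  obtain ⟨x₀, hx₀, hni⟩ := hall
  simp only [IsoAt, not_forall] at hni
  obtain ⟨u₀, hu₀⟩ := hni
  set c := |‖fderiv ℝ T x₀ u₀‖ - ‖u₀‖| with hc
  have hc0 : 0 < c := abs_pos.2 (sub_ne_zero.2 hu₀)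
  let F₀ : (X →L[ℝ] Y) → ℝ := fun M => max 0 (|‖M u₀‖ - ‖u₀‖| - c / 2)
  have hF₀ : LipschitzWith ‖u₀‖₊ F₀ := by
    refine LipschitzWith.of_le_add_mul _ fun M N => ?_
    have h1 := (abs_norm_sub_norm_le (M u₀) (N u₀)).trans ((M - N).le_opNorm u₀)
    rw [← dist_eq_norm, mul_comm] at h1
    have h2 := abs_sub_abs_le_abs_sub (‖M u₀‖ - ‖u₀‖) (‖N u₀‖ - ‖u₀‖)
    rw [sub_sub_sub_cancel_right] at h2
    have h3 : 0 ≤ ‖u₀‖ * dist M N := mul_nonneg (norm_nonneg _) dist_nonneg
    rw [coe_nnnorm]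
    show max 0 _ ≤ _
    refine max_le (by linarith [le_max_left 0 (|‖N u₀‖ - ‖u₀‖| - c / 2)]) ?_
    linarith [le_max_right 0 (|‖N u₀‖ - ‖u₀‖| - c / 2)]
  have hsupp : ∀ x, x ≠ 0 → x ∈ closure {z | F₀ (fderiv ℝ T z) ≠ 0} → x ∈ Uset T := by
    intro x hx hcl
    refine ⟨hx, fun hiso => ?_⟩
    have hcont : ContinuousAt (fun z => |‖fderiv ℝ T z u₀‖ - ‖u₀‖|) x :=
      ((((hT.continuousAt_fderiv_general hx).clm_apply continuousAt_const).norm).sub
        continuousAt_const).abs
    have h0 : |‖fderiv ℝ T x u₀‖ - ‖u₀‖| < c / 2 := by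
      rw [hiso u₀, sub_self, abs_zero]
      linarith
    obtain ⟨z, hz1, hz2⟩ := mem_closure_iff_nhds.1 hcl _ (hcont.eventually (eventually_lt_nhds h0))
    exact hz2 (max_eq_left (by linarith [Set.mem_ofPred_eq ▸ hz1]))
  have hall' : ∀ x, x ≠ 0 → ¬IsoAt T x := by
    intro x hx hiso
    have h := hT.const_of_lipschitz hdim hF₀ hsupp hx hx₀
    simp only [F₀, hiso u₀, sub_self, abs_zero, ← hc, zero_sub] at h
    rw [max_eq_left (by linarith), max_eq_right (by linarith)] at h
    linarith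
  refine ⟨(fderiv ℝ T x₀).toLinearMap, fun x => ?_⟩
  rcases eq_or_ne x 0 with rfl | hx
  · rw [ContinuousLinearMap.coe_coe, ContinuousLinearMap.map_zero, hT.map_zero]
  rw [ContinuousLinearMap.coe_coe, ← hT.fderiv_self_general hx]
  refine ((SeparatingDual.eq_iff_forall_dual_eq (R := ℝ)).2 fun η => ?_)
  have hF : LipschitzWith _ fun M : X →L[ℝ] Y => η (M x) :=
    (η.comp (ContinuousLinearMap.apply ℝ Y x)).lipschitz
  exact hT.const_of_lipschitz hdim hF (fun z hz _ => ⟨hz, hall' z hz⟩) hx₀ hx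

end IsTingley

/-- Mazur-Ulam property of finite-dimensional spaces of dimension at least three. -/
theorem mazurUlam_finiteDimensional [FiniteDimensional ℝ X] (hdim : 3 ≤ Module.finrank ℝ X)
    (f : sphere (0 : X) 1 → sphere (0 : Y) 1) (hf : Isometry f) (hs : Function.Surjective f) :
    ∃ U : X ≃ₗᵢ[ℝ] Y, ∀ x : sphere (0 : X) 1, U x = (f x : Y) := by
  borelize X
  obtain ⟨T, T', hT, hTf⟩ := exists_isTingley f hf hs
  obtain ⟨U, hU⟩ := hT.linear_general hdim
  let U₀ : X →ₗᵢ[ℝ] Y := ⟨U, fun x => by rw [hU, hT.norm_map]⟩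
  refine ⟨LinearIsometryEquiv.ofSurjective U₀ fun y => ⟨T' y, (hU _).trans (hT.right y)⟩,
    fun x => ?_⟩
  exact (hU (x : X)).trans (hTf x)

end Vale.Agent.P084
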