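import Mathlib.Analysis.Calculus.Rademacher
import Mathlib.Analysis.Calculus.MeanValue
import Mathlib.Analysis.Calculus.FDeriv.Measurable
import Mathlib.Analysis.Calculus.ParametricIntegral
import Mathlib.Analysis.Distribution.AEEqOfIntegralContDiff
import Mathlib.Analysis.Normed.Module.Connected
import Mathlib.Analysis.Normed.Module.FiniteDimension
import Mathlib.LinearAlgebra.Matrix.NonsingularInverse
import Mathlib.MeasureTheory.Function.Jacobian
import Mathlib.MeasureTheory.Measure.Hausdorff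
import Mathlib.Topology.Algebra.MetricSpace.Lipschitz

/-!
A function whose gradient is annihilated by the adjugate of the derivative of a monotone
homogeneous bijection is constant away from the origin.
-/

namespace Vale.Agent.P084

open Filter Topology MeasureTheory Metric Module
open scoped NNReal ENNReal

variable {E : Type*} [NormedAddCommGroup E] [NormedSpace ℝ E] [FiniteDimensional ℝ E]

/-- The adjugate of `M` applied to `e`. -/
noncomputable def adjVec (e : E) (M : E →L[ℝ] E) : E :=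
  (finBasis ℝ E).equivFun.symm
    ((LinearMap.toMatrix (finBasis ℝ E) (finBasis ℝ E) (M : E →ₗ[ℝ] E)).adjugate.mulVec
      ((finBasis ℝ E).equivFun e))

lemma apply_adjVec (e : E) (M : E →L[ℝ] E) : M (adjVec e M) = M.det • e := by
  set b := finBasis ℝ E
  set A := LinearMap.toMatrix b b (M : E →ₗ[ℝ] E)
  apply b.equivFun.injective
  have h : ∀ x, b.equivFun (M x) = A.mulVec (b.equivFun x) := fun x => by
    simp only [A, Basis.equivFun_apply]
    exact (LinearMap.toMatrix_mulVec_repr b b (M : E →ₗ[ℝ] E) x).symm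
  rw [h, adjVec, LinearEquiv.apply_symm_apply, Matrix.mulVec_mulVec, Matrix.mul_adjugate,
    Matrix.smul_mulVec, Matrix.one_mulVec, LinearMap.det_toMatrix, map_smul]

lemma continuous_adjVec (e : E) : Continuous (adjVec e : (E →L[ℝ] E) → E) := by
  unfold adjVec
  have h1 : Continuous fun M : E →L[ℝ] E =>
      LinearMap.toMatrix (finBasis ℝ E) (finBasis ℝ E) (M : E →ₗ[ℝ] E) := by
    refine continuous_pi fun i => continuous_pi fun j => ?_
    simp only [LinearMap.toMatrix_apply, ContinuousLinearMap.coe_coe]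
    exact ((finBasis ℝ E).coord i).continuous_of_finiteDimensional.comp
      (ContinuousLinearMap.apply ℝ E ((finBasis ℝ E) j)).continuous
  exact ((finBasis ℝ E).equivFun.symm.toLinearMap.continuous_of_finiteDimensional).comp
    (h1.matrix_adjugate.matrix_mulVec continuous_const)

lemma det_ne_zero_of_injective {M : E →L[ℝ] E} (hM : Function.Injective M) : M.det ≠ 0 := by
  intro h
  exact (LinearMap.det_eq_zero_iff_ker_ne_bot.1 h) (LinearMap.ker_eq_bot.2 hM)

lemma injective_of_det_ne_zero {M : E →L[ℝ] E} (hM : M.det ≠ 0) : Function.Injective M := by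
  refine LinearMap.ker_eq_bot.1 ?_
  by_contra h
  exact hM (LinearMap.det_eq_zero_iff_ker_ne_bot.2 h)

variable [MeasurableSpace E] [BorelSpace E] (μ : Measure E) [μ.IsAddHaarMeasure]

lemma haar_image_null {f : E → E} {K : ℝ≥0} {s : Set E} (hf : LipschitzOnWith K f s)
    (hs : μ s = 0) : μ (f '' s) = 0 := by
  let d := finrank ℝ E
  have h1 : (μH[d] : Measure E) s = 0 := Measure.absolutelyContinuous_isAddHaarMeasure μH[d] μ hs
  refine Measure.absolutelyContinuous_isAddHaarMeasure μ (μH[d] : Measure E) ?_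
  refine le_antisymm ?_ bot_le
  calc (μH[d] : Measure E) (f '' s) ≤ (K : ℝ≥0∞) ^ (d : ℝ) * (μH[d] : Measure E) s :=
        hf.hausdorffMeasure_image_le (by positivity)
    _ = 0 := by rw [h1, mul_zero]

/-- Locally Lipschitz functions are differentiable almost everywhere. -/
lemma ae_diff_of_locallyLipschitzOn {F : Type*} [NormedAddCommGroup F] [NormedSpace ℝ F]
    [FiniteDimensional ℝ F] {f : E → F} {U : Set E} (hU : IsOpen U)
    (hf : LocallyLipschitzOn U f) : ∀ᵐ x ∂μ, x ∈ U → DifferentiableAt ℝ f x := by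
  have : ProperSpace E := FiniteDimensional.proper ℝ E
  have hex : ∀ x ∈ U, ∃ W : Set E, IsOpen W ∧ x ∈ W ∧ ∃ K, LipschitzOnWith K f W := by
    intro x hx
    obtain ⟨K, t, ht, hK⟩ := hf hx
    rw [nhdsWithin_eq_nhds.2 (hU.mem_nhds hx)] at ht
    obtain ⟨W, hW1, hW2, hW3⟩ := _root_.mem_nhds_iff.1 ht
    exact ⟨W, hW2, hW3, K, hK.mono hW1⟩
  choose! W hWo hWm K hK using hex
  obtain ⟨T, hTU, hTc, hTcov⟩ := TopologicalSpace.countable_cover_nhdsWithin (s := U)
    (f := W) fun x hx => mem_nhdsWithin_of_mem_nhds ((hWo x hx).mem_nhds (hWm x hx))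
  have h : ∀ᵐ x ∂μ, ∀ i ∈ T, x ∈ W i → DifferentiableWithinAt ℝ f (W i) x :=
    (ae_ball_iff hTc).2 fun i hi => (hK i (hTU hi)).ae_differentiableWithinAt_of_mem
  filter_upwards [h] with x hx hxU
  obtain ⟨i, hi, hxi⟩ := Set.mem_iUnion₂.1 (hTcov hxU)
  exact (hx i hi hxi).differentiableAt ((hWo i (hTU hi)).mem_nhds hxi)

/-- Images of null sets under locally Lipschitz maps are null. -/
lemma image_null_of_locallyLipschitzOn {f : E → E} {U N : Set E} (_hU : IsOpen U)
    (hf : LocallyLipschitzOn U f) (hN : N ⊆ U) (h0 : μ N = 0) : μ (f '' N) = 0 := by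
  have : ProperSpace E := FiniteDimensional.proper ℝ E
  have hex : ∀ x ∈ U, ∃ W : Set E, W ∈ 𝓝[U] x ∧ ∃ K, LipschitzOnWith K f W := fun x hx => by
    obtain ⟨K, t, ht, hK⟩ := hf hx
    exact ⟨t, ht, K, hK⟩
  choose! W hWm K hK using hex
  obtain ⟨T, hTU, hTc, hTcov⟩ := TopologicalSpace.countable_cover_nhdsWithin (s := U) (f := W) hWm
  have hsub : f '' N ⊆ ⋃ i ∈ T, f '' (N ∩ W i) := by
    rintro _ ⟨x, hx, rfl⟩
    obtain ⟨i, hi, hxi⟩ := Set.mem_iUnion₂.1 (hTcov (hN hx))
    exact Set.mem_iUnion₂.2 ⟨i, hi, x, ⟨hx, hxi⟩, rfl⟩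
  refine measure_mono_null hsub ((measure_biUnion_null_iff hTc).2 fun i hi => ?_)
  exact haar_image_null μ ((hK i (hTU hi)).mono Set.inter_subset_right)
    (measure_mono_null Set.inter_subset_left h0)

/-- The perturbed map. -/
def pert (Φ : E → E) (δ : ℝ) (x : E) : E := Φ x + δ • x

omit [MeasurableSpace E] [BorelSpace E] in
lemma exists_pert_bounds {Φ : E → E} (hc : Continuous Φ) (h0 : Φ 0 = 0)
    (hhom : ∀ (s : ℝ) (x : E), 0 < s → Φ (s • x) = s • Φ x)
    (hne : ∀ δ ∈ Set.Icc (0 : ℝ) 1, ∀ x : E, x ≠ 0 → pert Φ δ x ≠ 0) :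
    ∃ c C : ℝ, 0 < c ∧ 0 < C ∧ ∀ δ ∈ Set.Icc (0 : ℝ) 1, ∀ x : E,
      c * ‖x‖ ≤ ‖pert Φ δ x‖ ∧ ‖pert Φ δ x‖ ≤ C * ‖x‖ := by
  have : ProperSpace E := FiniteDimensional.proper ℝ E
  rcases (sphere (0 : E) 1).eq_empty_or_nonempty with he | hne'
  · refine ⟨1, 1, one_pos, one_pos, fun δ _ x => ?_⟩
    have hx : x = 0 := by
      by_contra hx
      have : ‖x‖⁻¹ • x ∈ sphere (0 : E) 1 := by simp [norm_smul, hx]
      rw [he] at this
      exact this
    subst hx
    simp [pert, h0]
  have hcomp : IsCompact (Set.Icc (0 : ℝ) 1 ×ˢ sphere (0 : E) 1) :=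
    isCompact_Icc.prod (isCompact_sphere _ _)
  have hcont : Continuous fun z : ℝ × E => ‖pert Φ z.1 z.2‖ := by unfold pert; fun_prop
  have hnon : (Set.Icc (0 : ℝ) 1 ×ˢ sphere (0 : E) 1).Nonempty :=
    (Set.nonempty_Icc.2 zero_le_one).prod hne'
  obtain ⟨z, hz, hmin⟩ := hcomp.exists_isMinOn hnon hcont.continuousOn
  obtain ⟨z', hz', hmax⟩ := hcomp.exists_isMaxOn hnon hcont.continuousOn
  have hz2 : z.2 ≠ 0 := ne_of_mem_sphere hz.2 one_ne_zero
  refine ⟨‖pert Φ z.1 z.2‖, ‖pert Φ z'.1 z'.2‖ + 1, norm_pos_iff.2 (hne z.1 hz.1 z.2 hz2),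
    by positivity, fun δ hδ x => ?_⟩
  rcases eq_or_ne x 0 with rfl | hx
  · simp [pert, h0]
  have hn : 0 < ‖x‖ := norm_pos_iff.2 hx
  have hu : ‖x‖⁻¹ • x ∈ sphere (0 : E) 1 := by simp [norm_smul, hx]
  have e : ‖pert Φ δ x‖ = ‖x‖ * ‖pert Φ δ (‖x‖⁻¹ • x)‖ := by
    conv_lhs => rw [← smul_inv_smul₀ hn.ne' x]
    rw [pert, hhom _ _ hn, smul_comm δ ‖x‖, ← smul_add, norm_smul, Real.norm_of_nonneg hn.le]
    rfl
  have h1 : ‖pert Φ z.1 z.2‖ ≤ ‖pert Φ δ (‖x‖⁻¹ • x)‖ :=
    hmin (show (δ, ‖x‖⁻¹ • x) ∈ _ from ⟨hδ, hu⟩)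
  have h2 : ‖pert Φ δ (‖x‖⁻¹ • x)‖ ≤ ‖pert Φ z'.1 z'.2‖ :=
    hmax (show (δ, ‖x‖⁻¹ • x) ∈ _ from ⟨hδ, hu⟩)
  rw [e]
  constructor <;> nlinarith

/-- A continuous function with vanishing weak derivative on a punctured space is constant. -/
lemma const_of_weak_deriv_zero (hdim : 1 < Module.rank ℝ E) {G : E → ℝ}
    (hG : ContinuousOn G ({0}ᶜ : Set E))
    (h : ∀ (φ : E → ℝ) (v : E), ContDiff ℝ 1 φ → HasCompactSupport φ → (0 : E) ∉ tsupport φ →
      ∫ y, G y * fderiv ℝ φ y v ∂μ = 0) :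
    ∀ x y : E, x ≠ 0 → y ≠ 0 → G x = G y := by
  have hloc : ∀ y₀ : E, y₀ ≠ 0 → ∀ v : E, ‖v‖ < ‖y₀‖ / 4 → G (y₀ + v) = G y₀ := by
    intro y₀ hy₀ v hv
    set r := ‖y₀‖ / 4
    have hr : 0 < r := by have := norm_pos_iff.2 hy₀; positivity
    have hU : ∀ y ∈ ball y₀ (3 * r), y ≠ 0 := by
      intro y hy hy'
      subst hy'
      rw [mem_ball, dist_zero_left] at hy
      have : ‖y₀‖ = 4 * r := by simp only [r]; ring
      linarith
    have hmap : ∀ y ∈ ball y₀ r, ∀ t ∈ Set.Icc (0 : ℝ) 1, y + t • v ∈ ball y₀ (2 * r) := by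
      intro y hy t ht
      rw [mem_ball, dist_eq_norm] at hy ⊢
      calc ‖y + t • v - y₀‖ ≤ ‖y - y₀‖ + ‖t • v‖ := by
            rw [add_sub_right_comm]; exact norm_add_le _ _
        _ < r + r := by
            refine add_lt_add_of_lt_of_le hy ?_
            rw [norm_smul, Real.norm_of_nonneg ht.1]
            exact (mul_le_of_le_one_left (norm_nonneg v) ht.2).trans hv.le
        _ = 2 * r := by ring
    have hD : ContinuousOn (fun y => G (y + v) - G y) (ball y₀ r) := by
      refine ContinuousOn.sub (hG.comp (by fun_prop) fun y hy => ?_)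
        (hG.mono fun y hy => hU y (ball_subset_ball (by linarith) hy))
      have := hmap y hy 1 (by simp)
      rw [one_smul] at this
      exact hU _ (ball_subset_ball (by linarith) this)
    have hzero : ∀ᵐ y ∂μ, y ∈ ball y₀ r → G (y + v) - G y = 0 := by
      refine isOpen_ball.ae_eq_zero_of_integral_contDiff_smul_eq_zero
        (hD.locallyIntegrableOn measurableSet_ball) fun ψ hψ hψc hψs => ?_
      have hψ1 : ContDiff ℝ 1 ψ := hψ.of_le (by exact_mod_cast le_top)
      -- the translated tests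
      have hsupp : ∀ t ∈ Set.Icc (0 : ℝ) 1, tsupport (fun y => ψ (y - t • v)) ⊆ ball y₀ (2 * r) := by
        intro t ht y hy
        have h1 : y - t • v ∈ tsupport ψ :=
          (tsupport_comp_subset_preimage ψ (f := fun y => y - t • v) (by fun_prop)) hy
        simpa using hmap _ (hψs h1) t ht
      have hnot : ∀ t ∈ Set.Icc (0 : ℝ) 1, (0 : E) ∉ tsupport (fun y => ψ (y - t • v)) :=
        fun t ht h0 => hU 0 (ball_subset_ball (by linarith) (hsupp t ht h0)) rfl
      have hcs : ∀ t : ℝ, HasCompactSupport fun y => ψ (y - t • v) := fun t =>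
        hψc.comp_homeomorph (Homeomorph.subRight (t • v))
      have : ProperSpace E := FiniteDimensional.proper ℝ E
      -- a bounded continuous truncation of `G`
      set Gt := (closedBall y₀ (2 * r)).indicator G
      have hGc : ContinuousOn G (closedBall y₀ (2 * r)) :=
        hG.mono fun y hy => hU y (closedBall_subset_ball (by linarith) hy)
      have hGt : Integrable Gt μ :=
        (hGc.integrableOn_compact (isCompact_closedBall _ _)).integrable_indicator measurableSet_closedBall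
      have hG_eq : ∀ t ∈ Set.Icc (0 : ℝ) 1, ∀ f : E → ℝ,
          Function.support f ⊆ tsupport (fun y => ψ (y - t • v)) →
          (fun y => G y * f y) = fun y => Gt y * f y := by
        intro t ht f hf
        funext y
        by_cases hy : f y = 0
        · simp [hy]
        · simp [Gt, ball_subset_closedBall (hsupp t ht (hf hy))]
      obtain ⟨C, hC⟩ := (hψ1.continuous_fderiv one_ne_zero).bounded_above_of_compact_support
        (hψc.fderiv ℝ)
      obtain ⟨C0, hC0⟩ := hψ1.continuous.bounded_above_of_compact_support hψc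
      let F : ℝ → ℝ := fun t => ∫ y, Gt y * ψ (y - t • v) ∂μ
      have hF : ∀ t, HasDerivAt F (∫ y, Gt y * -(fderiv ℝ ψ (y - t • v) v) ∂μ) t := by
        intro t
        refine (hasDerivAt_integral_of_dominated_loc_of_deriv_le (s := Set.univ) (x₀ := t)
          (F := fun t y => Gt y * ψ (y - t • v))
          (F' := fun t y => Gt y * -(fderiv ℝ ψ (y - t • v) v))
          (bound := fun y => ‖Gt y‖ * (C * ‖v‖)) univ_mem
          (Eventually.of_forall fun t => hGt.aestronglyMeasurable.mul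
            (by exact (hψ1.continuous.comp (by fun_prop)).aestronglyMeasurable))
          (hGt.mul_bdd (c := C0) (hψ1.continuous.comp (by fun_prop)).aestronglyMeasurable
            (ae_of_all _ fun y => hC0 _))
          (hGt.aestronglyMeasurable.mul
            (by exact (((hψ1.continuous_fderiv one_ne_zero).clm_apply continuous_const).comp
              (by fun_prop : Continuous fun y : E => y - t • v)).neg.aestronglyMeasurable))
          (ae_of_all _ fun y t _ => ?_) (hGt.norm.mul_const _)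
          (ae_of_all _ fun y t _ => ?_)).2
        · rw [norm_mul, norm_neg]
          refine mul_le_mul_of_nonneg_left ?_ (norm_nonneg _)
          exact (ContinuousLinearMap.le_opNorm _ _).trans
            (mul_le_mul_of_nonneg_right (hC _) (norm_nonneg _))
        · refine HasDerivAt.const_mul _ ?_
          have h1 : HasDerivAt (fun t : ℝ => y - t • v) (-v) t := by
            simpa using ((hasDerivAt_id t).smul_const v).const_sub y
          rw [← map_neg]
          exact ((hψ1.differentiable one_ne_zero _).hasFDerivAt).comp_hasDerivAt t h1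
      have hF0 : ∀ t ∈ Set.Icc (0 : ℝ) 1, HasDerivWithinAt F 0 (Set.Icc 0 1) t := by
        intro t ht
        have hfd : ∀ y, fderiv ℝ (fun y => ψ (y - t • v)) y v = fderiv ℝ ψ (y - t • v) v := by
          intro y; rw [fderiv_comp_sub (f := ψ) (t • v)]
        have h1 := h (fun y => ψ (y - t • v)) v (hψ1.comp (by fun_prop)) (hcs t) (hnot t ht)
        rw [hG_eq t ht _ (Function.support_subset_iff'.2 fun y hy => by
          rw [image_eq_zero_of_notMem_tsupport (f := fun y => fderiv ℝ (fun y => ψ (y - t • v)) y v)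
            fun h2 => hy (tsupport_fderiv_apply_subset ℝ v h2)])] at h1
        simp only [hfd] at h1
        have := hF t
        simp only [mul_neg, integral_neg, h1, neg_zero] at this
        exact this.hasDerivWithinAt
      have hF01 : F 1 = F 0 :=
        (convex_Icc (0 : ℝ) 1).norm_image_sub_le_of_norm_hasDerivWithin_le (C := 0) hF0
          (fun _ _ => by simp) (Set.left_mem_Icc.2 zero_le_one) (Set.right_mem_Icc.2 zero_le_one)
          |> fun h => sub_eq_zero.1 (norm_le_zero_iff.1 (h.trans (by simp)))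
      have e1 : (fun y => G y * ψ (y - (1:ℝ) • v)) = fun y => Gt y * ψ (y - (1:ℝ) • v) :=
        hG_eq 1 (by simp) _ (subset_tsupport fun y => ψ (y - (1:ℝ) • v))
      have e0 : (fun y => G y * ψ (y - (0:ℝ) • v)) = fun y => Gt y * ψ (y - (0:ℝ) • v) :=
        hG_eq 0 (by simp) _ (subset_tsupport fun y => ψ (y - (0:ℝ) • v))
      simp only [F, ← e1, ← e0] at hF01
      simp only [one_smul, zero_smul, sub_zero] at hF01 e0 e1
      have i1 : Integrable (fun y => G (y + v) * ψ y) μ := by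
        have h1 : Integrable (fun y => G y * ψ (y - v)) μ := by
          rw [e1]
          exact (hGt.bdd_mul (c := C0) (hψ1.continuous.comp (by fun_prop)).aestronglyMeasurable
            (ae_of_all _ fun y => hC0 _)).congr (ae_of_all _ fun y => mul_comm _ _)
        simpa using h1.comp_add_right v
      have i0 : Integrable (fun y => G y * ψ y) μ := by
        rw [e0]
        exact (hGt.bdd_mul (c := C0) hψ1.continuous.aestronglyMeasurable
          (ae_of_all _ fun y => hC0 _)).congr (ae_of_all _ fun y => mul_comm _ _)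
      have hshift : ∫ y, G (y + v) * ψ y ∂μ = ∫ y, G y * ψ (y - v) ∂μ := by
        rw [← integral_add_right_eq_self (fun y => G y * ψ (y - v)) v]
        simp
      simp only [smul_eq_mul]
      rw [show (fun y => ψ y * (G (y + v) - G y)) = fun y => G (y + v) * ψ y - G y * ψ y from
        funext fun y => by ring, integral_sub i1 i0, hshift, hF01, sub_self]
    have heq : Set.EqOn (fun y => G (y + v) - G y) 0 (ball y₀ r) :=
      Measure.eqOn_open_of_ae_eq ((ae_restrict_iff' measurableSet_ball).2 hzero) isOpen_ball hD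
        continuousOn_const
    exact sub_eq_zero.1 (heq (mem_ball_self hr))
  have hd : ∀ z : E, z ≠ 0 → HasFDerivAt G (0 : E →L[ℝ] ℝ) z := by
    intro z hz
    refine (hasFDerivAt_const (G z) z).congr_of_eventuallyEq ?_
    filter_upwards [ball_mem_nhds z (show 0 < ‖z‖ / 4 by have := norm_pos_iff.2 hz; positivity)]
      with y hy
    rw [mem_ball, dist_eq_norm] at hy
    simpa using hloc z hz (y - z) hy
  intro x y hx hy
  exact (isOpen_compl_singleton (x := (0 : E))).is_const_of_fderiv_eq_zero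
    (isConnected_compl_singleton_of_one_lt_rank hdim 0).isPreconnected
    (fun z hz => (hd z hz).differentiableAt.differentiableWithinAt)
    (fun z hz => (hd z hz).fderiv) hx hy

omit [FiniteDimensional ℝ E] [MeasurableSpace E] [BorelSpace E] in
lemma locallyLipschitzOn_pert {Φ : E → E} (hΦ : LocallyLipschitzOn ({0}ᶜ : Set E) Φ) (δ : ℝ) :
    LocallyLipschitzOn ({0}ᶜ : Set E) (pert Φ δ) := by
  intro x hx
  obtain ⟨K, t, ht, hK⟩ := hΦ hx
  exact ⟨K + ‖δ‖₊, t, ht, hK.add (lipschitzWith_smul δ).lipschitzOnWith⟩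

theorem const_of_flat_gradient {E : Type*} [NormedAddCommGroup E] [NormedSpace ℝ E]
    [FiniteDimensional ℝ E] [MeasurableSpace E] [BorelSpace E] (μ : MeasureTheory.Measure E)
    [μ.IsAddHaarMeasure] (hdim : 1 < Module.rank ℝ E)
    (J : E →ₗ[ℝ] E →ₗ[ℝ] ℝ) (hJs : ∀ u v, J u v = J v u) (hJp : ∀ v, v ≠ 0 → 0 < J v v)
    {Φ : E → E} (hc : Continuous Φ) (h0 : Φ 0 = 0)
    (hhom : ∀ (s : ℝ) (x : E), 0 < s → Φ (s • x) = s • Φ x)
    (hbij : Function.Bijective Φ) (hmono : ∀ x y, 0 ≤ J (Φ x - Φ y) (x - y))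
    (hsurj : ∀ δ : ℝ, 0 < δ → Function.Surjective fun x => Φ x + δ • x)
    (hΦ : LocallyLipschitzOn ({0}ᶜ : Set E) Φ)
    {g : E → ℝ} (hg : LocallyLipschitzOn ({0}ᶜ : Set E) g)
    (hflat : ∀ᵐ x ∂μ, x ≠ 0 → ∀ z : E, fderiv ℝ Φ x z = 0 → fderiv ℝ g x z = 0)
    (hreg : ∀ᵐ x ∂μ, x ≠ 0 → Function.Injective (fderiv ℝ Φ x) → fderiv ℝ g x = 0) :
    ∀ x y : E, x ≠ 0 → y ≠ 0 → g x = g y := by
  have hP : ProperSpace E := FiniteDimensional.proper ℝ E
  have hnt : Nontrivial E := rank_pos_iff_nontrivial.1 (zero_lt_one.trans hdim)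
  -- the form as a bounded bilinear map
  let Jc : E →L[ℝ] E →L[ℝ] ℝ := LinearMap.toContinuousLinearMap
    ((LinearMap.toContinuousLinearMap (𝕜 := ℝ) (E := E) (F' := ℝ)).toLinearMap.comp J)
  have hJc : ∀ u v, Jc u v = J u v := fun u v => rfl
  obtain ⟨κ, hκ, hκJ⟩ : ∃ κ : ℝ, 0 < κ ∧ ∀ v, κ * ‖v‖ ^ 2 ≤ J v v := by
    have hcont : Continuous fun v : E => Jc v v := Jc.continuous.clm_apply continuous_id
    obtain ⟨v, hv, hmin⟩ := (isCompact_sphere (0 : E) 1).exists_isMinOn
      (NormedSpace.sphere_nonempty.2 zero_le_one) hcont.continuousOn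
    refine ⟨J v v, hJp v (ne_of_mem_sphere hv one_ne_zero), fun w => ?_⟩
    rcases eq_or_ne w 0 with rfl | hw
    · simp
    have hw' : 0 < ‖w‖ := norm_pos_iff.2 hw
    have h1 : J v v ≤ J (‖w‖⁻¹ • w) (‖w‖⁻¹ • w) := by
      have := hmin (show ‖w‖⁻¹ • w ∈ sphere (0 : E) 1 by simp [norm_smul, hw])
      simpa [hJc] using this
    simp only [map_smul, LinearMap.smul_apply, smul_eq_mul] at h1
    calc J v v * ‖w‖ ^ 2 ≤ ‖w‖⁻¹ * (‖w‖⁻¹ * J w w) * ‖w‖ ^ 2 :=
          mul_le_mul_of_nonneg_right h1 (sq_nonneg _)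
      _ = J w w := by field_simp
  have hanti : ∀ δ : ℝ, 0 ≤ δ → ∀ x y,
      δ * κ * ‖x - y‖ ≤ ‖Jc‖ * ‖pert Φ δ x - pert Φ δ y‖ := by
    intro δ hδ x y
    rcases eq_or_ne (x - y) 0 with h | h
    · rw [h, norm_zero, mul_zero]; positivity
    have hn : 0 < ‖x - y‖ := norm_pos_iff.2 h
    have h1 : δ * (κ * ‖x - y‖ ^ 2) ≤ J (pert Φ δ x - pert Φ δ y) (x - y) := by
      rw [show pert Φ δ x - pert Φ δ y = (Φ x - Φ y) + δ • (x - y) by
        unfold pert; module, map_add, LinearMap.add_apply, map_smul, LinearMap.smul_apply,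
        smul_eq_mul]
      nlinarith [hmono x y, mul_le_mul_of_nonneg_left (hκJ (x - y)) hδ]
    have h2 : J (pert Φ δ x - pert Φ δ y) (x - y)
        ≤ ‖Jc‖ * ‖pert Φ δ x - pert Φ δ y‖ * ‖x - y‖ := by
      rw [← hJc]; exact (le_abs_self _).trans (Jc.le_opNorm₂ _ _)
    nlinarith
  have hinj : ∀ δ : ℝ, 0 < δ → Function.Injective (pert Φ δ) := fun δ hδ x y hxy => by
    have := hanti δ hδ.le x y
    rw [hxy, sub_self, norm_zero, mul_zero] at this
    exact sub_eq_zero.1 (norm_le_zero_iff.1 (nonpos_of_mul_nonpos_right this (mul_pos hδ hκ)))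
  have hp0 : ∀ δ, pert Φ δ 0 = 0 := fun δ => by simp [pert, h0]
  have hne : ∀ δ ∈ Set.Icc (0 : ℝ) 1, ∀ x : E, x ≠ 0 → pert Φ δ x ≠ 0 := by
    intro δ hδ x hx hzero
    rcases hδ.1.eq_or_lt with rfl | hpos
    · exact hx (hbij.injective (by simpa [pert, h0] using hzero))
    · exact hx (hinj δ hpos (hzero.trans (hp0 δ).symm))
  obtain ⟨c, C, hc0, hC0, hbnd⟩ := exists_pert_bounds hc h0 hhom hne
  -- inverse maps
  let eΦ : E ≃ E := Equiv.ofBijective Φ hbij
  let u : ℕ → ℝ := fun n => 1 / ((n : ℝ) + 1)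
  have hu0 : ∀ n, 0 < u n := fun n => by positivity
  have hu1 : ∀ n, u n ∈ Set.Icc (0 : ℝ) 1 := fun n =>
    ⟨(hu0 n).le, (div_le_one (by positivity)).2 (le_add_of_nonneg_left (Nat.cast_nonneg n))⟩
  have hut : Tendsto u atTop (𝓝 0) := tendsto_one_div_add_atTop_nhds_zero_nat
  let eP : ℕ → E ≃ E := fun n =>
    Equiv.ofBijective (pert Φ (u n)) ⟨hinj _ (hu0 n), hsurj _ (hu0 n)⟩
  let Ψ : ℕ → E → E := fun n => (eP n).symm
  have hPΨ : ∀ n y, pert Φ (u n) (Ψ n y) = y := fun n y => (eP n).apply_symm_apply y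
  have hΨP : ∀ n x, Ψ n (pert Φ (u n) x) = x := fun n x => (eP n).symm_apply_apply x
  have hΨlip : ∀ n, LipschitzWith (Real.toNNReal (‖Jc‖ / (u n * κ))) (Ψ n) := fun n => by
    refine LipschitzWith.of_dist_le' fun a b => ?_
    have := hanti (u n) (hu0 n).le (Ψ n a) (Ψ n b)
    rw [hPΨ, hPΨ] at this
    rw [dist_eq_norm, dist_eq_norm, div_mul_eq_mul_div, le_div_iff₀ (mul_pos (hu0 n) hκ)]
    linarith
  have hΨb : ∀ n y, ‖y‖ / C ≤ ‖Ψ n y‖ ∧ ‖Ψ n y‖ ≤ ‖y‖ / c := fun n y => by
    obtain ⟨h1, h2⟩ := hbnd (u n) (hu1 n) (Ψ n y)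
    rw [hPΨ] at h1 h2
    exact ⟨(div_le_iff₀ hC0).2 (by linarith), (le_div_iff₀ hc0).2 (by linarith)⟩
  have hΨne : ∀ n y, y ≠ 0 → Ψ n y ≠ 0 := fun n y hy h =>
    hy (by rw [← hPΨ n y, h, hp0])
  have hgcont : ContinuousOn g ({0}ᶜ : Set E) := hg.continuousOn
  have hinvne : ∀ y : E, y ≠ 0 → eΦ.symm y ≠ 0 := fun y hy h => hy (by
    rw [← eΦ.apply_symm_apply y, h]; exact h0)
  have hlim : ∀ y, Tendsto (fun n => Ψ n y) atTop (𝓝 (eΦ.symm y)) := by
    intro y
    refine (isCompact_closedBall (0 : E) (‖y‖ / c)).tendsto_nhds_of_unique_mapClusterPt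
      (Eventually.of_forall fun n => mem_closedBall_zero_iff.2 (hΨb n y).2) fun z _ hcl => ?_
    obtain ⟨φ, hφ, hconv⟩ := hcl.tendsto_subseq
    have h1 : Tendsto (fun n => Φ (Ψ (φ n) y) + u (φ n) • Ψ (φ n) y) atTop (𝓝 (Φ z + (0:ℝ) • z)) :=
      ((hc.tendsto z).comp hconv).add ((hut.comp hφ.tendsto_atTop).smul hconv)
    rw [zero_smul, add_zero] at h1
    have h2 : Φ z = y := tendsto_nhds_unique h1 (by
      refine tendsto_const_nhds.congr fun n => ?_
      exact (hPΨ (φ n) y).symm)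
    exact hbij.injective (h2.trans (eΦ.apply_symm_apply y).symm)
  have hinvc : Continuous (eΦ.symm : E → E) := by
    refine continuous_iff_continuousAt.2 fun y₀ => ?_
    refine (isCompact_closedBall (0 : E) ((‖y₀‖ + 1) / c)).tendsto_nhds_of_unique_mapClusterPt ?_
      fun z _ hcl => ?_
    · filter_upwards [continuous_norm.continuousAt.eventually (eventually_le_nhds (lt_add_one ‖y₀‖))]
        with y hy
      rw [mem_closedBall_zero_iff, le_div_iff₀ hc0]
      have h1 := (hbnd 0 ⟨le_rfl, zero_le_one⟩ (eΦ.symm y)).1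
      rw [show pert Φ 0 (eΦ.symm y) = y by simp [pert]; exact eΦ.apply_symm_apply y] at h1
      linarith
    · obtain ⟨a, hlim', ha⟩ := hcl.exists_seq_tendsto
      have h2 : Φ z = y₀ := tendsto_nhds_unique ((hc.tendsto z).comp hlim') (by
        refine ha.congr fun n => ?_
        exact (eΦ.apply_symm_apply _).symm)
      exact hbij.injective (h2.trans (eΦ.apply_symm_apply y₀).symm)
  let G : E → ℝ := g ∘ eΦ.symm
  have hGc : ContinuousOn G ({0}ᶜ : Set E) :=
    hgcont.comp hinvc.continuousOn fun y hy => hinvne y hy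
  suffices hweak : ∀ (φ : E → ℝ) (v : E), ContDiff ℝ 1 φ → HasCompactSupport φ →
      (0 : E) ∉ tsupport φ → ∫ y, G y * fderiv ℝ φ y v ∂μ = 0 by
    intro x y hx hy
    have hΦne : ∀ z : E, z ≠ 0 → Φ z ≠ 0 := fun z hz h => hz (hbij.injective (h.trans h0.symm))
    have := const_of_weak_deriv_zero μ hdim hGc hweak (Φ x) (Φ y) (hΦne x hx) (hΦne y hy)
    simpa [G, Function.comp_def, eΦ, Equiv.ofBijective_symm_apply_apply] using this
  intro φ v hφ hφc hφ0
  -- shells containing all supports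
  have hopen : IsOpen (tsupport φ)ᶜ := (isClosed_tsupport φ).isOpen_compl
  obtain ⟨ρ, hρ, hρball⟩ := Metric.isOpen_iff.1 hopen 0 hφ0
  obtain ⟨R, hR⟩ := hφc.isBounded.subset_closedBall (0 : E)
  let shell : ℝ → ℝ → Set E := fun a b => {y : E | a ≤ ‖y‖ ∧ ‖y‖ ≤ b}
  have hshell : ∀ a b, IsCompact (shell a b) := fun a b =>
    (isCompact_closedBall (0 : E) b).of_isClosed_subset
      ((isClosed_le continuous_const continuous_norm).inter (isClosed_le continuous_norm continuous_const))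
      fun y hy => mem_closedBall_zero_iff.2 hy.2
  set b := max R ρ + 1
  have hb : R < b ∧ ρ < b := ⟨by simp only [b]; linarith [le_max_left R ρ],
    by simp only [b]; linarith [le_max_right R ρ]⟩
  have hsuppK : ∀ y ∈ tsupport φ, ρ ≤ ‖y‖ ∧ ‖y‖ ≤ R := by
    intro y hy
    refine ⟨not_lt.1 fun h => hρball (mem_ball_zero_iff.2 h) hy, mem_closedBall_zero_iff.1 (hR hy)⟩
  have hnear : ∀ y ∈ tsupport φ, shell (ρ / 2) b ∈ 𝓝 y := by
    intro y hy
    have := hsuppK y hy
    have h1 : {z : E | ρ / 2 < ‖z‖ ∧ ‖z‖ < b} ∈ 𝓝 y :=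
      ((isOpen_lt continuous_const continuous_norm).inter
        (isOpen_lt continuous_norm continuous_const)).mem_nhds
          (show ρ / 2 < ‖y‖ ∧ ‖y‖ < b from ⟨by linarith [this.1], by linarith [this.2, hb.1]⟩)
    exact mem_of_superset h1 fun z hz => ⟨hz.1.le, hz.2.le⟩
  set a' := ρ / (2 * C) / 2
  set b' := b / c + 1
  have ha' : 0 < a' := by positivity
  have hshell0 : shell a' b' ⊆ ({0}ᶜ : Set E) := by
    intro y hy hy0
    have hy' : y = 0 := hy0
    have := hy.1
    rw [hy', norm_zero] at this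
    linarith
  obtain ⟨Kg, hKg⟩ := (hg.mono hshell0).exists_lipschitzOnWith_of_compact (hshell a' b')
  obtain ⟨KΦ, hKΦ⟩ := (hΦ.mono hshell0).exists_lipschitzOnWith_of_compact (hshell a' b')
  have hΨshell : ∀ n, ∀ y ∈ shell (ρ / 2) b, Ψ n y ∈ shell a' b' ∧
      shell a' b' ∈ 𝓝 (Ψ n y) := by
    intro n y hy
    obtain ⟨h1, h2⟩ := hΨb n y
    have h3 : 2 * a' ≤ ‖Ψ n y‖ := by
      refine le_trans (le_of_eq ?_) (le_trans (div_le_div_of_nonneg_right hy.1 hC0.le) h1)
      simp only [a']; field_simp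
    have h4 : ‖Ψ n y‖ + 1 ≤ b' := by
      have := div_le_div_of_nonneg_right hy.2 hc0.le
      simp only [b']; linarith
    refine ⟨⟨by linarith, by linarith⟩, mem_of_superset
      (((isOpen_lt continuous_const continuous_norm).inter
        (isOpen_lt continuous_norm continuous_const)).mem_nhds
        (show a' < ‖Ψ n y‖ ∧ ‖Ψ n y‖ < b' from ⟨by linarith, by linarith⟩)) fun z hz => ⟨hz.1.le, hz.2.le⟩⟩
  -- Lipschitz extensions of `g ∘ Ψ n`
  have hext : ∀ n, ∃ f : E → ℝ, (∃ K, LipschitzWith K f) ∧ Set.EqOn (g ∘ Ψ n) f (shell (ρ / 2) b) := by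
    intro n
    have h1 := hKg.comp (hΨlip n).lipschitzOnWith fun y hy => (hΨshell n y hy).1
    obtain ⟨f, hf1, hf2⟩ := h1.extend_real
    exact ⟨f, ⟨_, hf1⟩, hf2⟩
  choose f hfL hfeq using hext
  choose Kf hfK using hfL
  -- the good set
  set s : Set E := {x | x ≠ 0} ∩ ({x | DifferentiableAt ℝ Φ x} ∩ {x | DifferentiableAt ℝ g x})
  have hs : MeasurableSet s :=
    (measurableSet_singleton (0 : E)).compl.inter ((measurableSet_of_differentiableAt ℝ Φ).inter
      (measurableSet_of_differentiableAt ℝ g))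
  have hNnull : μ (({0}ᶜ : Set E) \ s) = 0 := by
    have h1 := ae_diff_of_locallyLipschitzOn μ isOpen_compl_singleton hΦ
    have h2 := ae_diff_of_locallyLipschitzOn μ isOpen_compl_singleton hg
    refine measure_mono_null (fun x hx => ?_) (ae_iff.1 (h1.and h2))
    intro h
    exact hx.2 ⟨hx.1, h.1 hx.1, h.2 hx.1⟩
  have himage : ∀ n, (pert Φ (u n) '' s) =ᵐ[μ] (Set.univ : Set E) := by
    intro n
    rw [ae_eq_univ]
    refine measure_mono_null (t := {0} ∪ pert Φ (u n) '' (({0}ᶜ : Set E) \ s)) ?_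
      (measure_union_null (measure_singleton 0) (image_null_of_locallyLipschitzOn μ
        isOpen_compl_singleton (locallyLipschitzOn_pert hΦ (u n)) Set.sdiff_subset hNnull))
    intro y hy
    rcases eq_or_ne y 0 with rfl | hy0
    · exact Or.inl rfl
    · exact Or.inr ⟨Ψ n y, ⟨hΨne n y hy0, fun h => hy ⟨_, h, hPΨ n y⟩⟩, hPΨ n y⟩
  let M : ℕ → E → E →L[ℝ] E := fun n x => fderiv ℝ Φ x + u n • ContinuousLinearMap.id ℝ E
  have hM : ∀ n, ∀ x ∈ s, HasFDerivAt (pert Φ (u n)) (M n x) x := fun n x hx =>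
    hx.2.1.hasFDerivAt.add ((hasFDerivAt_id x).const_smul (u n))
  let h : ℕ → E → ℝ := fun n y => lineDeriv ℝ (f n) y v * φ y
  have hφi : Integrable φ μ := hφ.continuous.integrable_of_hasCompactSupport hφc
  have hhi : ∀ n, Integrable (h n) μ := fun n =>
    hφi.bdd_mul (c := Kf n * ‖v‖)
      (aestronglyMeasurable_lineDeriv (hfK n).continuous μ)
      (ae_of_all _ fun y => norm_lineDeriv_le_of_lipschitz ℝ (hfK n))
  let F : ℕ → E → ℝ := fun n x => |(M n x).det| • h n (pert Φ (u n) x)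
  have hcov : ∀ n, ∫ y, h n y ∂μ = ∫ x in s, F n x ∂μ := fun n => by
    rw [← setIntegral_univ, ← setIntegral_congr_set (himage n)]
    exact integral_image_eq_integral_abs_det_fderiv_smul μ hs
      (fun x hx => (hM n x hx).hasFDerivWithinAt) (hinj _ (hu0 n)).injOn (h n)
  have hFi : ∀ n, IntegrableOn (F n) s μ := fun n =>
    (integrableOn_image_iff_integrableOn_abs_det_fderiv_smul μ hs
      (fun x hx => (hM n x hx).hasFDerivWithinAt) (hinj _ (hu0 n)).injOn (h n)).1 (hhi n).integrableOn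
  obtain ⟨Cφ, hCφ⟩ := hφ.continuous.bounded_above_of_compact_support hφc
  -- pointwise form of the integrand
  have hMinj : ∀ n, ∀ x ∈ s, Function.Injective (M n x) := by
    intro n x hx
    rw [injective_iff_map_eq_zero]
    intro z hz
    have hd : HasFDerivAt (pert Φ (u n)) (M n x) x := hM n x hx
    have hlin : Tendsto (fun t : ℝ => t⁻¹ • (pert Φ (u n) (x + t • z) - pert Φ (u n) x))
        (𝓝[≠] 0) (𝓝 (M n x z)) := (hd.hasLineDerivAt z).tendsto_slope_zero
    rw [hz] at hlin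
    have hle : ∀ᶠ t in 𝓝[≠] (0 : ℝ), u n * κ * ‖z‖
        ≤ ‖Jc‖ * ‖t⁻¹ • (pert Φ (u n) (x + t • z) - pert Φ (u n) x)‖ := by
      filter_upwards [self_mem_nhdsWithin] with t (ht : t ≠ 0)
      have := hanti (u n) (hu0 n).le (x + t • z) x
      rw [add_sub_cancel_left, norm_smul] at this
      rw [norm_smul, norm_inv]
      have ht' : 0 < ‖t‖ := norm_pos_iff.2 ht
      rw [← mul_le_mul_iff_right₀ ht']
      calc ‖t‖ * (u n * κ * ‖z‖) = u n * κ * (‖t‖ * ‖z‖) := by ring
        _ ≤ ‖Jc‖ * ‖pert Φ (u n) (x + t • z) - pert Φ (u n) x‖ := this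
        _ = _ := by field_simp
    have hlim0 : Tendsto (fun t : ℝ =>
        ‖Jc‖ * ‖t⁻¹ • (pert Φ (u n) (x + t • z) - pert Φ (u n) x)‖) (𝓝[≠] 0) (𝓝 0) := by
      simpa using hlin.norm.const_mul ‖Jc‖
    have := ge_of_tendsto hlim0 hle
    exact norm_le_zero_iff.1 (nonpos_of_mul_nonpos_right this (mul_pos (hu0 n) hκ))
  have hFbound : ∀ n, ∀ x ∈ s, ‖F n x‖ ≤ ‖fderiv ℝ g x (adjVec v (M n x))‖ * Cφ ∧
      (x ∉ shell a' b' → F n x = 0) := by
    intro n x hx
    set y := pert Φ (u n) x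
    by_cases hy : y ∈ tsupport φ
    swap
    · have : F n x = 0 := by simp [F, h, y, image_eq_zero_of_notMem_tsupport hy]
      rw [this, norm_zero]
      exact ⟨mul_nonneg (norm_nonneg _) ((norm_nonneg _).trans (hCφ 0)), fun _ => rfl⟩
    have hyn := hnear y hy
    have hxs : x ∈ shell a' b' := by
      have := (hΨshell n y (mem_of_mem_nhds hyn)).1
      rwa [hΨP] at this
    refine ⟨?_, fun h' => absurd hxs h'⟩
    set D := (M n x).det
    have hD : D ≠ 0 := det_ne_zero_of_injective (hMinj n x hx)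
    let Me : E ≃L[ℝ] E := (LinearEquiv.ofBijective (M n x : E →ₗ[ℝ] E)
      ⟨hMinj n x hx, LinearMap.surjective_of_injective (hMinj n x hx)⟩).toContinuousLinearEquiv
    have hMe : ∀ z, Me z = M n x z := fun z => rfl
    have hMd : HasFDerivAt (pert Φ (u n)) (Me : E →L[ℝ] E) (Ψ n y) := by
      rw [hΨP]
      exact hM n x hx
    have hΨd : HasFDerivAt (Ψ n) (Me.symm : E →L[ℝ] E) y :=
      hMd.of_local_left_inverse (hΨlip n).continuous.continuousAt (Eventually.of_forall (hPΨ n))
    have hfd : HasFDerivAt (f n) ((fderiv ℝ g x).comp (Me.symm : E →L[ℝ] E)) y := by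
      refine HasFDerivAt.congr_of_eventuallyEq ?_ (eventually_of_mem hyn fun z hz => (hfeq n hz).symm)
      exact HasFDerivAt.comp y (g := g) (by rw [hΨP]; exact hx.2.2.hasFDerivAt) hΨd
    have hval : Me.symm v = D⁻¹ • adjVec v (M n x) := by
      apply Me.injective
      rw [Me.apply_symm_apply, map_smul, hMe, apply_adjVec, inv_smul_smul₀ hD]
    have e : F n x = |D| * ((D⁻¹ * fderiv ℝ g x (adjVec v (M n x))) * φ y) := by
      simp only [F, h, smul_eq_mul]
      rw [(hfd.hasLineDerivAt v).lineDeriv]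
      simp [hval, D, y]
    rw [e, norm_mul, norm_mul, norm_mul, Real.norm_eq_abs, abs_abs, norm_inv, Real.norm_eq_abs]
    rw [← mul_assoc, ← mul_assoc, mul_inv_cancel₀ (abs_ne_zero.2 hD), one_mul]
    exact mul_le_mul_of_nonneg_left (hCφ y) (norm_nonneg _)
  -- domination and limit
  obtain ⟨A, hA⟩ := (isCompact_closedBall (0 : E →L[ℝ] E) (KΦ + 1)).exists_bound_of_continuousOn
    (continuous_adjVec v).continuousOn
  let s' : Set E := interior (shell a' b')
  set B : E → ℝ := (shell a' b').indicator fun _ => (Kg : ℝ) * A * Cφ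
  have hBi : IntegrableOn B s μ :=
    ((integrableOn_const (hshell a' b').measure_lt_top.ne).integrable_indicator
      (hshell a' b').measurableSet).integrableOn
  have hshellbd : μ (shell a' b' \ interior (shell a' b')) = 0 := by
    refine measure_mono_null (t := sphere (0 : E) a' ∪ sphere (0 : E) b') (fun z hz => ?_)
      (measure_union_null (Measure.addHaar_sphere μ _ _) (Measure.addHaar_sphere μ _ _))
    by_contra hcon
    simp only [Set.mem_union, mem_sphere_zero_iff_norm, not_or] at hcon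
    refine hz.2 (mem_interior.2 ⟨{w | a' < ‖w‖ ∧ ‖w‖ < b'}, fun w hw => ⟨hw.1.le, hw.2.le⟩,
      (isOpen_lt continuous_const continuous_norm).inter (isOpen_lt continuous_norm continuous_const),
      lt_of_le_of_ne hz.1.1 (Ne.symm hcon.1), lt_of_le_of_ne hz.1.2 hcon.2⟩)
  have hdom : ∀ n, ∀ᵐ x ∂μ.restrict s, ‖F n x‖ ≤ B x := by
    intro n
    have hno : ∀ᵐ x ∂μ, x ∈ shell a' b' → x ∈ interior (shell a' b') := by
      refine ae_iff.2 (measure_mono_null (fun x hx => ?_) hshellbd)
      simpa [Classical.not_imp] using hx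
    filter_upwards [ae_restrict_mem hs, ae_restrict_of_ae hno] with x hx hint
    by_cases hxs : x ∈ shell a' b'
    swap
    · rw [(hFbound n x hx).2 hxs, norm_zero]
      simp [B, hxs]
    have hnb : shell a' b' ∈ 𝓝 x := mem_interior_iff_mem_nhds.1 (hint hxs)
    have h1 : ‖fderiv ℝ g x‖ ≤ Kg := norm_fderiv_le_of_lipschitzOn ℝ hnb hKg
    have h2 : ‖fderiv ℝ Φ x‖ ≤ KΦ := norm_fderiv_le_of_lipschitzOn ℝ hnb hKΦ
    have h3 : M n x ∈ closedBall (0 : E →L[ℝ] E) (KΦ + 1) := by
      rw [mem_closedBall_zero_iff]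
      refine (norm_add_le _ _).trans (add_le_add h2 ?_)
      rw [norm_smul, Real.norm_of_nonneg (hu0 n).le]
      exact mul_le_one₀ (hu1 n).2 (norm_nonneg _) ContinuousLinearMap.norm_id_le
    refine (hFbound n x hx).1.trans ?_
    simp only [B, Set.indicator_of_mem hxs]
    refine mul_le_mul_of_nonneg_right ?_ ((norm_nonneg _).trans (hCφ 0))
    exact (ContinuousLinearMap.le_opNorm _ _).trans
      (mul_le_mul h1 (hA _ h3) (norm_nonneg _) Kg.2)
  have hptlim : ∀ᵐ x ∂μ.restrict s, Tendsto (fun n => F n x) atTop (𝓝 0) := by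
    filter_upwards [ae_restrict_mem hs, ae_restrict_of_ae hflat, ae_restrict_of_ae hreg]
      with x hx hf' hr'
    have hM0 : Tendsto (fun n => M n x) atTop (𝓝 (fderiv ℝ Φ x)) := by
      simpa [M] using (hut.smul_const (ContinuousLinearMap.id ℝ E)).const_add (fderiv ℝ Φ x)
    have hzero : fderiv ℝ g x (adjVec v (fderiv ℝ Φ x)) = 0 := by
      rcases eq_or_ne (fderiv ℝ Φ x).det 0 with hd | hd
      · refine hf' hx.1 _ ?_
        rw [apply_adjVec, hd, zero_smul]
      · rw [hr' hx.1 (injective_of_det_ne_zero hd)]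
        rfl
    refine squeeze_zero_norm (fun n => (hFbound n x hx).1) ?_
    have := ((((fderiv ℝ g x).continuous.comp (continuous_adjVec v)).tendsto _).comp hM0).norm.mul_const Cφ
    simpa [hzero] using this
  have hlimL : Tendsto (fun n => ∫ y, h n y ∂μ) atTop (𝓝 0) := by
    simp only [hcov]
    simpa using tendsto_integral_of_dominated_convergence B (fun n => (hFi n).aestronglyMeasurable)
      hBi hdom hptlim
  obtain ⟨Kd, hKd⟩ := (hφ.continuous_fderiv one_ne_zero).bounded_above_of_compact_support (hφc.fderiv ℝ)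
  obtain ⟨Lφ, hLφ⟩ : ∃ L, LipschitzWith L φ :=
    hφ.lipschitzWith_of_hasCompactSupport hφc one_ne_zero
  have hparts : ∀ n, ∫ y, h n y ∂μ = -∫ y, g (Ψ n y) * fderiv ℝ φ y v ∂μ := by
    intro n
    rw [(hfK n).integral_lineDeriv_mul_eq hLφ hφc v, ← integral_neg]
    refine integral_congr_ae (ae_of_all _ fun y => ?_)
    dsimp only
    rw [(hφ.differentiable one_ne_zero y).lineDeriv_eq_fderiv, map_neg]
    by_cases hy : y ∈ tsupport φ
    · rw [← hfeq n (mem_of_mem_nhds (hnear y hy))]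
      simp only [Function.comp_apply]; ring
    · have : fderiv ℝ φ y = 0 := by
        have := fun h => hy (tsupport_fderiv_subset ℝ h)
        exact image_eq_zero_of_notMem_tsupport this
      simp [this]
  obtain ⟨Bg, hBg⟩ := (hshell a' b').exists_bound_of_continuousOn (hgcont.mono hshell0)
  have hsupp' : ∀ y, fderiv ℝ φ y v ≠ 0 → y ∈ tsupport φ := fun y hy => by
    by_contra h'
    exact hy (image_eq_zero_of_notMem_tsupport (f := fun y => fderiv ℝ φ y v)
      fun h2 => h' (tsupport_fderiv_apply_subset ℝ v h2))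
  have hlimR : Tendsto (fun n => ∫ y, g (Ψ n y) * fderiv ℝ φ y v ∂μ) atTop
      (𝓝 (∫ y, G y * fderiv ℝ φ y v ∂μ)) := by
    refine tendsto_integral_of_dominated_convergence
      (fun y => Bg * ‖fderiv ℝ φ y v‖) (fun n => ?_) ?_ (fun n => ae_of_all _ fun y => ?_)
      (ae_of_all _ fun y => ?_)
    · have hcts : Continuous fun y => f n y * fderiv ℝ φ y v :=
        (hfK n).continuous.mul ((hφ.continuous_fderiv one_ne_zero).clm_apply continuous_const)
      refine hcts.aestronglyMeasurable.congr (ae_of_all _ fun y => ?_)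
      by_cases hy : fderiv ℝ φ y v = 0
      · simp [hy]
      · have := hfeq n (mem_of_mem_nhds (hnear y (hsupp' y hy)))
        simp only [Function.comp_apply] at this
        simp [this]
    · exact (((hφ.continuous_fderiv one_ne_zero).clm_apply continuous_const).integrable_of_hasCompactSupport
        ((hφc.fderiv ℝ).comp_left (g := fun L : E →L[ℝ] ℝ => L v) rfl)).norm.const_mul Bg
    · by_cases hy : fderiv ℝ φ y v = 0
      · simp [hy]
      · rw [norm_mul]
        exact mul_le_mul_of_nonneg_right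
          (hBg _ (hΨshell n y (mem_of_mem_nhds (hnear y (hsupp' y hy)))).1) (norm_nonneg _)
    · by_cases hy : fderiv ℝ φ y v = 0
      · simp [hy]
      · have hy0 : y ≠ 0 := fun h' => hφ0 (h' ▸ hsupp' y hy)
        refine Tendsto.mul_const _ ?_
        exact ((hgcont.continuousAt (isOpen_compl_singleton.mem_nhds (hinvne y hy0))).tendsto).comp (hlim y)
  simp only [hparts] at hlimL
  have := tendsto_nhds_unique hlimL hlimR.neg
  linarith

end Vale.Agent.P084
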