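import Mathlib.Analysis.Calculus.Rademacher
import Mathlib.Analysis.Distribution.AEEqOfIntegralContDiff
import Mathlib.Analysis.Normed.Module.FiniteDimension
import Mathlib.Topology.Algebra.MetricSpace.Lipschitz

/-!
# P084: the weak symmetry of second derivatives for a pairing of Lipschitz maps
-/

open scoped ContDiff Topology NNReal
open MeasureTheory Set Filter Module

namespace Vale.Agent.P084

variable {E : Type*} [NormedAddCommGroup E] [NormedSpace ℝ E] [FiniteDimensional ℝ E]
  [MeasurableSpace E] [BorelSpace E]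

omit [FiniteDimensional ℝ E] [MeasurableSpace E] [BorelSpace E] in
theorem lineDeriv_zero_fun (x v : E) : lineDeriv ℝ (fun _ : E => (0 : ℝ)) x v = 0 := by
  simp [lineDeriv]

/-- `∫ ∂g ∂s` is symmetric in the two directions. -/
theorem integral_lineDeriv_symm (μ : Measure E) [μ.IsAddHaarMeasure] {g s : E → ℝ} {D C : ℝ≥0}
    (hg : LipschitzWith D g) (hgc : HasCompactSupport g) (hs : LipschitzWith C s) (u w : E) :
    ∫ x, lineDeriv ℝ g x w * lineDeriv ℝ s x u ∂μ =
      ∫ x, lineDeriv ℝ g x u * lineDeriv ℝ s x w ∂μ := by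
  set K := Metric.cthickening ‖u‖ (tsupport g) with hK
  have hKc : IsCompact K := IsCompact.cthickening hgc
  set h : E → ℝ := fun x => lineDeriv ℝ s x w
  have hh : AEStronglyMeasurable h μ := (hs.memLp_lineDeriv (μ := μ) w).1
  have hhb : ∀ x, ‖h x‖ ≤ C * ‖w‖ := fun x => norm_lineDeriv_le_of_lipschitz ℝ hs
  have hgi : Integrable g μ := hg.continuous.integrable_of_hasCompactSupport hgc
  have hint : Integrable (fun x => lineDeriv ℝ g x (-w)) μ := by
    refine Integrable.mono' (g := (tsupport g).indicator fun _ => (D : ℝ) * ‖-w‖)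
      ((integrable_indicator_iff hgc.isCompact.measurableSet).2
        (continuousOn_const.integrableOn_compact hgc.isCompact))
      ((hg.memLp_lineDeriv (μ := μ) (-w)).1) (.of_forall fun x => ?_)
    by_cases hx : x ∈ tsupport g
    · rw [indicator_of_mem hx]; exact norm_lineDeriv_le_of_lipschitz ℝ hg
    · rw [indicator_of_notMem hx]
      have : g =ᶠ[𝓝 x] fun _ => (0 : ℝ) := notMem_tsupport_iff_eventuallyEq.1 hx
      rw [this.lineDeriv_eq, lineDeriv_zero_fun]
      simp
  have hKi : Integrable (K.indicator h) μ := by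
    rw [integrable_indicator_iff hKc.measurableSet]
    exact IntegrableOn.of_bound hKc.measure_lt_top hh.restrict (C * ‖w‖) (.of_forall hhb)
  have A := hs.integral_inv_smul_sub_mul_tendsto_integral_lineDeriv_mul (μ := μ) hint u
  have B := hg.integral_inv_smul_sub_mul_tendsto_integral_lineDeriv_mul (μ := μ) hKi (-u)
  have S : ∀ᶠ t : ℝ in 𝓝[>] 0,
      ∫ x, (t⁻¹ • (g (x + t • -u) - g x)) * K.indicator h x ∂μ =
        ∫ x, (t⁻¹ • (s (x + t • u) - s x)) * lineDeriv ℝ g x (-w) ∂μ := by
    filter_upwards [Ioc_mem_nhdsGT zero_lt_one] with t ⟨ht, ht1⟩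
    have hst : LipschitzWith (‖t⁻¹‖₊ * (C + C)) fun x => t⁻¹ • (s (x + t • u) - s x) := by
      refine (lipschitzWith_smul t⁻¹).comp (LipschitzWith.sub ?_ hs)
      have h1 : LipschitzWith 1 fun x : E => x + t • u :=
        LipschitzWith.of_dist_le_mul fun a b => by simp
      exact (hs.comp h1).weaken (by simp)
    have h2 := hst.integral_lineDeriv_mul_eq (μ := μ) hg hgc w
    have hae : ∀ᵐ x ∂μ, lineDeriv ℝ (fun x => t⁻¹ • (s (x + t • u) - s x)) x w =
        t⁻¹ * (h (x + t • u) - h x) := by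
      have d := hs.ae_lineDifferentiableAt (μ := μ) w
      have d' := (measurePreserving_add_right μ (t • u)).quasiMeasurePreserving.ae d
      filter_upwards [d, d'] with x hx hx'
      have e1 : HasLineDerivAt ℝ (fun z => s (z + t • u)) (h (x + t • u)) x w := by
        have := hx'.hasLineDerivAt
        simp only [HasLineDerivAt] at this ⊢
        simpa only [add_right_comm] using this
      have e2 : HasLineDerivAt ℝ (fun x => t⁻¹ • (s (x + t • u) - s x))
          (t⁻¹ * (h (x + t • u) - h x)) x w :=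
        (e1.sub hx.hasLineDerivAt).const_smul t⁻¹
      exact e2.lineDeriv
    have e3 : ∫ x, (t⁻¹ • (g (x + t • -u) - g x)) * K.indicator h x ∂μ =
        ∫ x, (t⁻¹ • (g (x + t • -u) - g x)) * h x ∂μ := by
      congr 1
      funext x
      by_cases hx : x ∈ K
      · rw [indicator_of_mem hx]
      · have a : g x = 0 := image_eq_zero_of_notMem_tsupport fun h' =>
          hx (Metric.self_subset_cthickening _ h')
        have b : g (x + t • -u) = 0 := image_eq_zero_of_notMem_tsupport fun h' => by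
          refine hx (Metric.mem_cthickening_of_dist_le _ _ _ _ h' ?_)
          rw [dist_eq_norm, sub_add_cancel_left, norm_neg, norm_smul, norm_neg, Real.norm_eq_abs,
            abs_of_pos ht]
          exact mul_le_of_le_one_left (norm_nonneg u) ht1
        rw [a, b]
        simp
    rw [e3]
    have ia : Integrable (fun x => h (x + t • u) * g x) μ :=
      hgi.bdd_mul (hh.comp_quasiMeasurePreserving
        (measurePreserving_add_right μ (t • u)).quasiMeasurePreserving)
        (.of_forall fun x => hhb _)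
    have ib : Integrable (fun x => h x * g x) μ := hgi.bdd_mul hh (.of_forall hhb)
    have ic : Integrable (fun x => h x * g (x + t • -u)) μ :=
      (hgi.comp_add_right (t • -u)).bdd_mul hh (.of_forall hhb)
    have e5 : ∫ x, h (x + t • u) * g x ∂μ = ∫ x, h x * g (x + t • -u) ∂μ := by
      rw [← integral_add_right_eq_self (fun x => h x * g (x + t • -u)) (t • u)]
      simp
    calc ∫ x, (t⁻¹ • (g (x + t • -u) - g x)) * h x ∂μ
        = ∫ x, lineDeriv ℝ (fun x => t⁻¹ • (s (x + t • u) - s x)) x w * g x ∂μ := by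
          symm
          rw [integral_congr_ae (g := fun x => t⁻¹ * (h (x + t • u) * g x - h x * g x))
            (hae.mono fun x hx => by rw [hx]; ring)]
          rw [integral_const_mul, integral_sub ia ib, e5, ← integral_sub ic ib, ← integral_const_mul]
          congr 1
          funext x
          simp only [smul_eq_mul]
          ring
      _ = _ := by
          rw [h2]
          congr 1
          funext x
          ring
  have key := tendsto_nhds_unique (B.congr' S) A
  have hneg : ∀ f : E → ℝ, ∀ x v, lineDeriv ℝ f x (-v) = -lineDeriv ℝ f x v := fun f x v =>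
    lineDeriv_neg
  simp only [hneg, neg_mul, integral_neg] at key
  have hiK : ∀ x, lineDeriv ℝ g x u * K.indicator h x = lineDeriv ℝ g x u * h x := fun x => by
    by_cases hx : x ∈ K
    · rw [indicator_of_mem hx]
    · have : g =ᶠ[𝓝 x] fun _ => (0 : ℝ) :=
        notMem_tsupport_iff_eventuallyEq.1 fun h' => hx (Metric.self_subset_cthickening _ h')
      rw [this.lineDeriv_eq, lineDeriv_zero_fun]
      simp
  simp only [hiK, mul_neg, integral_neg, neg_inj] at key
  rw [key]
  congr 1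
  funext x
  ring

omit [NormedSpace ℝ E] [FiniteDimensional ℝ E] [MeasurableSpace E] [BorelSpace E] in
/-- A product with a compactly supported Lipschitz function is Lipschitz. -/
theorem lipschitz_mul_compact {φ p : E → ℝ} {Cφ Cp : ℝ≥0} (hφ : LipschitzWith Cφ φ)
    (hc : HasCompactSupport φ) (hp : LipschitzWith Cp p) :
    ∃ C : ℝ≥0, LipschitzWith C fun x => φ x * p x := by
  obtain ⟨Mp, hMp⟩ := hc.isCompact.exists_bound_of_continuousOn hp.continuous.continuousOn
  obtain ⟨Mφ, hMφ⟩ := hc.exists_bound_of_continuous hφ.continuous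
  have hM0 : 0 ≤ Mφ := (norm_nonneg _).trans (hMφ 0)
  refine ⟨((Cφ : ℝ) * max Mp 0 + Mφ * Cp).toNNReal, LipschitzWith.of_dist_le_mul fun x y => ?_⟩
  rw [Real.coe_toNNReal _ (by positivity), Real.dist_eq]
  have main : ∀ x y, x ∈ tsupport φ → |φ x * p x - φ y * p y| ≤
      ((Cφ : ℝ) * max Mp 0 + Mφ * Cp) * dist x y := fun x y hx => by
    rw [show φ x * p x - φ y * p y = (φ x - φ y) * p x + φ y * (p x - p y) by ring]
    refine (abs_add_le _ _).trans ?_
    rw [abs_mul, abs_mul, add_mul]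
    refine add_le_add ?_ ?_
    · calc |φ x - φ y| * |p x| ≤ Cφ * dist x y * max Mp 0 :=
            mul_le_mul (by simpa [Real.dist_eq] using hφ.dist_le_mul x y)
              ((hMp x hx).trans (le_max_left _ _)) (abs_nonneg _) (by positivity)
        _ = _ := by ring
    · calc |φ y| * |p x - p y| ≤ Mφ * (Cp * dist x y) :=
            mul_le_mul (hMφ y) (by simpa [Real.dist_eq] using hp.dist_le_mul x y) (abs_nonneg _)
              hM0
        _ = _ := by ring
  by_cases hx : x ∈ tsupport φ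
  · exact main x y hx
  by_cases hy : y ∈ tsupport φ
  · rw [abs_sub_comm, dist_comm]; exact main y x hy
  simp only [image_eq_zero_of_notMem_tsupport hx, image_eq_zero_of_notMem_tsupport hy, zero_mul,
    sub_zero, abs_zero]
  positivity

/-- The test integral vanishes. -/
theorem integral_test_pairing {Y : Type*} [NormedAddCommGroup Y] [NormedSpace ℝ Y]
    [FiniteDimensional ℝ Y] (μ : Measure E) [μ.IsAddHaarMeasure] {Q : E → Y →L[ℝ] ℝ} {R : E → Y}
    {CQ CR : ℝ≥0} (hQ : LipschitzWith CQ Q) (hR : LipschitzWith CR R) {φ : E → ℝ}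
    (hφ : ContDiff ℝ ∞ φ) (hc : HasCompactSupport φ) (u w : E)
    (h : ∀ᵐ x ∂μ, x ∈ tsupport φ → Q x (fderiv ℝ R x u) = 0 ∧ Q x (fderiv ℝ R x w) = 0) :
    ∫ x, φ x * (fderiv ℝ Q x w (fderiv ℝ R x u) - fderiv ℝ Q x u (fderiv ℝ R x w)) ∂μ = 0 := by
  set b := Module.finBasis ℝ Y
  let co : Fin (finrank ℝ Y) → Y →L[ℝ] ℝ := fun i => LinearMap.toContinuousLinearMap (b.coord i)
  let ev : Fin (finrank ℝ Y) → (Y →L[ℝ] ℝ) →L[ℝ] ℝ := fun i =>
    ContinuousLinearMap.apply ℝ ℝ (b i)
  let p : Fin (finrank ℝ Y) → E → ℝ := fun i x => Q x (b i)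
  let s : Fin (finrank ℝ Y) → E → ℝ := fun i x => co i (R x)
  obtain ⟨Cφ, hφL⟩ : ∃ C, LipschitzWith C φ :=
    ContDiff.lipschitzWith_of_hasCompactSupport hc hφ (by simp)
  have hp : ∀ i, LipschitzWith (‖ev i‖₊ * CQ) (p i) := fun i => (ev i).lipschitz.comp hQ
  have hs : ∀ i, LipschitzWith (‖co i‖₊ * CR) (s i) := fun i => (co i).lipschitz.comp hR
  have hgL := fun i => lipschitz_mul_compact hφL hc (hp i)
  choose Cg hg using hgL
  let g : Fin (finrank ℝ Y) → E → ℝ := fun i x => φ x * p i x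
  have hgc : ∀ i, HasCompactSupport (g i) := fun i => hc.mul_right
  have hi : ∀ i (v v' : E),
      Integrable (fun x => lineDeriv ℝ (g i) x v * lineDeriv ℝ (s i) x v') μ := fun i v v' => by
    refine Integrable.mono' (g := (tsupport (g i)).indicator
        fun _ => (Cg i : ℝ) * ‖v‖ * ((‖co i‖₊ * CR : ℝ≥0) * ‖v'‖))
      ((integrable_indicator_iff (hgc i).isCompact.measurableSet).2
        (continuousOn_const.integrableOn_compact (hgc i).isCompact))
      (((hg i).memLp_lineDeriv (μ := μ) v).1.mul ((hs i).memLp_lineDeriv (μ := μ) v').1)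
      (.of_forall fun x => ?_)
    by_cases hx : x ∈ tsupport (g i)
    · rw [indicator_of_mem hx, norm_mul]
      exact mul_le_mul (norm_lineDeriv_le_of_lipschitz ℝ (hg i))
        (norm_lineDeriv_le_of_lipschitz ℝ (hs i)) (norm_nonneg _) (by positivity)
    · rw [indicator_of_notMem hx]
      have : g i =ᶠ[𝓝 x] fun _ => (0 : ℝ) := notMem_tsupport_iff_eventuallyEq.1 hx
      rw [this.lineDeriv_eq, lineDeriv_zero_fun]
      simp
  have key : ∫ x, ∑ i, (lineDeriv ℝ (g i) x w * lineDeriv ℝ (s i) x u -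
      lineDeriv ℝ (g i) x u * lineDeriv ℝ (s i) x w) ∂μ = 0 := by
    have hi2 : ∀ i, Integrable (fun x => lineDeriv ℝ (g i) x w * lineDeriv ℝ (s i) x u -
        lineDeriv ℝ (g i) x u * lineDeriv ℝ (s i) x w) μ := fun i => (hi i w u).sub (hi i u w)
    rw [integral_finsetSum _ fun i _ => hi2 i]
    refine Finset.sum_eq_zero fun i _ => ?_
    rw [integral_sub (hi i w u) (hi i u w), integral_lineDeriv_symm μ (hg i) (hgc i) (hs i) u w,
      sub_self]
  rw [← key]
  refine integral_congr_ae ?_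
  filter_upwards [h, hQ.ae_differentiableAt (μ := μ), hR.ae_differentiableAt (μ := μ)]
    with x hx dQ dR
  have hsum : ∀ (L : Y →L[ℝ] ℝ) (y : Y), ∑ i, L (b i) * co i y = L y := fun L y => by
    conv_rhs => rw [← b.sum_repr y, map_sum]
    refine Finset.sum_congr rfl fun i _ => ?_
    rw [map_smul, smul_eq_mul, mul_comm]
    rfl
  have dφ : DifferentiableAt ℝ φ x := hφ.differentiable (by simp) x
  have eg : ∀ i v, lineDeriv ℝ (g i) x v =
      fderiv ℝ φ x v * p i x + φ x * fderiv ℝ Q x v (b i) := fun i v => by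
    have hp' : HasFDerivAt (p i) ((ev i).comp (fderiv ℝ Q x)) x :=
      (ev i).hasFDerivAt.comp x dQ.hasFDerivAt
    rw [show g i = φ * p i from rfl, ((dφ.hasFDerivAt.mul hp').hasLineDerivAt v).lineDeriv]
    simp [ev]
    ring
  have es : ∀ i v, lineDeriv ℝ (s i) x v = co i (fderiv ℝ R x v) := fun i v =>
    (((co i).hasFDerivAt.comp x dR.hasFDerivAt).hasLineDerivAt v).lineDeriv
  simp only [eg, es, add_mul, mul_assoc, Finset.sum_sub_distrib, Finset.sum_add_distrib,
    ← Finset.mul_sum, hsum, p]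
  by_cases hxs : x ∈ tsupport φ
  · rw [(hx hxs).1, (hx hxs).2]; ring
  · rw [fderiv_of_notMem_tsupport ℝ hxs, image_eq_zero_of_notMem_tsupport hxs]; simp

/-- The weak symmetry. -/
theorem weak_symm {E Y : Type*} [NormedAddCommGroup E] [NormedSpace ℝ E] [FiniteDimensional ℝ E]
    [MeasurableSpace E] [BorelSpace E] [NormedAddCommGroup Y] [NormedSpace ℝ Y]
    [FiniteDimensional ℝ Y] (μ : MeasureTheory.Measure E) [μ.IsAddHaarMeasure]
    {Ω : Set E} (hΩ : IsOpen Ω) {P : E → Y →L[ℝ] ℝ} {S : E → Y}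
    (hP : LocallyLipschitzOn Ω P) (hS : LocallyLipschitzOn Ω S) (u w : E)
    (h : ∀ᵐ x ∂μ, x ∈ Ω → P x (fderiv ℝ S x u) = 0 ∧ P x (fderiv ℝ S x w) = 0) :
    ∀ᵐ x ∂μ, x ∈ Ω → fderiv ℝ P x w (fderiv ℝ S x u) = fderiv ℝ P x u (fderiv ℝ S x w) := by
  set F : E → ℝ :=
    fun x => fderiv ℝ P x w (fderiv ℝ S x u) - fderiv ℝ P x u (fderiv ℝ S x w) with hF
  -- on a compact piece the maps are restrictions of Lipschitz maps
  have ext : ∀ L : Set E, IsCompact L → L ⊆ Ω → ∃ (Q : E → Y →L[ℝ] ℝ) (R : E → Y) (CQ CR : ℝ≥0),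
      LipschitzWith CQ Q ∧ LipschitzWith CR R ∧ ∀ x ∈ interior L,
        P x = Q x ∧ fderiv ℝ P x = fderiv ℝ Q x ∧ fderiv ℝ S x = fderiv ℝ R x := by
    intro L hL hLΩ
    obtain ⟨KP, hKP⟩ := LocallyLipschitzOn.exists_lipschitzOnWith_of_compact hL (hP.mono hLΩ)
    obtain ⟨KS, hKS⟩ := LocallyLipschitzOn.exists_lipschitzOnWith_of_compact hL (hS.mono hLΩ)
    obtain ⟨Q, hQ, eQ⟩ := hKP.extend_finite_dimension
    obtain ⟨R, hR, eR⟩ := hKS.extend_finite_dimension
    exact ⟨Q, R, _, _, hQ, hR, fun x hx => ⟨eQ (interior_subset hx),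
      (eQ.eventuallyEq_of_mem (mem_interior_iff_mem_nhds.1 hx)).fderiv_eq,
      (eR.eventuallyEq_of_mem (mem_interior_iff_mem_nhds.1 hx)).fderiv_eq⟩⟩
  borelize Y (Y →L[ℝ] ℝ)
  have mF : AEStronglyMeasurable F μ := by
    have m1 := fun v : E => (measurable_fderiv_apply_const ℝ P v).stronglyMeasurable
    have m2 := fun v : E => (measurable_fderiv_apply_const ℝ S v).stronglyMeasurable
    have cev : Continuous fun q : (Y →L[ℝ] ℝ) × Y => q.1 q.2 := continuous_fst.clm_apply continuous_snd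
    exact ((cev.comp_stronglyMeasurable ((m1 w).prodMk (m2 u))).sub
      (cev.comp_stronglyMeasurable ((m1 u).prodMk (m2 w)))).aestronglyMeasurable
  have hloc : LocallyIntegrableOn F Ω μ := by
    intro x hx
    obtain ⟨L, hL, hxL, hLΩ⟩ := exists_compact_subset hΩ hx
    obtain ⟨L', hL', hxL', hLL'⟩ := exists_compact_subset isOpen_interior hxL
    obtain ⟨Q, R, CQ, CR, hQ, hR, hQR⟩ := ext L hL hLΩ
    refine ⟨L', mem_nhdsWithin_of_mem_nhds (mem_interior_iff_mem_nhds.1 hxL'), ?_⟩
    refine IntegrableOn.of_bound hL'.measure_lt_top mF.restrict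
      (CQ * ‖w‖ * (CR * ‖u‖) + CQ * ‖u‖ * (CR * ‖w‖)) ?_
    refine (ae_restrict_iff' hL'.measurableSet).2 (.of_forall fun z hz => ?_)
    obtain ⟨-, e2, e3⟩ := hQR z (hLL' hz)
    have bound : ∀ a c : E, ‖fderiv ℝ P z a (fderiv ℝ S z c)‖ ≤ CQ * ‖a‖ * (CR * ‖c‖) := by
      intro a c
      rw [e2, e3]
      refine ((fderiv ℝ Q z a).le_opNorm _).trans (mul_le_mul ?_ ?_ (norm_nonneg _) (by positivity))
      · exact ((fderiv ℝ Q z).le_opNorm a).trans
          (mul_le_mul_of_nonneg_right (norm_fderiv_le_of_lipschitz ℝ hQ) (norm_nonneg _))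
      · exact ((fderiv ℝ R z).le_opNorm c).trans
          (mul_le_mul_of_nonneg_right (norm_fderiv_le_of_lipschitz ℝ hR) (norm_nonneg _))
    exact (norm_sub_le _ _).trans (add_le_add (bound w u) (bound u w))
  refine (IsOpen.ae_eq_zero_of_integral_contDiff_smul_eq_zero hΩ hloc fun φ hφ hc hsub => ?_).mono
    fun x hx hxΩ => sub_eq_zero.1 (hx hxΩ)
  obtain ⟨L, hL, hKL, hLΩ⟩ := exists_compact_between hc.isCompact hΩ hsub
  obtain ⟨Q, R, CQ, CR, hQ, hR, hQR⟩ := ext L hL hLΩ
  have := integral_test_pairing μ hQ hR hφ hc u w (h.mono fun x hx hxs => by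
    obtain ⟨e1, -, e3⟩ := hQR x (hKL hxs)
    rw [← e1, ← e3]
    exact hx (hsub hxs))
  rw [← this]
  congr 1
  funext x
  simp only [smul_eq_mul, hF]
  by_cases hxs : x ∈ tsupport φ
  · obtain ⟨-, e2, e3⟩ := hQR x (hKL hxs)
    rw [e2, e3]
  · rw [image_eq_zero_of_notMem_tsupport hxs, zero_mul, zero_mul]

end Vale.Agent.P084
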