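import Mathlib.Analysis.Calculus.LocalExtr.Basic
import Mathlib.LinearAlgebra.Dual.Lemmas
import Mathlib.LinearAlgebra.Trace
import Mathlib.MeasureTheory.Measure.Lebesgue.EqHaar
import Vale.Agent.P084.WeakSymm

/-!
# P084: an inner product invariant under the symmetries of an arbitrary norm

The second moments of the Lipschitz cut-off `max 0 (1 - ‖v‖)` give a form which is invariant under
the linear isometries and infinitesimally invariant under every `A` with `‖v‖ ≤ ‖v + s • A v‖`.
-/

open scoped Topology NNReal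
open MeasureTheory Set Filter Module

namespace Vale.Agent.P084

variable {V : Type*} [NormedAddCommGroup V] [NormedSpace ℝ V] [FiniteDimensional ℝ V]

/-- Integration by parts along a linear vector field, for a Lipschitz function. -/
theorem integral_linearField_lipschitz [MeasurableSpace V] [BorelSpace V] (μ : Measure V)
    [μ.IsAddHaarMeasure] {F : V → ℝ} {C : ℝ≥0} (hF : LipschitzWith C F) (hc : HasCompactSupport F)
    (A : V →ₗ[ℝ] V) :
    ∫ v, fderiv ℝ F v (A v) ∂μ = -LinearMap.trace ℝ V A * ∫ v, F v ∂μ := by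
  classical
  set b := Module.finBasis ℝ V
  set l : Fin (finrank ℝ V) → V →L[ℝ] ℝ := fun i =>
    LinearMap.toContinuousLinearMap ((b.coord i).comp A) with hl
  have i1 : ∀ i, Integrable (fun v => lineDeriv ℝ F v (b i) * l i v) μ := fun i => by
    refine Integrable.mono' (g := fun v => (tsupport F).indicator
        (fun v => (C : ℝ) * ‖b i‖ * ‖l i v‖) v)
      ((integrable_indicator_iff hc.isCompact.measurableSet).2
        ((continuous_const.mul (l i).continuous.norm).continuousOn.integrableOn_compact
          hc.isCompact))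
      (((hF.memLp_lineDeriv (μ := μ) (b i)).1).mul (l i).continuous.aestronglyMeasurable)
      (.of_forall fun x => ?_)
    by_cases hx : x ∈ tsupport F
    · rw [indicator_of_mem hx, norm_mul]
      exact mul_le_mul_of_nonneg_right (norm_lineDeriv_le_of_lipschitz ℝ hF) (norm_nonneg _)
    · rw [indicator_of_notMem hx]
      have : F =ᶠ[𝓝 x] fun _ => (0 : ℝ) := notMem_tsupport_iff_eventuallyEq.1 hx
      rw [this.lineDeriv_eq, lineDeriv_zero_fun]
      simp
  have key : ∀ i, ∫ v, lineDeriv ℝ F v (b i) * l i v ∂μ = -(l i (b i)) * ∫ v, F v ∂μ := fun i => by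
    have h := (l i).lipschitz.integral_lineDeriv_mul_eq (μ := μ) hF hc (b i)
    simp only [fun x => ((l i).hasFDerivAt.hasLineDerivAt (x := x) (b i)).lineDeriv, lineDeriv_neg,
      neg_mul, integral_neg, integral_const_mul] at h
    linarith
  have e : ∀ᵐ v ∂μ, fderiv ℝ F v (A v) = ∑ i, lineDeriv ℝ F v (b i) * l i v := by
    filter_upwards [hF.ae_differentiableAt (μ := μ)] with v hv
    conv_lhs => rw [← b.sum_repr (A v), map_sum]
    refine Finset.sum_congr rfl fun i _ => ?_
    rw [map_smul, smul_eq_mul, mul_comm, hv.lineDeriv_eq_fderiv]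
    rfl
  rw [integral_congr_ae e, integral_finsetSum _ fun i _ => i1 i,
    Finset.sum_congr rfl fun i _ => key i, ← Finset.sum_mul, Finset.sum_neg_distrib,
    LinearMap.trace_eq_matrix_trace ℝ b]
  simp [hl, Matrix.trace, LinearMap.toMatrix_apply]

/-- Every norm has an inner product invariant under its linear isometries and under the
infinitesimal ones. -/
theorem exists_invariant_form_gen {V : Type*} [NormedAddCommGroup V] [NormedSpace ℝ V]
    [FiniteDimensional ℝ V] :
    ∃ B : V →ₗ[ℝ] V →ₗ[ℝ] ℝ, (∀ u v, B u v = B v u) ∧ (∀ v, v ≠ 0 → 0 < B v v) ∧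
      (∀ A : V →ₗ[ℝ] V, (∀ (v : V) (s : ℝ), ‖v‖ ≤ ‖v + s • A v‖) →
        ∀ u v, B (A u) v + B u (A v) = 0) ∧
      (∀ M : V →ₗ[ℝ] V, (∀ v, ‖M v‖ = ‖v‖) → ∀ u v, B (M u) (M v) = B u v) := by
  borelize V
  set μ : Measure V := Measure.addHaar
  set g : V → ℝ := fun v => max 0 (1 - ‖v‖) with hg
  have gl : LipschitzWith 1 g := by
    refine LipschitzWith.const_max ?_ 0
    refine LipschitzWith.of_dist_le_mul fun x y => ?_
    rw [NNReal.coe_one, one_mul, Real.dist_eq, dist_eq_norm,
      show 1 - ‖x‖ - (1 - ‖y‖) = ‖y‖ - ‖x‖ by ring, abs_sub_comm]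
    exact abs_norm_sub_norm_le x y
  have gc : Continuous g := gl.continuous
  have gs : HasCompactSupport g := by
    refine HasCompactSupport.intro (isCompact_closedBall (0 : V) 1) fun v hv => ?_
    simp only [Metric.mem_closedBall, dist_zero_right, not_le] at hv
    exact max_eq_left (by linarith)
  have g0 : ∀ v, 0 ≤ g v := fun v => le_max_left _ _
  have gpos : ∀ v : V, ‖v‖ < 1 → g v ≠ 0 := fun v hv =>
    (lt_of_lt_of_le (by linarith : (0 : ℝ) < 1 - ‖v‖) (le_max_right _ _)).ne'
  -- positive integrals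
  have pos : ∀ f : V → ℝ, Continuous f → (∀ v, 0 ≤ f v) → ∀ v0, f v0 ≠ 0 → HasCompactSupport f →
      0 < ∫ v, f v ∂μ := fun f hf h0 v0 hv0 hs => by
    rw [integral_pos_iff_support_of_nonneg h0 (hf.integrable_of_hasCompactSupport hs)]
    exact IsOpen.measure_pos μ hf.isOpen_support ⟨v0, hv0⟩
  have hg0 : 0 < ∫ v, g v ∂μ := pos g gc g0 0 (gpos 0 (by simp)) gs
  -- the second moments
  set cl : Dual ℝ V → V →L[ℝ] ℝ := fun ξ => LinearMap.toContinuousLinearMap ξ
  have hcont : ∀ ξ : Dual ℝ V, Continuous ξ := fun ξ => (cl ξ).continuous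
  have hint : ∀ ξ : Dual ℝ V, Integrable (fun v => (g v * ξ v) • v) μ := fun ξ =>
    ((gc.mul (hcont ξ)).smul continuous_id).integrable_of_hasCompactSupport gs.mul_right.smul_right
  let M : Dual ℝ V →ₗ[ℝ] V :=
    { toFun := fun ξ => ∫ v, (g v * ξ v) • v ∂μ
      map_add' := fun ξ η => by
        rw [← integral_add (hint ξ) (hint η)]
        congr 1
        funext v
        simp [mul_add, add_smul]
      map_smul' := fun a ξ => by
        rw [RingHom.id_apply, ← integral_smul]
        congr 1
        funext v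
        simp [smul_smul, mul_left_comm] }
  have hM : ∀ ξ η : Dual ℝ V, η (M ξ) = ∫ v, g v * ξ v * η v ∂μ := fun ξ η => by
    show cl η (∫ v, (g v * ξ v) • v ∂μ) = _
    rw [← ContinuousLinearMap.integral_comp_comm _ (hint ξ)]
    simp [cl]
  have hMpos : ∀ ξ : Dual ℝ V, ξ ≠ 0 → 0 < ξ (M ξ) := fun ξ hξ => by
    rw [hM]
    obtain ⟨v, hv⟩ : ∃ v, ξ v ≠ 0 := by
      by_contra h
      push Not at h
      exact hξ (LinearMap.ext h)
    refine pos _ ((gc.mul (hcont ξ)).mul (hcont ξ))
      (fun w => by rw [mul_assoc]; exact mul_nonneg (g0 w) (mul_self_nonneg _))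
      ((1 / (‖v‖ + 1)) • v) ?_ gs.mul_right.mul_right
    have hn : ‖(1 / (‖v‖ + 1)) • v‖ < 1 := by
      rw [norm_smul, Real.norm_eq_abs, abs_of_pos (by positivity), one_div_mul_eq_div,
        div_lt_one (by positivity)]
      linarith
    have hs : ξ ((1 / (‖v‖ + 1)) • v) ≠ 0 := by
      rw [map_smul]
      exact smul_ne_zero (by positivity) hv
    exact mul_ne_zero (mul_ne_zero (gpos _ hn) hs) hs
  have hinj : Function.Injective M := (injective_iff_map_eq_zero M).2 fun ξ h => by
    by_contra hξ
    have := hMpos ξ hξ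
    simp [h] at this
  let e : Dual ℝ V ≃ₗ[ℝ] V :=
    LinearMap.linearEquivOfInjective M hinj Subspace.dual_finrank_eq
  have he : ∀ ξ, e ξ = M ξ := fun ξ => LinearMap.linearEquivOfInjective_apply ..
  refine ⟨e.symm.toLinearMap, fun u v => ?_, fun v hv => ?_, fun A hA u v => ?_,
    fun L hL u v => ?_⟩
  · obtain ⟨ξ, rfl⟩ := e.surjective u
    obtain ⟨η, rfl⟩ := e.surjective v
    simp only [LinearEquiv.coe_coe, LinearEquiv.symm_apply_apply]
    simp only [he, hM]
    congr 1
    funext w
    ring
  · obtain ⟨ξ, rfl⟩ := e.surjective v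
    simp only [LinearEquiv.coe_coe, LinearEquiv.symm_apply_apply]
    rw [he]
    exact hMpos ξ fun h => hv (by simp [h])
  · obtain ⟨ξ, rfl⟩ := e.surjective u
    obtain ⟨η, rfl⟩ := e.surjective v
    -- the cut-off is constant to first order along `A`
    have hgd : ∀ v, fderiv ℝ g v (A v) = 0 := fun v => by
      by_cases hd : DifferentiableAt ℝ g v
      · have h1 := (hd.hasFDerivAt.hasLineDerivAt (A v))
        have h2 : IsLocalMax (fun s : ℝ => g (v + s • A v)) 0 := .of_forall fun s => by
          simp only [hg, zero_smul, add_zero]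
          exact max_le_max le_rfl (by linarith [hA v s])
        exact h2.hasDerivAt_eq_zero h1
      · rw [fderiv_zero_of_not_differentiableAt hd]; rfl
    have htr : LinearMap.trace ℝ V A = 0 := by
      have := integral_linearField_lipschitz μ gl gs A
      simp only [hgd, integral_zero] at this
      rcases mul_eq_zero.1 this.symm with h | h
      · exact neg_eq_zero.1 h
      · exact absurd h hg0.ne'
    have hskew : ∀ ξ η : Dual ℝ V, η (M (ξ.comp A)) + η (A (M ξ)) = 0 := fun ξ η => by
      obtain ⟨C1, hC1⟩ := lipschitz_mul_compact gl gs (cl ξ).lipschitz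
      obtain ⟨C2, hC2⟩ := lipschitz_mul_compact hC1 gs.mul_right (cl η).lipschitz
      have := integral_linearField_lipschitz μ hC2 gs.mul_right.mul_right A
      rw [htr, neg_zero, zero_mul] at this
      have e1 : ∀ᵐ v ∂μ, fderiv ℝ (fun v => g v * cl ξ v * cl η v) v (A v) =
          g v * (ξ.comp A) v * η v + g v * ξ v * (η.comp A) v := by
        filter_upwards [gl.ae_differentiableAt (μ := μ)] with v d
        have d2 : DifferentiableAt ℝ (fun w => g w * cl ξ w) v := d.mul (cl ξ).differentiableAt
        rw [fderiv_fun_mul d2 (cl η).differentiableAt,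
          fderiv_fun_mul d (cl ξ).differentiableAt, (cl ξ).fderiv, (cl η).fderiv]
        simp [hgd v, cl]
        ring
      rw [integral_congr_ae e1] at this
      have i : ∀ a b : Dual ℝ V, Integrable (fun v => g v * a v * b v) μ := fun a b =>
        ((gc.mul (hcont a)).mul (hcont b)).integrable_of_hasCompactSupport gs.mul_right.mul_right
      rw [integral_add (i _ _) (i _ _), ← hM, ← hM] at this
      simpa using this
    have h1 : A (M ξ) = M (-ξ.comp A) := by
      rw [map_neg, eq_neg_iff_add_eq_zero, add_comm, ← Module.forall_dual_apply_eq_zero_iff ℝ]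
      intro η
      rw [map_add]
      exact hskew ξ η
    simp only [LinearEquiv.coe_coe, LinearEquiv.symm_apply_apply]
    rw [he ξ, h1, ← he (-ξ.comp A), LinearEquiv.symm_apply_apply]
    simp
  · obtain ⟨ξ, rfl⟩ := e.surjective u
    obtain ⟨η, rfl⟩ := e.surjective v
    have Linj : Function.Injective L := (injective_iff_map_eq_zero L).2 fun v h => by
      rw [← norm_eq_zero, ← hL v, h, norm_zero]
    let Le : V ≃ₗ[ℝ] V := LinearMap.linearEquivOfInjective L Linj rfl
    have hLe : ∀ v, Le v = L v := fun v => LinearMap.linearEquivOfInjective_apply ..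
    have hgL : ∀ v, g (L v) = g v := fun v => by simp only [hg, hL]
    obtain ⟨c, hc⟩ : ∃ c : ℝ, ∀ f : V → ℝ, Continuous f → ∫ v, f (L v) ∂μ = c * ∫ v, f v ∂μ := by
      have hdet : LinearMap.det L ≠ 0 := by
        rw [show L = Le.toLinearMap from LinearMap.ext fun v => (hLe v).symm]
        exact (LinearEquiv.isUnit_det' Le).ne_zero
      refine ⟨|(LinearMap.det L)⁻¹|, fun f hf => ?_⟩
      rw [← integral_map L.continuous_of_finiteDimensional.aemeasurable hf.aestronglyMeasurable,
        Measure.map_linearMap_addHaar_eq_smul_addHaar μ hdet, integral_smul_measure,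
        ENNReal.toReal_ofReal (abs_nonneg _), smul_eq_mul]
    have hc1 : c = 1 := by
      have := hc g gc
      simp only [hgL] at this
      exact ((mul_eq_right₀ hg0.ne').1 this.symm)
    have hinv : ∀ ξ : Dual ℝ V, L (M (ξ.comp L)) = M ξ := fun ξ => by
      rw [← sub_eq_zero, ← Module.forall_dual_apply_eq_zero_iff ℝ]
      intro η
      have h := hc (fun v => g v * ξ v * η v) ((gc.mul (hcont ξ)).mul (hcont η))
      simp only [hgL, hc1, one_mul] at h
      rw [map_sub, sub_eq_zero, show η (L (M (ξ.comp L))) = (η.comp L) (M (ξ.comp L)) from rfl,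
        hM, hM]
      exact h
    set ξ' : Dual ℝ V := ξ.comp Le.symm.toLinearMap with hξ'
    have hξ : ξ'.comp L = ξ := LinearMap.ext fun v => by
      simp [hξ', ← hLe v]
    have h1 : L (e ξ) = e ξ' := by
      rw [he, he, ← hinv ξ', hξ]
    simp only [LinearEquiv.coe_coe]
    rw [h1, LinearEquiv.symm_apply_apply, LinearEquiv.symm_apply_apply]
    rw [← LinearMap.comp_apply ξ' L, hξ]

end Vale.Agent.P084
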