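import Mathlib.Analysis.Calculus.InverseFunctionTheorem.ContDiff
import Mathlib.Analysis.Calculus.FDeriv.Prod
import Mathlib.Analysis.Normed.Module.FiniteDimension
import Mathlib.LinearAlgebra.Dimension.Finite
import Mathlib.Topology.Order.IntermediateValue
import Vale.Agent.P084.Basic
import Vale.Agent.P084.Map

/-!
Smoothness of the homogeneous extension of an isometry between smooth spheres.
-/

namespace Vale.Agent.P084

open Filter Topology

variable {X Y : Type*} [NormedAddCommGroup X] [NormedSpace ℝ X] [NormedAddCommGroup Y]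
  [NormedSpace ℝ Y]

/-- Some `q` on the sphere through `y` separates a given tangent vector. -/
lemma exists_sep (hY : ∀ z : Y, z ≠ 0 → ContDiffAt ℝ 1 (fun a : Y => ‖a‖) z) {y w : Y} (hy : y ≠ 0) (hw : w ≠ 0) (hθ : D1 y w = 0) :
    ∃ q : Y, ‖q‖ = ‖y‖ ∧ q ≠ y ∧ D1 (y - q) w ≠ 0 := by
  have hr : 0 < ‖y‖ := norm_pos_iff.2 hy
  -- choose a nearby direction with positive radial component
  have hc : ContinuousAt (fun ε : ℝ => D1 (w + ε • y) w) 0 := by
    have h1 : ContinuousAt (D1 (X := Y)) (w + (0 : ℝ) • y) := by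
      simpa using (hY w hw).continuousAt_fderiv one_ne_zero
    have h2 : ContinuousAt (fun ε : ℝ => w + ε • y) 0 := by fun_prop
    exact (h1.comp (f := fun ε : ℝ => w + ε • y) h2).clm_apply continuousAt_const
  have h0 : (0 : ℝ) < D1 (w + (0 : ℝ) • y) w := by
    rw [zero_smul, add_zero, D1, ((hY w hw).differentiableAt one_ne_zero).fderiv_norm_self]
    exact norm_pos_iff.2 hw
  obtain ⟨ε, hε, hεpos⟩ : ∃ ε : ℝ, 0 < D1 (w + ε • y) w ∧ 0 < ε := by
    have h1 : ∀ᶠ ε in 𝓝[>] (0 : ℝ), 0 < D1 (w + ε • y) w :=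
      (hc.eventually (eventually_gt_nhds h0)).filter_mono nhdsWithin_le_nhds
    exact (h1.and self_mem_nhdsWithin).exists
  set u := w + ε • y with hu
  have hθu : 0 < D1 y u := by
    rw [hu, map_add, map_smul, hθ, zero_add, D1, ((hY y hy).differentiableAt one_ne_zero).fderiv_norm_self,
      smul_eq_mul]
    exact mul_pos hεpos hr
  have hu0 : u ≠ 0 := fun h => by rw [h, map_zero] at hθu; exact hθu.false
  let g : ℝ → ℝ := fun s => ‖y - s • u‖
  have hg : HasDerivAt g (-(D1 y u)) 0 := by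
    have h1 : HasDerivAt (fun s : ℝ => y - s • u) (-u) 0 := by
      simpa using ((hasDerivAt_id (0 : ℝ)).smul_const u).const_sub y
    have h2 := ((hY y hy).differentiableAt one_ne_zero).hasFDerivAt.comp_hasDerivAt_of_eq (0 : ℝ) h1 (by simp)
    rw [map_neg] at h2
    exact h2
  obtain ⟨s₀, hs₀, hlt⟩ : ∃ s : ℝ, 0 < s ∧ g s < ‖y‖ := by
    have h1 := (hasDerivAt_iff_tendsto_slope_zero.1 hg).mono_left
      (nhdsGT_le_nhdsNE 0)
    have h2 : ∀ᶠ s in 𝓝[>] (0 : ℝ), s⁻¹ • (g (0 + s) - g 0) < 0 :=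
      h1.eventually (eventually_lt_nhds (by linarith))
    obtain ⟨s, hs, (hs0 : 0 < s)⟩ := (h2.and self_mem_nhdsWithin).exists
    refine ⟨s, hs0, ?_⟩
    rw [zero_add, smul_eq_mul] at hs
    have h3 : g s - g 0 < 0 := by
      by_contra hcon
      exact absurd hs (not_lt.2 (mul_nonneg (inv_nonneg.2 hs0.le) (not_lt.1 hcon)))
    have h4 : g 0 = ‖y‖ := by simp [g]
    linarith
  set S := s₀ + 3 * ‖y‖ / ‖u‖ with hS
  have hu1 : 0 < ‖u‖ := norm_pos_iff.2 hu0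
  have hS0 : s₀ ≤ S := by
    have : 0 ≤ 3 * ‖y‖ / ‖u‖ := by positivity
    linarith
  have hbig : ‖y‖ ≤ g S := by
    have h1 : ‖S • u‖ ≤ g S + ‖y‖ := by
      have := norm_add_le (S • u - y) y
      rwa [sub_add_cancel, norm_sub_rev] at this
    rw [norm_smul, Real.norm_of_nonneg (hs₀.le.trans hS0)] at h1
    have h2 : S * ‖u‖ = s₀ * ‖u‖ + 3 * ‖y‖ := by
      rw [hS, add_mul, div_mul_cancel₀ _ hu1.ne']
    nlinarith
  have hgc : Continuous g := by
    show Continuous fun s : ℝ => ‖y - s • u‖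
    fun_prop
  obtain ⟨s, hs, hgs⟩ := intermediate_value_Icc hS0 hgc.continuousOn ⟨hlt.le, hbig⟩
  have hs' : 0 < s := hs₀.trans_le hs.1
  refine ⟨y - s • u, hgs, ?_, ?_⟩
  · intro h
    exact smul_ne_zero hs'.ne' hu0 (sub_eq_self.1 h)
  · rw [sub_sub_cancel, D1_smul u hs']
    exact hε.ne'

/-- Finitely many points of the sphere through `y` separate the tangent hyperplane. -/
lemma exists_sep_finset [FiniteDimensional ℝ Y]
    (hY : ∀ z : Y, z ≠ 0 → ContDiffAt ℝ 1 (fun a : Y => ‖a‖) z) {y : Y} (hy : y ≠ 0) :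
    ∃ b : Finset Y, (∀ q ∈ b, ‖q‖ = ‖y‖ ∧ q ≠ y) ∧
      ∀ w, D1 y w = 0 → (∀ q ∈ b, D1 (y - q) w = 0) → w = 0 := by
  classical
  let S : Set (Y →L[ℝ] ℝ) := {ξ | ∃ q, ‖q‖ = ‖y‖ ∧ q ≠ y ∧ ξ = D1 (y - q)}
  obtain ⟨c, hcS, hspan, hli⟩ := exists_linearIndependent ℝ S
  have hfin : c.Finite := hli.setFinite
  have hch : ∀ ξ ∈ hfin.toFinset, ∃ q, ‖q‖ = ‖y‖ ∧ q ≠ y ∧ ξ = D1 (y - q) :=
    fun ξ hξ => hcS (hfin.mem_toFinset.1 hξ)
  choose q hq1 hq2 hq3 using hch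
  refine ⟨hfin.toFinset.attach.image fun ξ => q ξ.1 ξ.2, ?_, fun w hθ hw => ?_⟩
  · intro z hz
    obtain ⟨ξ, -, rfl⟩ := Finset.mem_image.1 hz
    exact ⟨hq1 _ _, hq2 _ _⟩
  · by_contra hw0
    obtain ⟨p, hp1, hp2, hp3⟩ := exists_sep hY hy hw0 hθ
    apply hp3
    have hle : Submodule.span ℝ c ≤ (ContinuousLinearMap.apply ℝ ℝ w).toLinearMap.ker := by
      refine Submodule.span_le.2 fun ξ hξ => ?_
      simp only [SetLike.mem_coe, LinearMap.mem_ker, ContinuousLinearMap.coe_coe,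
        ContinuousLinearMap.apply_apply]
      rw [hq3 ξ (hfin.mem_toFinset.2 hξ)]
      exact hw _ (Finset.mem_image.2 ⟨⟨ξ, hfin.mem_toFinset.2 hξ⟩, Finset.mem_attach _ _, rfl⟩)
    have hmem : D1 (y - p) ∈ Submodule.span ℝ c :=
      hspan ▸ Submodule.subset_span ⟨p, hp1, hp2, rfl⟩
    simpa using hle hmem

/-- The homogeneous extension is as smooth as the norms. -/
theorem IsTingley.contDiffAt_of_norms [FiniteDimensional ℝ Y] {n : ℕ} (hn1 : 1 ≤ n)
    (hX : ∀ z : X, z ≠ 0 → ContDiffAt ℝ n (fun a : X => ‖a‖) z)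
    (hY : ∀ z : Y, z ≠ 0 → ContDiffAt ℝ n (fun a : Y => ‖a‖) z)
    {T : X → Y} {T' : Y → X} (hT : IsTingley T T') {x : X} (hx : x ≠ 0) :
    ContDiffAt ℝ n T x := by
  have hn1' : (1 : WithTop ℕ∞) ≤ (n : WithTop ℕ∞) := by exact_mod_cast hn1
  have hY1 : ∀ z : Y, z ≠ 0 → ContDiffAt ℝ 1 (fun a : Y => ‖a‖) z := fun z hz =>
    (hY z hz).of_le hn1'
  have hYd : ∀ z : Y, z ≠ 0 → HasFDerivAt (fun a : Y => ‖a‖) (D1 z) z := fun z hz =>
    ((hY1 z hz).differentiableAt one_ne_zero).hasFDerivAt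
  have hy : T x ≠ 0 := hT.map_ne_zero hx
  set y := T x with hydef
  obtain ⟨b, hb, hsep⟩ := exists_sep_finset hY1 hy
  set r := ‖y‖ with hr
  have hr0 : 0 < r := norm_pos_iff.2 hy
  let Φ : Y → ℝ × (b → ℝ) := fun z => (‖z‖, fun i => ‖z - (‖z‖ / r) • (i : Y)‖)
  let Ψ : X → ℝ × (b → ℝ) := fun z => (‖z‖, fun i => ‖z - (‖z‖ / r) • T' (i : Y)‖)
  have harg : ∀ i : b, y - (‖y‖ / r) • (i : Y) ≠ 0 := fun i => by
    rw [← hr, div_self hr0.ne', one_smul, sub_ne_zero]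
    exact (hb i i.2).2.symm
  have hxr : ‖x‖ = r := by rw [hr, hydef, hT.norm_map]
  have harg' : ∀ i : b, x - (‖x‖ / r) • T' (i : Y) ≠ 0 := fun i => by
    rw [hxr, div_self hr0.ne', one_smul, sub_ne_zero]
    intro h
    apply (hb i i.2).2
    rw [hydef, h, hT.right]
  have hΦ : ContDiffAt ℝ n Φ y := (hY y hy).prodMk (contDiffAt_pi.2 fun i =>
    (hY _ (harg i)).comp y (contDiffAt_id.sub (((hY y hy).div_const r).smul contDiffAt_const)))
  have hΨ : ContDiffAt ℝ n Ψ x := (hX x hx).prodMk (contDiffAt_pi.2 fun i =>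
    (hX _ (harg' i)).comp x (contDiffAt_id.sub (((hX x hx).div_const r).smul contDiffAt_const)))
  let M : b → (Y →L[ℝ] Y) := fun i =>
    ContinuousLinearMap.id ℝ Y - ((r⁻¹ : ℝ) • D1 y).smulRight (i : Y)
  let DΦ : Y →L[ℝ] ℝ × (b → ℝ) := (D1 y).prod
    (ContinuousLinearMap.pi fun i : b => (D1 (y - (i : Y))).comp (M i))
  have hDΦ : HasFDerivAt Φ DΦ y := by
    refine (hYd y hy).prodMk (hasFDerivAt_pi.2 fun i => ?_)
    have h1 : HasFDerivAt (fun z : Y => z - (‖z‖ / r) • (i : Y)) (M i) y := by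
      refine (hasFDerivAt_id y).sub (HasFDerivAt.smul_const ?_ _)
      simpa [div_eq_inv_mul] using (hYd y hy).const_mul r⁻¹
    have h2 := (hYd _ (harg i)).comp y h1
    rwa [← hr, div_self hr0.ne', one_smul] at h2
  have hinj : Function.Injective DΦ := by
    rw [injective_iff_map_eq_zero]
    intro w hw
    obtain ⟨h1, h2⟩ := Prod.ext_iff.1 hw
    have h1' : D1 y w = 0 := h1
    refine hsep w h1' fun q hq => ?_
    have h3 : D1 (y - q) (M ⟨q, hq⟩ w) = 0 := congrFun h2 ⟨q, hq⟩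
    simpa [M, h1'] using h3
  obtain ⟨A, hA⟩ := DΦ.toLinearMap.exists_leftInverse_of_injective (DΦ.ker_eq_bot_of_injective hinj)
  set A' : ℝ × (b → ℝ) →L[ℝ] Y := LinearMap.toContinuousLinearMap A with hA'
  have hAD : A'.comp DΦ = ((ContinuousLinearEquiv.refl ℝ Y : Y ≃L[ℝ] Y) : Y →L[ℝ] Y) := by
    ext w
    exact LinearMap.congr_fun hA w
  have hG : ContDiffAt ℝ n (A' ∘ Φ) y := A'.contDiff.contDiffAt.comp y hΦ
  have hG' : HasFDerivAt (A' ∘ Φ) ((ContinuousLinearEquiv.refl ℝ Y : Y ≃L[ℝ] Y) : Y →L[ℝ] Y) y :=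
    hAD ▸ A'.hasFDerivAt.comp y hDΦ
  have hn : (n : WithTop ℕ∞) ≠ 0 := by exact_mod_cast (by omega : n ≠ 0)
  set Λ := hG.localInverse hG' hn with hΛ
  have hΛc : ContDiffAt ℝ n Λ (A' (Φ y)) := hG.to_localInverse hG' hn
  have hleft : ∀ᶠ z in 𝓝 x, Λ (A' (Φ (T z))) = T z :=
    hT.lipschitz.continuous.continuousAt.eventually
      (hG.hasStrictFDerivAt' hG' hn).eventually_left_inverse
  have hdata : ∀ z, z ≠ 0 → Φ (T z) = Ψ z := by
    intro z hz
    refine Prod.ext (hT.norm_map z) (funext fun i => ?_)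
    have hs : 0 < ‖z‖ / r := div_pos (norm_pos_iff.2 hz) hr0
    have hn' : ‖z‖ = ‖(‖z‖ / r) • T' (i : Y)‖ := by
      rw [norm_smul, hT.symm.norm_map, (hb i i.2).1, Real.norm_of_nonneg hs.le,
        div_mul_cancel₀ _ hr0.ne']
    show ‖T z - (‖T z‖ / r) • (i : Y)‖ = ‖z - (‖z‖ / r) • T' (i : Y)‖
    rw [hT.norm_map, ← hT.dist_map z _ hn', hT.homog _ _ hs, hT.right]
  have hTev : T =ᶠ[𝓝 x] fun z => Λ (A' (Ψ z)) := by
    filter_upwards [hleft, isOpen_ne.mem_nhds hx] with z hz hz0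
    rw [← hdata z hz0, hz]
  refine ContDiffAt.congr_of_eventuallyEq ?_ hTev
  have hval : A' (Ψ x) = A' (Φ y) := by rw [hydef, hdata x hx]
  exact ContDiffAt.comp x (g := Λ) (by rw [hval]; exact hΛc) (A'.contDiff.contDiffAt.comp x hΨ)

/-- The case of two norms of class `C^3`. -/
theorem IsTingley.contDiffAt [FiniteDimensional ℝ Y] (hX : SmoothNorm X) (hY : SmoothNorm Y)
    {T : X → Y} {T' : Y → X} (hT : IsTingley T T') {x : X} (hx : x ≠ 0) :
    ContDiffAt ℝ 3 T x :=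
  hT.contDiffAt_of_norms (n := 3) (by norm_num) hX hY hx

/-- The derivative of the extension and of its inverse are mutually inverse. -/
lemma IsTingley.fderiv_left [FiniteDimensional ℝ X] [FiniteDimensional ℝ Y] (hX : SmoothNorm X)
    (hY : SmoothNorm Y) {T : X → Y} {T' : Y → X} (hT : IsTingley T T') {x : X} (hx : x ≠ 0)
    (u : X) : fderiv ℝ T' (T x) (fderiv ℝ T x u) = u := by
  have h1 : HasFDerivAt T (fderiv ℝ T x) x :=
    ((hT.contDiffAt hX hY hx).differentiableAt (by norm_num)).hasFDerivAt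
  have h2 : HasFDerivAt T' (fderiv ℝ T' (T x)) (T x) :=
    ((hT.symm.contDiffAt hY hX (hT.map_ne_zero hx)).differentiableAt (by norm_num)).hasFDerivAt
  have h3 := h2.comp x h1
  rw [show T' ∘ T = id from funext hT.left] at h3
  exact congrArg (fun B : X →L[ℝ] X => B u) (h3.unique (hasFDerivAt_id x))

lemma IsTingley.fderiv_right [FiniteDimensional ℝ X] [FiniteDimensional ℝ Y] (hX : SmoothNorm X)
    (hY : SmoothNorm Y) {T : X → Y} {T' : Y → X} (hT : IsTingley T T') {x : X} (hx : x ≠ 0)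
    (v : Y) : fderiv ℝ T x (fderiv ℝ T' (T x) v) = v := by
  have := hT.symm.fderiv_left hY hX (hT.map_ne_zero hx) v
  rwa [hT.left] at this

end Vale.Agent.P084
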