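import Mathlib.Analysis.Calculus.FDeriv.Mul
import Mathlib.Analysis.Calculus.Deriv.Inv
import Mathlib.Analysis.Normed.Operator.NormedSpace
import Mathlib.Analysis.Normed.Operator.Bilinear
import Vale.Agent.P084.Regular

/-!
Identities between the jets of the homogeneous extension and of the two norms.
-/

namespace Vale.Agent.P084

open Filter Topology

variable {X Y : Type*} [NormedAddCommGroup X] [NormedSpace ℝ X] [NormedAddCommGroup Y]
  [NormedSpace ℝ Y]

/-- Second derivative of the norm of a map. -/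
lemma hess_comp {E : Type*} [NormedAddCommGroup E] [NormedSpace ℝ E] (hY : SmoothNorm Y)
    {g : E → Y} {g' : E → E →L[ℝ] Y} {g'' : E →L[ℝ] E →L[ℝ] Y} {x : E}
    (hg : ∀ᶠ y in 𝓝 x, HasFDerivAt g (g' y) y) (hg' : HasFDerivAt g' g'' x) (hx : g x ≠ 0)
    (u w : E) : fderiv ℝ (fderiv ℝ fun y => ‖g y‖) x u w
      = D2 (g x) (g' x u) (g' x w) + D1 (g x) (g'' u w) := by
  have hd : HasFDerivAt g (g' x) x := hg.self_of_nhds
  have hev : fderiv ℝ (fun y => ‖g y‖) =ᶠ[𝓝 x] fun y => (D1 (g y)).comp (g' y) := by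
    filter_upwards [hg, hd.continuousAt.eventually_ne hx] with y hy hy0
    exact ((hY.hasFDerivAt hy0).comp y hy).fderiv
  have h3 : HasFDerivAt (fun y => (D1 (g y)).comp (g' y)) _ x :=
    ((hY.hasFDerivAtD1 hx).comp x hd).clm_comp hg'
  rw [hev.fderiv_eq, h3.fderiv]
  simp [add_comm]

namespace IsTingley

variable {T : X → Y} {T' : Y → X} [FiniteDimensional ℝ Y]
variable (hX : SmoothNorm X) (hY : SmoothNorm Y) (hT : IsTingley T T') {x : X}
include hX hY hT

lemma hasFD (hx : x ≠ 0) : HasFDerivAt T (fderiv ℝ T x) x :=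
  ((hT.contDiffAt hX hY hx).differentiableAt (by norm_num)).hasFDerivAt

lemma hasFD2 (hx : x ≠ 0) : HasFDerivAt (fderiv ℝ T) (fderiv ℝ (fderiv ℝ T) x) x :=
  (((hT.contDiffAt hX hY hx).fderiv_right (m := 2) (by norm_num)).differentiableAt
    (by norm_num)).hasFDerivAt

lemma second_symm (hx : x ≠ 0) (u w : X) :
    fderiv ℝ (fderiv ℝ T) x u w = fderiv ℝ (fderiv ℝ T) x w u :=
  (hT.contDiffAt hX hY hx).isSymmSndFDerivAt (by simp; norm_num) u w

lemma D1_map (hx : x ≠ 0) (u : X) : D1 (T x) (fderiv ℝ T x u) = D1 x u := by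
  have h1 := (hY.hasFDerivAt (hT.map_ne_zero hx)).comp x (hT.hasFD hX hY hx)
  rw [show (fun z : Y => ‖z‖) ∘ T = fun z => ‖z‖ from funext hT.norm_map] at h1
  exact congrArg (fun B : X →L[ℝ] ℝ => B u) (h1.unique (hX.hasFDerivAt hx))

lemma fderiv_self (hx : x ≠ 0) : fderiv ℝ T x x = T x := by
  have hc : HasDerivAt (fun s : ℝ => x + s • x) x 0 := by
    simpa using ((hasDerivAt_id (0 : ℝ)).smul_const x).const_add x
  have h1 : HasDerivAt (fun s : ℝ => T (x + s • x)) (fderiv ℝ T x x) 0 :=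
    (hT.hasFD hX hY hx).comp_hasDerivAt_of_eq (0 : ℝ) hc (by simp)
  have h2 : HasDerivAt (fun s : ℝ => T (x + s • x)) (T x) 0 := by
    have h3 : HasDerivAt (fun s : ℝ => T x + s • T x) (T x) 0 := by
      simpa using ((hasDerivAt_id (0 : ℝ)).smul_const (T x)).const_add (T x)
    refine h3.congr_of_eventuallyEq ?_
    filter_upwards [Ioi_mem_nhds (show (-1 : ℝ) < 0 by norm_num)] with s hs
    rw [show x + s • x = (1 + s) • x by rw [add_smul, one_smul],
      hT.homog _ _ (by linarith [Set.mem_Ioi.1 hs]), add_smul, one_smul]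
  exact h1.unique h2

lemma second_self (hx : x ≠ 0) (u : X) : fderiv ℝ (fderiv ℝ T) x u x = 0 := by
  have h1 : HasFDerivAt (fun y => fderiv ℝ T y y) _ x :=
    (hT.hasFD2 hX hY hx).clm_apply (hasFDerivAt_id x)
  have h2 : HasFDerivAt (fun y => fderiv ℝ T y y) (fderiv ℝ T x) x :=
    (hT.hasFD hX hY hx).congr_of_eventuallyEq
      ((isOpen_ne.eventually_mem hx).mono fun y hy => hT.fderiv_self hX hY hy)
  have h := congrArg (fun B : X →L[ℝ] Y => B u) (h1.unique h2)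
  simpa using h

lemma second_self' (hx : x ≠ 0) (u : X) : fderiv ℝ (fderiv ℝ T) x x u = 0 := by
  rw [hT.second_symm hX hY hx, hT.second_self hX hY hx]

lemma hess_identity [StrictConvexSpace ℝ X] (hx : x ≠ 0) (u w : X) :
    D2 (T x) (fderiv ℝ T x u) (fderiv ℝ T x w) = D2 x u w ∧
      D1 (T x) (fderiv ℝ (fderiv ℝ T) x u w) = 0 := by
  have hy := hT.map_ne_zero hx
  have hev : ∀ᶠ z in 𝓝 x, HasFDerivAt T (fderiv ℝ T z) z :=
    (isOpen_ne.eventually_mem hx).mono fun z hz => hT.hasFD hX hY hz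
  have e1 : D2 (T x) (fderiv ℝ T x u) (fderiv ℝ T x w)
      + D1 (T x) (fderiv ℝ (fderiv ℝ T) x u w) = D2 x u w := by
    rw [← hess_comp hY hev (hT.hasFD2 hX hY hx) hy]
    simp only [hT.norm_map]
  -- the sum identity
  set r := ‖x‖ with hr
  have hr0 : 0 < r := norm_pos_iff.2 hx
  have hid : (fun z => ‖(r⁻¹ * ‖z‖) • T x + T z‖) = fun z => ‖(r⁻¹ * ‖z‖) • x + z‖ := by
    funext z
    rcases eq_or_ne z 0 with rfl | hz
    · simp [hT.map_zero]
    have hs : 0 < r⁻¹ * ‖z‖ := mul_pos (inv_pos.2 hr0) (norm_pos_iff.2 hz)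
    rw [← hT.homog _ _ hs, hT.add_map]
    rw [norm_smul, Real.norm_of_nonneg hs.le, ← hr, mul_right_comm, inv_mul_cancel₀ hr0.ne',
      one_mul]
  let K : Y → (X →L[ℝ] ℝ) →L[ℝ] (X →L[ℝ] Y) := fun a =>
    (ContinuousLinearMap.smulRightL ℝ X Y).flip a
  let J : X → (X →L[ℝ] ℝ) →L[ℝ] (X →L[ℝ] X) := fun a =>
    (ContinuousLinearMap.smulRightL ℝ X X).flip a
  have hn : ∀ z : X, z ≠ 0 → HasFDerivAt (fun y : X => r⁻¹ * ‖y‖) (r⁻¹ • D1 z) z := fun z hz =>
    (hX.hasFDerivAt hz).const_mul r⁻¹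
  have hg1 : ∀ᶠ z in 𝓝 x, HasFDerivAt (fun y => (r⁻¹ * ‖y‖) • T x + T y)
      ((r⁻¹ • D1 z).smulRight (T x) + fderiv ℝ T z) z :=
    (isOpen_ne.eventually_mem hx).mono fun z hz =>
      ((hn z hz).smul_const (T x)).add (hT.hasFD hX hY hz)
  have hg1' : HasFDerivAt (fun z : X => (r⁻¹ • D1 z).smulRight (T x) + fderiv ℝ T z)
      ((K (T x)).comp (r⁻¹ • D2 x) + fderiv ℝ (fderiv ℝ T) x) x :=
    ((K (T x)).hasFDerivAt.comp x ((hX.hasFDerivAtD1 hx).const_smul r⁻¹)).add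
      (hT.hasFD2 hX hY hx)
  have hg2 : ∀ᶠ z in 𝓝 x, HasFDerivAt (fun y : X => (r⁻¹ * ‖y‖) • x + y)
      ((r⁻¹ • D1 z).smulRight x + ContinuousLinearMap.id ℝ X) z :=
    (isOpen_ne.eventually_mem hx).mono fun z hz =>
      ((hn z hz).smul_const x).add (hasFDerivAt_id z)
  have hg2' : HasFDerivAt (fun z : X => (r⁻¹ • D1 z).smulRight x + ContinuousLinearMap.id ℝ X)
      ((J x).comp (r⁻¹ • D2 x)) x :=
    ((J x).hasFDerivAt.comp x ((hX.hasFDerivAtD1 hx).const_smul r⁻¹)).add_const _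
  have hv1 : (r⁻¹ * ‖x‖) • T x + T x = (2 : ℝ) • T x := by
    rw [← hr, inv_mul_cancel₀ hr0.ne', one_smul, two_smul]
  have hv2 : (r⁻¹ * ‖x‖) • x + x = (2 : ℝ) • x := by
    rw [← hr, inv_mul_cancel₀ hr0.ne', one_smul, two_smul]
  have h := hess_comp hY hg1 hg1' (by rw [hv1]; exact smul_ne_zero two_ne_zero hy) u w
  rw [hid, hess_comp hX hg2 hg2' (by rw [hv2]; exact smul_ne_zero two_ne_zero hx) u w] at h
  rw [hv1, hv2] at h
  simp only [K, J, add_apply, ContinuousLinearMap.comp_apply,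
    ContinuousLinearMap.flip_apply, ContinuousLinearMap.smulRightL_apply_apply,
    ContinuousLinearMap.smulRight_apply, smul_apply,
    ContinuousLinearMap.id_apply, smul_eq_mul, D1_smul _ two_pos, hX.D2_smul hx two_pos,
    hY.D2_smul hy two_pos, map_add, map_smul, hX.D2_self hx, hY.D2_self hy,
    hX.D2_self_right hx, hY.D2_self_right hy, hX.D1_self hx, hY.D1_self hy, hT.norm_map, ← hr,
    zero_apply, mul_zero, zero_add, add_zero] at h
  have e2 : r⁻¹ * D2 x u w * r = D2 x u w := by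
    rw [mul_right_comm, inv_mul_cancel₀ hr0.ne', one_mul]
  constructor <;> linarith

/-- The symmetric cubic form of the second jet. -/
lemma cubic_symm [StrictConvexSpace ℝ X] (hx : x ≠ 0) (z u w : X) :
    D2 (T x) (fderiv ℝ (fderiv ℝ T) x z u) (fderiv ℝ T x w)
      = D2 (T x) (fderiv ℝ (fderiv ℝ T) x z w) (fderiv ℝ T x u) := by
  have hy := hT.map_ne_zero hx
  set L := fderiv ℝ T x with hL
  set Q := fderiv ℝ (fderiv ℝ T) x with hQ
  set E := fderiv ℝ (D2 (X := X)) x with hE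
  set E' := fderiv ℝ (D2 (X := Y)) (T x) with hE'
  have hEd : HasFDerivAt (D2 (X := X)) E x :=
    ((hX.contD2 hx).differentiableAt one_ne_zero).hasFDerivAt
  have hEd' : HasFDerivAt (D2 (X := Y)) E' (T x) :=
    ((hY.contD2 hy).differentiableAt one_ne_zero).hasFDerivAt
  have key : ∀ a b c : X, E' (L a) (L b) (L c) + D2 (T x) (Q a b) (L c)
      + D2 (T x) (L b) (Q a c) = E a b c := by
    intro a b c
    have h1 : HasFDerivAt (fun y => D2 (T y) (fderiv ℝ T y b) (fderiv ℝ T y c)) _ x :=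
      (((hEd'.comp x (hT.hasFD hX hY hx)).clm_apply
        ((hT.hasFD2 hX hY hx).clm_apply (hasFDerivAt_const b x))).clm_apply
          ((hT.hasFD2 hX hY hx).clm_apply (hasFDerivAt_const c x)))
    have h2 : HasFDerivAt (fun y => D2 (T y) (fderiv ℝ T y b) (fderiv ℝ T y c)) _ x :=
      ((hEd.clm_apply (hasFDerivAt_const b x)).clm_apply
        (hasFDerivAt_const c x)).congr_of_eventuallyEq
        ((isOpen_ne.eventually_mem hx).mono fun y hy' => (hT.hess_identity hX hY hy' b c).1)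
    have h := congrArg (fun B : X →L[ℝ] ℝ => B a) (h1.unique h2)
    simp [← hL, ← hQ] at h
    linarith
  have s1 : ∀ a b : X, E a b = E b a := fun a b =>
    (hX.contD1 hx).isSymmSndFDerivAt (by simp) a b
  have s1' : ∀ a b : Y, E' a b = E' b a := fun a b =>
    (hY.contD1 hy).isSymmSndFDerivAt (by simp) a b
  have sQ : ∀ a b, Q a b = Q b a := hT.second_symm hX hY hx
  have c1 := key z u w
  have c2 := key u z w
  have c3 := key w u z
  have c4 := key u w z
  have c5 := key z w u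
  have c6 := key w z u
  have sC : ∀ a b : Y, D2 (T x) a b = D2 (T x) b a := hY.D2_symm hy
  rw [s1 z u, s1' (L z)] at c1
  rw [s1 w u, s1' (L w)] at c3
  rw [s1 z w, s1' (L z)] at c5
  rw [sC (L u) (Q z w)] at c1
  rw [sC (L z) (Q u w)] at c2
  rw [sC (L u) (Q w z)] at c3
  rw [sC (L w) (Q u z)] at c4
  rw [sC (L w) (Q z u)] at c5
  rw [sC (L z) (Q w u)] at c6
  rw [sQ u z] at c2 c4
  rw [sQ w z, sQ w u] at c3
  rw [sQ w z, sQ w u] at c6
  linarith

lemma norm_tangent (hx : x ≠ 0) {v : X} (hv : D1 x v = 0) : ‖fderiv ℝ T x v‖ = ‖v‖ := by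
  set r := ‖x‖ with hr
  have hr0 : 0 < r := norm_pos_iff.2 hx
  have hc : HasDerivAt (fun s : ℝ => x + s • v) v 0 := by
    simpa using ((hasDerivAt_id (0 : ℝ)).smul_const v).const_add x
  have hnc : HasDerivAt (fun s : ℝ => ‖x + s • v‖) 0 0 := by
    have h := (hX.hasFDerivAt hx).comp_hasDerivAt_of_eq (0 : ℝ) hc (by simp)
    rw [hv] at h
    exact h
  let γ : ℝ → X := fun s => (r * ‖x + s • v‖⁻¹) • (x + s • v)
  have hγ : HasDerivAt γ v 0 := by
    have h := ((hnc.inv (by simpa using hx)).const_mul r).smul hc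
    simpa [γ, Pi.smul_def', ← hr, mul_inv_cancel₀ hr0.ne'] using h
  have hγ0 : γ 0 = x := by simp [γ, ← hr, mul_inv_cancel₀ hr0.ne']
  have hTγ : HasDerivAt (fun s => T (γ s)) (fderiv ℝ T x v) 0 :=
    (hT.hasFD hX hY hx).comp_hasDerivAt_of_eq (0 : ℝ) hγ hγ0.symm
  have l1 := (hasDerivAt_iff_tendsto_slope_zero.1 hTγ).norm
  have l2 := (hasDerivAt_iff_tendsto_slope_zero.1 hγ).norm
  refine tendsto_nhds_unique l1 (l2.congr' ?_)
  have hne : ∀ᶠ s in 𝓝[≠] (0 : ℝ), x + s • v ≠ 0 :=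
    (hc.continuousAt.eventually_ne (by simpa using hx)).filter_mono nhdsWithin_le_nhds
  filter_upwards [hne] with s hs
  have hn : ‖γ (0 + s)‖ = ‖γ 0‖ := by
    rw [hγ0, zero_add, ← hr, norm_smul, Real.norm_of_nonneg
      (mul_nonneg hr0.le (inv_nonneg.2 (norm_nonneg _))), mul_assoc,
      inv_mul_cancel₀ (norm_ne_zero_iff.2 hs), mul_one]
  rw [norm_smul, norm_smul, hT.dist_map _ _ hn]

lemma tangent_identity (hx : x ≠ 0) {v : X} (hv : v ≠ 0) (hθ : D1 x v = 0) (u : X) :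
    D1 (fderiv ℝ T x v) (fderiv ℝ (fderiv ℝ T) x u v)
      = D2 x u v * (‖x‖⁻¹ * (D1 (fderiv ℝ T x v) (T x) - D1 v x)) := by
  have hLv : fderiv ℝ T x v ≠ 0 := by
    rw [← norm_ne_zero_iff, hT.norm_tangent hX hY hx hθ]
    exact norm_ne_zero_iff.2 hv
  let a : X → ℝ := fun y => ‖y‖⁻¹ * D1 y v
  have ha0 : a x = 0 := by simp [a, hθ]
  have ha : HasFDerivAt a (‖x‖⁻¹ • (D2 x).flip v) x := by
    have h1 := (hasFDerivAt_inv (norm_ne_zero_iff.2 hx)).comp x (hX.hasFDerivAt hx)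
    have h2 := (hX.hasFDerivAtD1 hx).clm_apply (hasFDerivAt_const v x)
    have h3 : HasFDerivAt a _ x := h1.mul h2
    simpa [hθ] using h3
  have hid : (fun y => ‖fderiv ℝ T y v - a y • T y‖) =ᶠ[𝓝 x] fun y => ‖v - a y • y‖ := by
    filter_upwards [isOpen_ne.eventually_mem hx] with y hy
    have hV : D1 y (v - a y • y) = 0 := by
      rw [map_sub, map_smul, hX.D1_self hy, smul_eq_mul, mul_right_comm,
        inv_mul_cancel₀ (norm_ne_zero_iff.2 hy), one_mul, sub_self]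
    rw [← hT.norm_tangent hX hY hy hV, map_sub, map_smul, hT.fderiv_self hX hY hy]
  have h1 := (((hT.hasFD2 hX hY hx).clm_apply (hasFDerivAt_const v x)).sub
    (ha.smul (hT.hasFD hX hY hx)))
  have h2 : HasFDerivAt (fun y : X => v - a y • y) _ x :=
    (hasFDerivAt_const v x).sub (ha.smul (hasFDerivAt_id x))
  have hd1 : HasFDerivAt (fun z : Y => ‖z‖) (D1 (fderiv ℝ T x v))
      (((fun y => fderiv ℝ T y v) - a • T) x) := by
    rw [show ((fun y => fderiv ℝ T y v) - a • T) x = fderiv ℝ T x v by simp [ha0]]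
    exact hY.hasFDerivAt hLv
  have hd2 : HasFDerivAt (fun z : X => ‖z‖) (D1 v)
      ((fun y : X => v - a y • y) x) := by
    rw [show (fun y : X => v - a y • y) x = v by simp [ha0]]
    exact hX.hasFDerivAt hv
  have H1 : HasFDerivAt (fun y => ‖fderiv ℝ T y v - a y • T y‖) _ x :=
    hd1.comp x h1
  have H2 : HasFDerivAt (fun y => ‖fderiv ℝ T y v - a y • T y‖) _ x :=
    (hd2.comp x h2).congr_of_eventuallyEq hid
  have h := congrArg (fun B : X →L[ℝ] ℝ => B u) (H1.unique H2)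
  simp [ha0] at h
  linarith

end IsTingley

end Vale.Agent.P084
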