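import Mathlib.Analysis.InnerProductSpace.PiL2
import Mathlib.Analysis.InnerProductSpace.Dual
import Mathlib.LinearAlgebra.QuadraticForm.Basic
import Mathlib.LinearAlgebra.Basis.SMul
import Vale.Agent.P084.Cubic
import Vale.Agent.P084.Jets

/-!
The second jet of the extension vanishes at points of positive curvature.
-/

namespace Vale.Agent.P084

open Filter Topology
open scoped RealInnerProductSpace

/-- A positive definite symmetric form has an orthonormal coordinate system. -/
lemma exists_orth_coord {W : Type*} [AddCommGroup W] [Module ℝ W] [FiniteDimensional ℝ W]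
    (B : W →ₗ[ℝ] W →ₗ[ℝ] ℝ) (hsymm : ∀ a b, B a b = B b a) (hpos : ∀ a, a ≠ 0 → 0 < B a a) :
    ∃ e : EuclideanSpace ℝ (Fin (Module.finrank ℝ W)) ≃ₗ[ℝ] W,
      ∀ a b, B (e a) (e b) = ⟪a, b⟫ := by
  obtain ⟨v, hv⟩ := LinearMap.BilinForm.exists_orthogonal_basis (B := B) ⟨hsymm⟩
  have hp : ∀ i, 0 < B (v i) (v i) := fun i => hpos _ (v.ne_zero i)
  let v' := v.isUnitSMul (w := fun i => (Real.sqrt (B (v i) (v i)))⁻¹)
    (fun i => isUnit_iff_ne_zero.2 (inv_ne_zero (Real.sqrt_pos.2 (hp i)).ne'))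
  let eb := (EuclideanSpace.basisFun (Fin (Module.finrank ℝ W)) ℝ).toBasis
  let e := eb.equiv v' (Equiv.refl _)
  refine ⟨e, fun a b => ?_⟩
  have key : B.compl₁₂ e.toLinearMap e.toLinearMap
      = innerₗ (EuclideanSpace ℝ (Fin (Module.finrank ℝ W))) := by
    refine eb.ext fun i => eb.ext fun j => ?_
    have he : ∀ i, e (eb i) = (Real.sqrt (B (v i) (v i)))⁻¹ • v i := fun i => by
      simp only [e, Module.Basis.equiv_apply, Equiv.refl_apply, v', Module.Basis.isUnitSMul_apply]
    have hi : innerₗ (EuclideanSpace ℝ (Fin (Module.finrank ℝ W))) (eb i) (eb j)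
        = if i = j then 1 else 0 := by
      rw [innerₗ_apply_apply]
      simp only [eb, OrthonormalBasis.coe_toBasis]
      exact orthonormal_iff_ite.1
        (EuclideanSpace.basisFun (Fin (Module.finrank ℝ W)) ℝ).orthonormal i j
    rw [hi]
    simp only [LinearMap.compl₁₂_apply, LinearEquiv.coe_coe, he, map_smul, LinearMap.smul_apply,
      smul_eq_mul]
    by_cases h : i = j
    · subst h
      rw [if_pos rfl, ← mul_assoc, ← mul_inv, Real.mul_self_sqrt (hp i).le,
        inv_mul_cancel₀ (hp i).ne']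
    · rw [if_neg h, show B (v i) (v j) = 0 from hv h, mul_zero, mul_zero]
  have := LinearMap.congr_fun (LinearMap.congr_fun key a) b
  simpa using this

variable {X Y : Type*} [NormedAddCommGroup X] [NormedSpace ℝ X] [NormedAddCommGroup Y]
  [NormedSpace ℝ Y]

namespace IsTingley

/-- The second derivative vanishes where the curvature is positive. -/
theorem second_zero [FiniteDimensional ℝ X] [FiniteDimensional ℝ Y] [StrictConvexSpace ℝ X]
    (hX : SmoothNorm X) (hY : SmoothNorm Y) {T : X → Y} {T' : Y → X} (hT : IsTingley T T')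
    (hdim : 3 ≤ Module.finrank ℝ X) {x : X} (hx : x ≠ 0)
    (hnd : ∀ w, D1 x w = 0 → w ≠ 0 → 0 < D2 x w w) :
    fderiv ℝ (fderiv ℝ T) x = 0 := by
  have hy := hT.map_ne_zero hx
  set L := fderiv ℝ T x with hL
  set L' := fderiv ℝ T' (T x) with hL'
  set Q := fderiv ℝ (fderiv ℝ T) x with hQ
  have hLR : ∀ v, L (L' v) = v := hT.fderiv_right hX hY hx
  have hid : ∀ a b, D2 (T x) (L a) (L b) = D2 x a b ∧ D1 (T x) (Q a b) = 0 :=
    hT.hess_identity hX hY hx
  let W : Submodule ℝ X := (D1 x).toLinearMap.ker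
  have hW : ∀ {a : X}, a ∈ W ↔ D1 x a = 0 := LinearMap.mem_ker
  have hfr : 2 ≤ Module.finrank ℝ W := by
    have h1 := (D1 x).toLinearMap.finrank_range_add_finrank_ker
    have h2 := Submodule.finrank_le (D1 x).toLinearMap.range
    rw [Module.finrank_self] at h2
    show 2 ≤ Module.finrank ℝ (D1 x).toLinearMap.ker
    omega
  let B : W →ₗ[ℝ] W →ₗ[ℝ] ℝ := LinearMap.mk₂ ℝ (fun a b : W => D2 x (a : X) (b : X))
    (by simp) (by simp) (by simp) (by simp)
  have hB : ∀ a b : W, B a b = D2 x (a : X) (b : X) := fun _ _ => rfl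
  obtain ⟨e, he⟩ := exists_orth_coord B (fun a b => hX.D2_symm hx a b) (fun a ha =>
    hnd a (hW.1 a.2) (fun h => ha (Subtype.ext h)))
  have hmem : ∀ a b : X, L' (Q a b) ∈ W := fun a b => by
    rw [hW, ← hT.D1_map hX hY hx, ← hL, hLR]
    exact (hid a b).2
  let q : EuclideanSpace ℝ (Fin (Module.finrank ℝ W)) →ₗ[ℝ]
      EuclideanSpace ℝ (Fin (Module.finrank ℝ W)) →ₗ[ℝ]
      EuclideanSpace ℝ (Fin (Module.finrank ℝ W)) :=
    LinearMap.mk₂ ℝ (fun a b => e.symm ⟨L' (Q (e a : X) (e b : X)), hmem _ _⟩)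
      (fun a a' b => by rw [← map_add]; congr 1; ext; simp)
      (fun c a b => by rw [← map_smul]; congr 1; ext; simp)
      (fun a b b' => by rw [← map_add]; congr 1; ext; simp)
      (fun c a b => by rw [← map_smul]; congr 1; ext; simp)
  have hqa : ∀ a b, (e (q a b) : X) = L' (Q (e a : X) (e b : X)) := fun a b => by simp [q]
  have hinner : ∀ a b c, ⟪q a b, c⟫ = D2 (T x) (Q (e a : X) (e b : X)) (L (e c : X)) := by
    intro a b c
    rw [← he, hB, hqa, ← (hid _ _).1, hLR]
  let p : EuclideanSpace ℝ (Fin (Module.finrank ℝ W)) →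
      EuclideanSpace ℝ (Fin (Module.finrank ℝ W)) := fun v =>
    (InnerProductSpace.toDual ℝ (EuclideanSpace ℝ (Fin (Module.finrank ℝ W)))).symm
      ((D1 (L (e v : X))).comp
        (L.comp (LinearMap.toContinuousLinearMap (W.subtype ∘ₗ e.toLinearMap))))
  have hp : ∀ v u, ⟪p v, u⟫ = D1 (L (e v : X)) (L (e u : X)) := fun v u => by
    simp [p, InnerProductSpace.toDual_symm_apply]
  have hne : ∀ v : EuclideanSpace ℝ (Fin (Module.finrank ℝ W)), v ≠ 0 →
      (e v : X) ≠ 0 ∧ L (e v : X) ≠ 0 := by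
    intro v hv
    have h1 : (e v : X) ≠ 0 := fun h => hv (e.map_eq_zero_iff.1 (Subtype.ext h))
    refine ⟨h1, fun h => h1 ?_⟩
    have h3 : L' (L (e v : X)) = (e v : X) := hT.fderiv_left hX hY hx _
    rw [← h3, h]
    exact L'.map_zero
  have hq0 : ∀ a b, q a b = 0 := by
    refine cubic_vanish (p := p) (by rw [finrank_euclideanSpace_fin]; exact hfr) ?_ ?_ ?_ ?_ ?_
    · intro a b
      apply ext_inner_right ℝ
      intro c
      rw [hinner, hinner, hT.second_symm hX hY hx]
    · intro a b c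
      rw [real_inner_comm (q a c) b, hinner, hinner]
      exact hT.cubic_symm hX hY hx _ _ _
    · intro v hv
      have h1 : ContinuousAt (fun v => D1 (L (e v : X))) v := by
        refine ((hY.contD1 (hne v hv).2).continuousAt).comp (f := fun v => L (e v : X)) ?_
        exact (L.continuous.comp (continuous_subtype_val.comp
          e.toLinearMap.continuous_of_finiteDimensional)).continuousAt
      exact ((InnerProductSpace.toDual ℝ _).symm.continuous.continuousAt).comp
        (h1.clm_comp continuousAt_const)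
    · intro v hv
      rw [hp, hY.D1_self (hne v hv).2]
      exact norm_pos_iff.2 (hne v hv).2
    · intro v hv
      refine ⟨‖x‖⁻¹ * (D1 (L (e v : X)) (T x) - D1 (e v : X) x), fun u => ?_⟩
      rw [hp, hqa, hLR, ← he, hB, mul_comm (‖x‖⁻¹ * _)]
      exact hT.tangent_identity hX hY hx (hne v hv).1 (hW.1 (e v).2) (e u : X)
  have hQW : ∀ a ∈ W, ∀ b ∈ W, Q a b = 0 := by
    intro a ha b hb
    have h := hqa (e.symm ⟨a, ha⟩) (e.symm ⟨b, hb⟩)
    rw [hq0] at h
    simp only [LinearEquiv.map_zero, ZeroMemClass.coe_zero, LinearEquiv.apply_symm_apply] at h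
    rw [← hLR (Q a b), ← h]
    exact L.map_zero
  have hsplit : ∀ a : X, ∃ t : ℝ, ∃ w ∈ W, a = t • x + w := fun a => by
    refine ⟨D1 x a / ‖x‖, a - (D1 x a / ‖x‖) • x, hW.2 ?_, by abel⟩
    rw [map_sub, map_smul, hX.D1_self hx, smul_eq_mul,
      div_mul_cancel₀ _ (norm_ne_zero_iff.2 hx), sub_self]
  refine ContinuousLinearMap.ext fun a => ContinuousLinearMap.ext fun b => ?_
  obtain ⟨s, a', ha', rfl⟩ := hsplit a
  obtain ⟨t, b', hb', rfl⟩ := hsplit b
  have e1 : ∀ u, Q x u = 0 := hT.second_self' hX hY hx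
  have e2 : ∀ u, Q u x = 0 := hT.second_self hX hY hx
  simp [hQW a' ha' b' hb', e1, e2]

end IsTingley

end Vale.Agent.P084
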