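import Mathlib.Analysis.Normed.Group.Quotient
import Mathlib.Analysis.Normed.Module.HahnBanach
import Vale.Agent.P084.Pointwise
import Vale.Agent.P084.InvFormGen
import Vale.Agent.P084.CubicGen

/-!
Algebra of a second jet, for an arbitrary norm.
-/

namespace Vale.Agent.P084

open Module
open scoped RealInnerProductSpace

section

variable {E : Type*} [NormedAddCommGroup E] [NormedSpace ℝ E] [FiniteDimensional ℝ E]
  (φ : E →L[ℝ] ℝ) {x : E} (hφx : φ x ≠ 0)
  (H : E →L[ℝ] E →L[ℝ] ℝ) (q : E →L[ℝ] E →L[ℝ] E) (hHs : ∀ u v, H u v = H v u)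
  (hH0 : ∀ v, 0 ≤ H v v) (hHx : ∀ u, H u x = 0) (hqs : ∀ u v, q u v = q v u)
  (hqφ : ∀ u v, φ (q u v) = 0) (hqx : ∀ u, q u x = 0)
  (hC : ∀ z u w, H (q z u) w = H (q z w) u)
  (hmin : ∀ u v, φ v = 0 → H u v = 0 → ∀ s : ℝ, ‖v‖ ≤ ‖v + s • q u v‖)

/-- A norming functional which kills a subspace to which `v` is orthogonal. -/
lemma exists_norming_killing {v : E} (hv : v ≠ 0) (S : Submodule ℝ E)
    (h : ∀ w ∈ S, ‖v‖ ≤ ‖v + w‖) :
    ∃ P : E →L[ℝ] ℝ, P v = ‖v‖ ∧ (∀ u, |P u| ≤ ‖u‖) ∧ ∀ w ∈ S, P w = 0 := by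
  have hS : IsClosed (S : Set E) := S.closed_of_finiteDimensional
  have hle : ∀ u, ‖S.mkQ u‖ ≤ ‖u‖ := fun u => Submodule.Quotient.norm_mk_le S u
  have hn : ‖S.mkQ v‖ = ‖v‖ := by
    refine le_antisymm (hle v) (le_of_forall_pos_le_add fun ε hε => ?_)
    obtain ⟨m, hm, hlt⟩ := Submodule.Quotient.norm_mk_lt (S.mkQ v) hε
    have hmem : m - v ∈ S := (Submodule.Quotient.eq S).1 hm
    have := h _ hmem
    rw [add_sub_cancel] at this
    linarith
  have hv' : ‖S.mkQ v‖ ≠ 0 := by rw [hn]; exact norm_ne_zero_iff.2 hv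
  obtain ⟨g, hg1, hgv⟩ := exists_dual_vector ℝ (S.mkQ v) hv'
  refine ⟨g.comp (S.mkQ.mkContinuous 1 fun u => by rw [one_mul]; exact hle u), ?_,
    fun u => ?_, fun w hw => ?_⟩
  · simp only [ContinuousLinearMap.comp_apply, LinearMap.mkContinuous_apply, hgv, hn]
    norm_num
  · simp only [ContinuousLinearMap.comp_apply, LinearMap.mkContinuous_apply, ← Real.norm_eq_abs]
    refine (g.le_opNorm _).trans ?_
    rw [hg1, one_mul]
    exact hle u
  · simp only [ContinuousLinearMap.comp_apply, LinearMap.mkContinuous_apply, Submodule.mkQ_apply]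
    rw [(Submodule.Quotient.mk_eq_zero S).2 hw, map_zero]

set_option linter.unusedSectionVars false in
include hφx hHs hH0 hHx hqs hqφ hqx hC hmin in
/-- The second jet kills flat directions. -/
theorem jet_kernel {k : E} (hk : φ k = 0) (hHk : H k = 0) : q k = 0 := by
  obtain ⟨B, hBs, hBp, hBi, -⟩ := exists_invariant_form_gen (V := φ.toLinearMap.ker)
  let A : E → (φ.toLinearMap.ker →ₗ[ℝ] φ.toLinearMap.ker) := fun a =>
    LinearMap.codRestrict _ ((q a).toLinearMap ∘ₗ φ.toLinearMap.ker.subtype)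
      (fun v => LinearMap.mem_ker.2 (hqφ a v))
  have hA : ∀ a v, (A a v : E) = q a (v : E) := fun _ _ => rfl
  have hflat : ∀ {a : E}, H a = 0 → ∀ z, H (q a z) = 0 := by
    intro a ha z
    ext w
    rw [hqs a z, hC, hHs, ha]
    simp
  have hskew : ∀ {a : E}, H a = 0 → ∀ u v, B (A a u) v + B u (A a v) = 0 := by
    intro a ha
    refine hBi _ fun v s => ?_
    rw [Submodule.coe_norm, Submodule.coe_norm, Submodule.coe_add, Submodule.coe_smul, hA]
    exact hmin a v (LinearMap.mem_ker.1 v.2) (by rw [ha]; simp) s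
  have hAsymm : ∀ a b : φ.toLinearMap.ker, A (a : E) b = A (b : E) a := fun a b =>
    Subtype.ext (by rw [hA, hA, hqs])
  have hBzero : ∀ v, B v v = 0 → v = 0 := fun v hv => by
    by_contra h
    exact (hBp v h).ne' hv
  -- on the flat directions
  have hKK : ∀ a b : φ.toLinearMap.ker, H (a : E) = 0 → H (b : E) = 0 → A (a : E) b = 0 := by
    intro a b ha hb
    set c := A (a : E) b with hc
    have hc' : H (c : E) = 0 := hflat ha _
    have s1 := hskew ha b c
    have s2 := hskew hc' a b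
    have s3 := hskew hb c a
    rw [← hc] at s1
    rw [hAsymm c a, hAsymm c b] at s2
    rw [hAsymm b a, ← hc] at s3
    exact hBzero c (by linarith [hBs b (A (a : E) c), hBs a (A (b : E) c)])
  have hW0 : ∀ v : φ.toLinearMap.ker, A k v = 0 := by
    intro v
    have h1 : A k (A k v) = 0 := hKK ⟨k, LinearMap.mem_ker.2 hk⟩ (A k v) hHk (hflat hHk _)
    have h2 := hskew hHk v (A k v)
    rw [h1, LinearMap.map_zero, add_zero] at h2
    exact hBzero _ h2
  refine ContinuousLinearMap.ext fun b => ?_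
  have hb : b - (φ b / φ x) • x ∈ φ.toLinearMap.ker := LinearMap.mem_ker.2 (by
    rw [ContinuousLinearMap.coe_coe, map_sub, map_smul, smul_eq_mul, div_mul_cancel₀ _ hφx,
      sub_self])
  have h3 := congrArg (fun v : φ.toLinearMap.ker => (v : E)) (hW0 ⟨_, hb⟩)
  simpa [hA, hqx] using h3

set_option linter.unusedSectionVars false in
include hφx hHs hH0 hHx hqs hqφ hqx hC hmin in
/-- The second jet vanishes where the curvature is positive. -/
theorem jet_zero (hdim : 3 ≤ Module.finrank ℝ E)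
    (hpos : ∀ w, φ w = 0 → w ≠ 0 → 0 < H w w) : q = 0 := by
  let W : Submodule ℝ E := φ.toLinearMap.ker
  have hW : ∀ {a : E}, a ∈ W ↔ φ a = 0 := LinearMap.mem_ker
  have hfr : 2 ≤ Module.finrank ℝ W := by
    have h1 := φ.toLinearMap.finrank_range_add_finrank_ker
    have h2 := Submodule.finrank_le φ.toLinearMap.range
    rw [Module.finrank_self] at h2
    show 2 ≤ Module.finrank ℝ φ.toLinearMap.ker
    omega
  let B : W →ₗ[ℝ] W →ₗ[ℝ] ℝ := LinearMap.mk₂ ℝ (fun a b : W => H (a : E) (b : E))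
    (by simp) (by simp) (by simp) (by simp)
  have hB : ∀ a b : W, B a b = H (a : E) (b : E) := fun _ _ => rfl
  obtain ⟨e, he⟩ := exists_orth_coord B (fun a b => hHs a b)
    (fun a ha => hpos a (hW.1 a.2) (fun h => ha (Subtype.ext h)))
  let q' : EuclideanSpace ℝ (Fin (Module.finrank ℝ W)) →ₗ[ℝ]
      EuclideanSpace ℝ (Fin (Module.finrank ℝ W)) →ₗ[ℝ]
      EuclideanSpace ℝ (Fin (Module.finrank ℝ W)) :=
    LinearMap.mk₂ ℝ (fun a b => e.symm ⟨q (e a : E) (e b : E), hW.2 (hqφ _ _)⟩)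
      (fun a a' b => by rw [← map_add]; congr 1; ext; simp)
      (fun c a b => by rw [← map_smul]; congr 1; ext; simp)
      (fun a b b' => by rw [← map_add]; congr 1; ext; simp)
      (fun c a b => by rw [← map_smul]; congr 1; ext; simp)
  have hqa : ∀ a b, (e (q' a b) : E) = q (e a : E) (e b : E) := fun a b => by simp [q']
  have hinner : ∀ a b c, ⟪q' a b, c⟫ = H (q (e a : E) (e b : E)) (e c : E) := fun a b c => by
    rw [← he, hB, hqa]
  have hne : ∀ v : EuclideanSpace ℝ (Fin (Module.finrank ℝ W)), v ≠ 0 → (e v : E) ≠ 0 :=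
    fun v hv h => hv (e.map_eq_zero_iff.1 (Subtype.ext h))
  -- the norming covectors
  have hsel : ∀ v : EuclideanSpace ℝ (Fin (Module.finrank ℝ W)), ∃ P : E →L[ℝ] ℝ, v ≠ 0 →
      P (e v : E) = ‖(e v : E)‖ ∧ (∀ u, |P u| ≤ ‖u‖) ∧
        ∀ u, H u (e v : E) = 0 → P (q u (e v : E)) = 0 := by
    intro v
    rcases eq_or_ne v 0 with hv | hv
    · exact ⟨0, fun h => absurd hv h⟩
    let S : Submodule ℝ E :=
      Submodule.map (q.flip (e v : E)).toLinearMap (H.flip (e v : E)).toLinearMap.ker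
    obtain ⟨P, h1, h2, h3⟩ := exists_norming_killing (hne v hv) S fun w hw => by
      obtain ⟨u, hu, rfl⟩ := Submodule.mem_map.1 hw
      simpa using hmin u (e v : E) (hW.1 (e v).2) (by simpa using hu) 1
    exact ⟨P, fun _ => ⟨h1, h2, fun u hu => h3 _
      (Submodule.mem_map.2 ⟨u, by simpa using hu, by simp⟩)⟩⟩
  choose P hP using hsel
  let p : EuclideanSpace ℝ (Fin (Module.finrank ℝ W)) →
      EuclideanSpace ℝ (Fin (Module.finrank ℝ W)) := fun v =>
    (InnerProductSpace.toDual ℝ (EuclideanSpace ℝ (Fin (Module.finrank ℝ W)))).symm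
      ((P v).comp (LinearMap.toContinuousLinearMap (W.subtype ∘ₗ e.toLinearMap)))
  have hp : ∀ v u, ⟪p v, u⟫ = P v (e u : E) := fun v u => by
    simp [p, InnerProductSpace.toDual_symm_apply]
  have hq0 : ∀ a b, q' a b = 0 := by
    refine cubic_vanish_gen (p := p)
      (N := (normSeminorm ℝ E).comp (W.subtype ∘ₗ e.toLinearMap))
      (by rw [finrank_euclideanSpace_fin]; exact hfr) ?_ ?_ ?_ ?_ ?_ ?_
    · intro a b
      apply ext_inner_right ℝ
      intro c
      rw [hinner, hinner, hqs]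
    · intro a b c
      rw [real_inner_comm (q' a c) b, hinner, hinner]
      exact hC _ _ _
    · intro v hv
      simpa using hne v hv
    · intro v hv
      rw [hp, (hP v hv).1]
      simp
    · intro v hv u
      rw [hp]
      simpa using (hP v hv).2.1 (e u : E)
    · intro v hv
      have hvv : 0 < H (e v : E) (e v : E) := hpos _ (hW.1 (e v).2) (hne v hv)
      refine ⟨P v (q (e v : E) (e v : E)) / H (e v : E) (e v : E), fun u => ?_⟩
      rw [hp, hqa, ← he, hB]
      have := (hP v hv).2.2 ((e u : E) - (H (e u : E) (e v : E) / H (e v : E) (e v : E)) • (e v : E))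
        (by simp [hvv.ne'])
      simp only [map_sub, map_smul, _root_.sub_apply, _root_.smul_apply,
        smul_eq_mul, sub_eq_zero] at this
      rw [this]
      ring
  have hQW : ∀ a ∈ W, ∀ b ∈ W, q a b = 0 := by
    intro a ha b hb
    have h := hqa (e.symm ⟨a, ha⟩) (e.symm ⟨b, hb⟩)
    rw [hq0] at h
    simpa using h.symm
  have hsplit : ∀ a : E, ∃ t : ℝ, ∃ w ∈ W, a = t • x + w := fun a => by
    refine ⟨φ a / φ x, a - (φ a / φ x) • x, hW.2 ?_, by abel⟩
    rw [map_sub, map_smul, smul_eq_mul, div_mul_cancel₀ _ hφx, sub_self]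
  refine ContinuousLinearMap.ext fun a => ContinuousLinearMap.ext fun b => ?_
  obtain ⟨s, a', ha', rfl⟩ := hsplit a
  obtain ⟨t, b', hb', rfl⟩ := hsplit b
  have e1 : ∀ u, q x u = 0 := fun u => by rw [hqs, hqx]
  simp [hQW a' ha' b' hb', e1, hqx]

end

end Vale.Agent.P084
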