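import Mathlib.Analysis.Calculus.FDeriv.Mul
import Mathlib.Analysis.Calculus.Deriv.Inv
import Mathlib.Analysis.Normed.Operator.NormedSpace
import Mathlib.Analysis.Normed.Operator.Bilinear
import Mathlib.Analysis.Calculus.FDeriv.Symmetric
import Vale.Agent.P084.C1Gen

/-!
Second jets of the extension at points where its derivative is not a linear isometry.
-/

namespace Vale.Agent.P084

open Filter Topology Metric

section Norm

variable {E : Type*} [NormedAddCommGroup E] [NormedSpace ℝ E]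

/-- A second derivative of a norm at a point. -/
def HessAt (x : E) (H : E →L[ℝ] E →L[ℝ] ℝ) : Prop := HasFDerivAt (D1 (X := E)) H x

variable {x : E} (hE : ∀ᶠ z in 𝓝 x, DifferentiableAt ℝ (fun w : E => ‖w‖) z) {H : E →L[ℝ] E →L[ℝ] ℝ}
include hE

omit hE in
lemma norm_D1_self {z : E} (h : DifferentiableAt ℝ (fun w : E => ‖w‖) z) : D1 z z = ‖z‖ :=
  h.fderiv_norm_self

omit hE in
lemma hessAt_self (hx : x ≠ 0) (hH : HessAt x H) : H x = 0 := by
  have hc : HasDerivAt (fun s : ℝ => x + s • x) x 0 := by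
    simpa using ((hasDerivAt_id (0 : ℝ)).smul_const x).const_add x
  have h1 : HasDerivAt (fun s : ℝ => D1 (x + s • x)) (H x) 0 :=
    HasFDerivAt.comp_hasDerivAt_of_eq (0 : ℝ) hH hc (by simp)
  have h2 : HasDerivAt (fun s : ℝ => D1 (x + s • x)) 0 0 := by
    refine (hasDerivAt_const (0 : ℝ) (D1 x)).congr_of_eventuallyEq ?_
    filter_upwards [Ioi_mem_nhds (show (-1 : ℝ) < 0 by norm_num)] with s hs
    rw [show x + s • x = (1 + s) • x by rw [add_smul, one_smul]]
    exact D1_smul x (by linarith [Set.mem_Ioi.1 hs])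
  exact h1.unique h2

lemma hessAt_symm (hx : x ≠ 0) (hH : HessAt x H) (u w : E) : H u w = H w u :=
  second_derivative_symmetric_of_eventually_of_real
    (hE.mono fun z hz => hz.hasFDerivAt) hH u w

lemma hessAt_self_right (hx : x ≠ 0) (hH : HessAt x H) (u : E) : H u x = 0 := by
  rw [hessAt_symm hE hx hH, hessAt_self hx hH]
  rfl

omit hE in
lemma hessAt_smul (hH : HessAt x H) {s : ℝ} (hs : 0 < s) : HessAt (s • x) (s⁻¹ • H) := by
  have h1 : HasFDerivAt (fun z : E => D1 (s⁻¹ • z))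
      (H.comp (s⁻¹ • ContinuousLinearMap.id ℝ E)) (s • x) :=
    HasFDerivAt.comp (s • x) (by rw [inv_smul_smul₀ hs.ne']; exact hH)
      ((hasFDerivAt_id _).const_smul s⁻¹)
  refine (h1.congr_of_eventuallyEq (Eventually.of_forall fun z => ?_)).congr_fderiv ?_
  · exact (D1_smul z (inv_pos.2 hs)).symm
  · ext u v
    simp

lemma hessAt_nonneg (hx : x ≠ 0) (hH : HessAt x H) (w : E) : 0 ≤ H w w := by
  have hc : HasDerivAt (fun s : ℝ => x + s • w) w 0 := by
    simpa using ((hasDerivAt_id (0 : ℝ)).smul_const w).const_add x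
  have h1 : HasDerivAt (fun s : ℝ => D1 (x + s • w) w) (H w w) 0 := by
    have h : HasDerivAt (fun s : ℝ => D1 (x + s • w)) (H w) 0 :=
      HasFDerivAt.comp_hasDerivAt_of_eq (0 : ℝ) hH hc (by simp)
    simpa using h.clm_apply (hasDerivAt_const (0 : ℝ) w)
  refine ge_of_tendsto (hasDerivAt_iff_tendsto_slope_zero.1 h1) ?_
  have hev : ∀ᶠ s in 𝓝[≠] (0 : ℝ), x + s • w ≠ 0 :=
    (hc.continuousAt.eventually_ne (by simpa using hx)).filter_mono nhdsWithin_le_nhds
  have hev' : ∀ᶠ s in 𝓝[≠] (0 : ℝ), DifferentiableAt ℝ (fun w : E => ‖w‖) (x + s • w) := by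
    have h0 : Tendsto (fun s : ℝ => x + s • w) (𝓝 0) (𝓝 x) := by
      simpa using hc.continuousAt.tendsto
    exact (h0.eventually hE).filter_mono nhdsWithin_le_nhds
  filter_upwards [hev, hev', self_mem_nhdsWithin] with s hs hsd (hs0 : s ≠ 0)
  have e1 := D1_le x (x + s • w)
  have e2 := D1_le (x + s • w) x
  have e3 : D1 (x + s • w) (x + s • w) = ‖x + s • w‖ := norm_D1_self hsd
  rw [map_add, map_smul, norm_D1_self hE.self_of_nhds, smul_eq_mul] at e1
  rw [map_add, map_smul, smul_eq_mul] at e3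
  simp only [zero_add, zero_smul, add_zero, smul_eq_mul]
  have h4 : 0 ≤ s * (D1 (x + s • w) w - D1 x w) := by linarith
  have h5 : s⁻¹ * (D1 (x + s • w) w - D1 x w) =
      (s⁻¹) ^ 2 * (s * (D1 (x + s • w) w - D1 x w)) := by field_simp
  rw [h5]
  positivity

lemma hessAt_row_zero (hx : x ≠ 0) (hH : HessAt x H) {w : E} (hw : H w w ≤ 0) : H w = 0 := by
  have hzero : H w w = 0 := le_antisymm hw (hessAt_nonneg hE hx hH w)
  ext z
  have hs := hessAt_symm hE hx hH z w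
  have key : ∀ t : ℝ, 0 ≤ H z z * (t * t) + 2 * H w z * t + 0 := fun t => by
    have := hessAt_nonneg hE hx hH (w + t • z)
    simp only [map_add, map_smul, add_apply, smul_apply, smul_eq_mul, hzero, hs] at this
    linarith
  have h := discrim_le_zero key
  rw [discrim] at h
  show H w z = 0
  nlinarith [sq_nonneg (H w z)]

omit hE in
/-- Second derivative of the norm of a map. -/
lemma hess_comp_gen {F : Type*} [NormedAddCommGroup F] [NormedSpace ℝ F]
    {g : F → E} {g' : F → F →L[ℝ] E} {g'' : F →L[ℝ] F →L[ℝ] E} {a : F}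
    (hg : ∀ᶠ y in 𝓝 a, HasFDerivAt g (g' y) y) (hg' : HasFDerivAt g' g'' a)
    (hga : ∀ᶠ z in 𝓝 (g a), DifferentiableAt ℝ (fun w : E => ‖w‖) z)
    (hH : HessAt (g a) H) (u w : F) : fderiv ℝ (fderiv ℝ fun y => ‖g y‖) a u w
      = H (g' a u) (g' a w) + D1 (g a) (g'' u w) := by
  have hd : HasFDerivAt g (g' a) a := hg.self_of_nhds
  have hev : fderiv ℝ (fun y => ‖g y‖) =ᶠ[𝓝 a] fun y => (D1 (g y)).comp (g' y) := by
    filter_upwards [hg, hd.continuousAt.eventually hga] with y hy hy0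
    exact (hy0.hasFDerivAt.comp y hy).fderiv
  have h3 : HasFDerivAt (fun y => (D1 (g y)).comp (g' y)) _ a :=
    (HasFDerivAt.comp a hH hd).clm_comp hg'
  rw [hev.fderiv_eq, h3.fderiv]
  simp [add_comm]

end Norm

lemma eventually_diff_smul {E : Type*} [NormedAddCommGroup E] [NormedSpace ℝ E] {x : E}
    (h : ∀ᶠ z in 𝓝 x, DifferentiableAt ℝ (fun w : E => ‖w‖) z) {s : ℝ} (hs : 0 < s) :
    ∀ᶠ z in 𝓝 (s • x), DifferentiableAt ℝ (fun w : E => ‖w‖) z := by
  have h0 : Tendsto (fun z : E => s⁻¹ • z) (𝓝 (s • x)) (𝓝 x) := by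
    have h1 : Continuous fun z : E => s⁻¹ • z := continuous_const_smul _
    simpa [smul_smul, hs.ne'] using h1.tendsto (s • x)
  refine (h0.eventually h).mono fun z hz => ?_
  have h1 : DifferentiableAt ℝ (fun w : E => s * ‖s⁻¹ • w‖) z :=
    ((hz.comp z (differentiableAt_id.const_smul s⁻¹))).const_mul s
  refine h1.congr_of_eventuallyEq (Eventually.of_forall fun w => ?_)
  show ‖w‖ = s * ‖s⁻¹ • w‖
  rw [norm_smul, norm_inv, Real.norm_of_nonneg hs.le, ← mul_assoc, mul_inv_cancel₀ hs.ne', one_mul]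

variable {X Y : Type*} [NormedAddCommGroup X] [NormedSpace ℝ X] [NormedAddCommGroup Y]
  [NormedSpace ℝ Y]

/-- The points at which the derivative is not an isometry. -/
def Uset (T : X → Y) : Set X := {x | x ≠ 0 ∧ ¬IsoAt T x}

namespace IsTingley

variable {T : X → Y} {T' : Y → X} (hT : IsTingley T T') [FiniteDimensional ℝ X] {x : X}
  {Q : X →L[ℝ] X →L[ℝ] Y} {H : X →L[ℝ] X →L[ℝ] ℝ} {H' : Y →L[ℝ] Y →L[ℝ] ℝ}
include hT

lemma isOpen_Uset : IsOpen (Uset T) := hT.isOpen_not_isoAt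

lemma mem_Uset (hx : x ∈ Uset T) : T x ∈ Uset T' :=
  ⟨hT.map_ne_zero hx.1, fun h => hx.2 (hT.isoAt_of_symm hx.1 h)⟩

lemma norm_diff (hx : x ∈ Uset T) : DifferentiableAt ℝ (fun w : X => ‖w‖) x := by
  obtain ⟨r, hr, K, ⟨hd, -⟩, -⟩ := hT.c11_of_not_isoAt hx.1 hx.2
  exact hd x (mem_ball_self hr)

lemma norm_diff_map (hx : x ∈ Uset T) : DifferentiableAt ℝ (fun w : Y => ‖w‖) (T x) := by
  have : FiniteDimensional ℝ Y := hT.finiteDimensional
  exact hT.symm.norm_diff (hT.mem_Uset hx)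

lemma eventually_norm_diff (hx : x ∈ Uset T) :
    ∀ᶠ z in 𝓝 x, DifferentiableAt ℝ (fun w : X => ‖w‖) z :=
  (hT.isOpen_Uset.eventually_mem hx).mono fun _ hz => hT.norm_diff hz

lemma eventually_norm_diff_map (hx : x ∈ Uset T) :
    ∀ᶠ z in 𝓝 (T x), DifferentiableAt ℝ (fun w : Y => ‖w‖) z := by
  have : FiniteDimensional ℝ Y := hT.finiteDimensional
  exact hT.symm.eventually_norm_diff (hT.mem_Uset hx)

lemma D1_map_gen (hx : x ∈ Uset T) (u : X) : D1 (T x) (fderiv ℝ T x u) = D1 x u := by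
  have h1 := (hT.norm_diff_map hx).hasFDerivAt.comp x (hT.differentiableAt_general hx.1).hasFDerivAt
  rw [show (fun z : Y => ‖z‖) ∘ T = fun z => ‖z‖ from funext hT.norm_map] at h1
  exact congrArg (fun B : X →L[ℝ] ℝ => B u) (h1.unique (hT.norm_diff hx).hasFDerivAt)

lemma second_symm_gen (hx : x ≠ 0) (hQ : HasFDerivAt (fderiv ℝ T) Q x) (u w : X) :
    Q u w = Q w u :=
  second_derivative_symmetric_of_eventually_of_real
    ((isOpen_ne.eventually_mem hx).mono fun _ hz => (hT.differentiableAt_general hz).hasFDerivAt)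
    hQ u w

lemma second_self_gen (hx : x ≠ 0) (hQ : HasFDerivAt (fderiv ℝ T) Q x) (u : X) : Q u x = 0 := by
  have h1 : HasFDerivAt (fun y => fderiv ℝ T y y) _ x := hQ.clm_apply (hasFDerivAt_id x)
  have h2 : HasFDerivAt (fun y => fderiv ℝ T y y) (fderiv ℝ T x) x :=
    (hT.differentiableAt_general hx).hasFDerivAt.congr_of_eventuallyEq
      ((isOpen_ne.eventually_mem hx).mono fun _ hy => hT.fderiv_self_general hy)
  have h := congrArg (fun B : X →L[ℝ] Y => B u) (h1.unique h2)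
  simpa using h

/-- On the tangent hyperplane the derivative is isometric. -/
lemma norm_tangent_gen (hN : DifferentiableAt ℝ (fun w : X => ‖w‖) x) (hx : x ≠ 0) {v : X}
    (hv : D1 x v = 0) : ‖fderiv ℝ T x v‖ = ‖v‖ := by
  have hs : Tendsto (fun k : ℕ => (1 : ℝ) / (k + 1)) atTop (𝓝[>] 0) :=
    tendsto_nhdsWithin_iff.2 ⟨tendsto_one_div_add_atTop_nhds_zero_nat,
      Eventually.of_forall fun k => show (0 : ℝ) < 1 / (k + 1) by positivity⟩
  have l1 := (((hT.differentiableAt_general hx).hasFDerivAt.hasLineDerivAt v).tendsto_slope_zero_right.comp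
    hs).norm
  have l2 := tendsto_dsup x v hs
  rw [dsup_of_differentiableAt hN, hv] at l2
  refine tendsto_nhds_unique l1 (tendsto_of_tendsto_of_dist tendsto_const_nhds
    (squeeze_zero (fun _ => dist_nonneg) (fun k => ?_)
      (by simpa only [abs_zero, mul_zero] using l2.abs.const_mul 2)))
  simp only [Function.comp_apply]
  set τ := (1 : ℝ) / ((k : ℝ) + 1) with hτ
  have hτ0 : 0 < τ := by positivity
  have h := hT.abs_dist_map_le (x + τ • v) x
  rw [add_sub_cancel_left, norm_smul, Real.norm_of_nonneg hτ0.le] at h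
  rw [norm_smul, norm_inv, Real.norm_of_nonneg hτ0.le, dist_comm, Real.dist_eq,
    show τ⁻¹ * ‖T (x + τ • v) - T x‖ - ‖v‖ = τ⁻¹ * (‖T (x + τ • v) - T x‖ - τ * ‖v‖) by field_simp,
    abs_mul, abs_mul, abs_inv, abs_of_pos hτ0]
  nlinarith [inv_pos.2 hτ0]

/-- The second-order identities. -/
lemma hess_identity_gen (hx : x ∈ Uset T) (hQ : HasFDerivAt (fderiv ℝ T) Q x)
    (hH : HessAt x H) (hH' : HessAt (T x) H') (u w : X) :
    H' (fderiv ℝ T x u) (fderiv ℝ T x w) = H u w ∧ D1 (T x) (Q u w) = 0 := by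
  have : FiniteDimensional ℝ Y := hT.finiteDimensional
  have hUY := hT.mem_Uset hx
  have cXx := hT.eventually_norm_diff hx
  have cYx := hT.symm.eventually_norm_diff hUY
  have hx := hx.1
  have hy := hT.map_ne_zero hx
  have hev : ∀ᶠ z in 𝓝 x, HasFDerivAt T (fderiv ℝ T z) z :=
    (isOpen_ne.eventually_mem hx).mono fun z hz => (hT.differentiableAt_general hz).hasFDerivAt
  have e1 : H' (fderiv ℝ T x u) (fderiv ℝ T x w) + D1 (T x) (Q u w) = H u w := by
    rw [← hess_comp_gen hev hQ cYx hH']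
    simp only [hT.norm_map]
    show fderiv ℝ (D1 (X := X)) x u w = _
    rw [HasFDerivAt.fderiv hH]
  set r := ‖x‖ with hr
  have hr0 : 0 < r := norm_pos_iff.2 hx
  have hid : (fun z => ‖(r⁻¹ * ‖z‖) • T x + T z‖) = fun z => ‖(r⁻¹ * ‖z‖) • x + z‖ := by
    funext z
    rcases eq_or_ne z 0 with rfl | hz
    · simp [hT.map_zero]
    have hs : 0 < r⁻¹ * ‖z‖ := mul_pos (inv_pos.2 hr0) (norm_pos_iff.2 hz)
    rw [← hT.homog _ _ hs, hT.add_map_general]
    rw [norm_smul, Real.norm_of_nonneg hs.le, ← hr, mul_right_comm, inv_mul_cancel₀ hr0.ne',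
      one_mul]
  let K : Y → (X →L[ℝ] ℝ) →L[ℝ] (X →L[ℝ] Y) := fun a =>
    (ContinuousLinearMap.smulRightL ℝ X Y).flip a
  let J : X → (X →L[ℝ] ℝ) →L[ℝ] (X →L[ℝ] X) := fun a =>
    (ContinuousLinearMap.smulRightL ℝ X X).flip a
  have hn : ∀ z : X, DifferentiableAt ℝ (fun w : X => ‖w‖) z →
      HasFDerivAt (fun y : X => r⁻¹ * ‖y‖) (r⁻¹ • D1 z) z := fun z hz =>
    hz.hasFDerivAt.const_mul r⁻¹
  have hg1 : ∀ᶠ z in 𝓝 x, HasFDerivAt (fun y => (r⁻¹ * ‖y‖) • T x + T y)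
      ((r⁻¹ • D1 z).smulRight (T x) + fderiv ℝ T z) z :=
    (cXx.and (isOpen_ne.eventually_mem hx)).mono fun z hz =>
      ((hn z hz.1).smul_const (T x)).add ((hT.differentiableAt_general hz.2).hasFDerivAt)
  have hg1' : HasFDerivAt (fun z : X => (r⁻¹ • D1 z).smulRight (T x) + fderiv ℝ T z)
      ((K (T x)).comp (r⁻¹ • H) + Q) x :=
    ((K (T x)).hasFDerivAt.comp x (HasFDerivAt.const_smul hH r⁻¹)).add hQ
  have hg2 : ∀ᶠ z in 𝓝 x, HasFDerivAt (fun y : X => (r⁻¹ * ‖y‖) • x + y)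
      ((r⁻¹ • D1 z).smulRight x + ContinuousLinearMap.id ℝ X) z :=
    cXx.mono fun z hz => ((hn z hz).smul_const x).add (hasFDerivAt_id z)
  have hg2' : HasFDerivAt (fun z : X => (r⁻¹ • D1 z).smulRight x + ContinuousLinearMap.id ℝ X)
      ((J x).comp (r⁻¹ • H)) x :=
    ((J x).hasFDerivAt.comp x (HasFDerivAt.const_smul hH r⁻¹)).add_const _
  have hv1 : (r⁻¹ * ‖x‖) • T x + T x = (2 : ℝ) • T x := by
    rw [← hr, inv_mul_cancel₀ hr0.ne', one_smul, two_smul]
  have hv2 : (r⁻¹ * ‖x‖) • x + x = (2 : ℝ) • x := by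
    rw [← hr, inv_mul_cancel₀ hr0.ne', one_smul, two_smul]
  have h := hess_comp_gen (H := (2 : ℝ)⁻¹ • H') hg1 hg1'
    (by rw [hv1]; exact eventually_diff_smul cYx two_pos)
    (by rw [hv1]; exact hessAt_smul hH' two_pos) u w
  rw [hid, hess_comp_gen (H := (2 : ℝ)⁻¹ • H) hg2 hg2'
    (by rw [hv2]; exact eventually_diff_smul cXx two_pos)
    (by rw [hv2]; exact hessAt_smul hH two_pos) u w] at h
  rw [hv1, hv2] at h
  simp only [K, J, add_apply, ContinuousLinearMap.comp_apply,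
    ContinuousLinearMap.flip_apply, ContinuousLinearMap.smulRightL_apply_apply,
    ContinuousLinearMap.smulRight_apply, smul_apply,
    ContinuousLinearMap.id_apply, smul_eq_mul, D1_smul _ two_pos,
    map_add, map_smul, hessAt_self hx hH, hessAt_self hy hH',
    hessAt_self_right cXx hx hH, hessAt_self_right cYx hy hH', norm_D1_self cXx.self_of_nhds,
    norm_D1_self cYx.self_of_nhds, hT.norm_map, ← hr, zero_apply, mul_zero, zero_add, add_zero] at h
  have e2 : r⁻¹ * H u w * r = H u w := by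
    rw [mul_right_comm, inv_mul_cancel₀ hr0.ne', one_mul]
  constructor <;> linarith


/-- The pulled back second jet. -/
noncomputable def pullQ (T : X → Y) (T' : Y → X) (x : X) (Q : X →L[ℝ] X →L[ℝ] Y) :
    X →L[ℝ] X →L[ℝ] X :=
  (ContinuousLinearMap.compL ℝ X Y X (fderiv ℝ T' (T x))).comp Q

omit hT [FiniteDimensional ℝ X] in
lemma pullQ_apply (u v : X) : pullQ T T' x Q u v = fderiv ℝ T' (T x) (Q u v) := rfl

lemma pullQ_mem (hx : x ∈ Uset T) (hQ : HasFDerivAt (fderiv ℝ T) Q x) (hH : HessAt x H)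
    (hH' : HessAt (T x) H') (u v : X) : D1 x (pullQ T T' x Q u v) = 0 := by
  rw [pullQ_apply, ← hT.D1_map_gen hx, hT.fderiv_right_general hx.1]
  exact (hT.hess_identity_gen hx hQ hH hH' u v).2

/-- Tangent vectors are not shortened beyond the curvature. -/
lemma norm_tangent_lower (hx : x ∈ Uset T) (hQ : HasFDerivAt (fderiv ℝ T) Q x) (hH : HessAt x H)
    (hH' : HessAt (T x) H') {v : X} (hv : D1 x v = 0) (u : X) (s : ℝ) :
    ‖v‖ - 2 * |s| * |H u v| ≤ ‖v + s • pullQ T T' x Q u v‖ := by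
  have hN := hT.norm_diff hx
  have hr0 : 0 < ‖x‖ := norm_pos_iff.2 hx.1
  set L := fderiv ℝ T x with hL
  have hLs : L (v + s • pullQ T T' x Q u v) = L v + s • Q u v := by
    rw [map_add, map_smul, pullQ_apply, hT.fderiv_right_general hx.1]
  rw [← hT.norm_tangent_gen hN hx.1 (v := v + s • pullQ T T' x Q u v)
    (by rw [map_add, map_smul, hv, hT.pullQ_mem hx hQ hH hH', smul_zero, add_zero]), hLs]
  -- moving along `u`
  let γ : ℝ → X := fun t => x + (t * s) • u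
  let a : ℝ → ℝ := fun t => ‖γ t‖⁻¹ * D1 (γ t) v
  have hγ : HasDerivAt γ (s • u) 0 := by
    have h1 : HasDerivAt (fun t : ℝ => t * s) s 0 := by
      simpa using (hasDerivAt_id (0 : ℝ)).mul_const s
    exact (h1.smul_const u).const_add x
  have hγ0 : γ 0 = x := by simp [γ]
  have hL' : HasDerivAt (fun t => fderiv ℝ T (γ t) v) (s • Q u v) 0 := by
    have h1 : HasDerivAt (fun t => fderiv ℝ T (γ t)) (Q (s • u)) 0 :=
      hQ.comp_hasDerivAt_of_eq (0 : ℝ) hγ hγ0.symm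
    simpa using h1.clm_apply (hasDerivAt_const (0 : ℝ) v)
  have ha : HasDerivAt a (‖x‖⁻¹ * (s * H u v)) 0 := by
    have h1 : HasDerivAt (fun t => D1 (γ t) v) (s * H u v) 0 := by
      have h2 : HasDerivAt (fun t => D1 (γ t)) (H (s • u)) 0 :=
        HasFDerivAt.comp_hasDerivAt_of_eq (0 : ℝ) hH hγ hγ0.symm
      simpa using h2.clm_apply (hasDerivAt_const (0 : ℝ) v)
    have h3 : HasDerivAt (fun t => ‖γ t‖) (D1 x (s • u)) 0 :=
      hN.hasFDerivAt.comp_hasDerivAt_of_eq (0 : ℝ) hγ hγ0.symm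
    have h4 := (h3.inv (by rw [hγ0]; exact hr0.ne')).mul h1
    simpa [a, hγ0, hv, Pi.mul_def] using h4
  have hs : Tendsto (fun k : ℕ => (1 : ℝ) / (k + 1)) atTop (𝓝[>] 0) :=
    tendsto_nhdsWithin_iff.2 ⟨tendsto_one_div_add_atTop_nhds_zero_nat,
      Eventually.of_forall fun k => show (0 : ℝ) < 1 / (k + 1) by positivity⟩
  set f : ℝ → Y := fun t => fderiv ℝ T (γ t) v with hf
  have hf0 : f 0 = L v := by simp [hf, hγ0, hL]
  have l1 : Tendsto (fun k : ℕ => ((1 : ℝ) / (k + 1))⁻¹ • (f (1 / (k + 1)) - f 0)) atTop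
      (𝓝 (s • Q u v)) := by
    simpa [Function.comp_def] using (hL'.tendsto_slope_zero_right.comp hs)
  have l2 : Tendsto (fun k : ℕ => ((1 : ℝ) / (k + 1))⁻¹ * a (1 / (k + 1))) atTop
      (𝓝 (‖x‖⁻¹ * (s * H u v))) := by
    have := ha.tendsto_slope_zero_right.comp hs
    simpa [a, hγ0, hv, Function.comp_def] using this
  have l3 : Tendsto (fun k : ℕ => ‖γ (1 / (k + 1))‖) atTop (𝓝 ‖x‖) := by
    have h := (hγ.continuousAt.norm.tendsto.comp (hs.mono_right nhdsWithin_le_nhds))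
    rwa [hγ0] at h
  have lim : Tendsto (fun k : ℕ => ‖v‖ - 2 * |((1 : ℝ) / (k + 1))⁻¹ * a (1 / (k + 1))| *
        ‖γ (1 / (k + 1))‖ - ‖((1 : ℝ) / (k + 1))⁻¹ • (f (1 / (k + 1)) - f 0) - s • Q u v‖) atTop
      (𝓝 (‖v‖ - 2 * |s| * |H u v|)) := by
    have h := ((((l2.abs).const_mul 2).mul l3).const_sub ‖v‖).sub
      ((tendsto_iff_norm_sub_tendsto_zero.1 l1))
    rw [sub_zero, abs_mul, abs_mul, abs_inv, abs_norm] at h
    convert h using 2
    field_simp
  refine le_of_tendsto lim ?_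
  have hev : ∀ᶠ k : ℕ in atTop, γ (1 / (k + 1)) ∈ Uset T := by
    have h := (hγ.continuousAt.tendsto.comp (hs.mono_right nhdsWithin_le_nhds))
    rw [hγ0] at h
    exact h.eventually (hT.isOpen_Uset.eventually_mem hx)
  filter_upwards [hev] with k hk
  set τ := (1 : ℝ) / ((k : ℝ) + 1) with hτ
  have hτ0 : 0 < τ := by positivity
  have hτ1 : τ ≤ 1 := (div_le_one (by positivity)).2 (by linarith [(Nat.cast_nonneg k : (0:ℝ) ≤ k)])
  set z := γ τ with hz
  have hd : D1 z (v - a τ • z) = 0 := by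
    rw [map_sub, map_smul, norm_D1_self (hT.norm_diff hk), smul_eq_mul]
    show D1 z v - ‖z‖⁻¹ * D1 z v * ‖z‖ = 0
    rw [mul_right_comm, inv_mul_cancel₀ (norm_ne_zero_iff.2 hk.1), one_mul, sub_self]
  have heq := hT.norm_tangent_gen (hT.norm_diff hk) hk.1 hd
  rw [map_sub, map_smul, hT.fderiv_self_general hk.1] at heq
  have h1 : ‖v‖ - 2 * (|a τ| * ‖z‖) ≤ ‖f τ‖ := by
    have e1 := norm_sub_norm_le v (a τ • z)
    have e2 := norm_sub_le (f τ) (a τ • T z)
    simp only [hf, ← hz] at e2 ⊢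
    rw [heq, norm_smul, hT.norm_map, Real.norm_eq_abs] at e2
    rw [norm_smul, Real.norm_eq_abs] at e1
    linarith
  -- convexity
  have h2 : ‖f τ‖ ≤ (1 - τ) * ‖v‖ + τ * ‖L v + s • Q u v‖
      + τ * ‖τ⁻¹ • (f τ - f 0) - s • Q u v‖ := by
    have e : f τ = (1 - τ) • L v + τ • (L v + s • Q u v)
        + τ • (τ⁻¹ • (f τ - f 0) - s • Q u v) := by
      rw [hf0, smul_sub, smul_inv_smul₀ hτ0.ne']
      module
    conv_lhs => rw [e]
    refine (norm_add₃_le).trans (le_of_eq ?_)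
    rw [norm_smul, norm_smul, norm_smul, Real.norm_of_nonneg hτ0.le,
      Real.norm_of_nonneg (sub_nonneg.2 hτ1), hL, hT.norm_tangent_gen hN hx.1 hv]
  rw [abs_mul, abs_inv, abs_of_pos hτ0]
  have h3 : τ * (‖v‖ - 2 * (τ⁻¹ * |a τ|) * ‖z‖ - ‖τ⁻¹ • (f τ - f 0) - s • Q u v‖)
      = τ * ‖v‖ - 2 * (|a τ| * ‖z‖) - τ * ‖τ⁻¹ • (f τ - f 0) - s • Q u v‖ := by
    field_simp
  refine le_of_mul_le_mul_left ?_ hτ0
  linarith

end IsTingley

end Vale.Agent.P084
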