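import Mathlib.Analysis.Calculus.Rademacher
import Mathlib.Topology.MetricSpace.Sequences
import Vale.Agent.P084.JetsGen
import Vale.Agent.P084.JetAlgebra
import Vale.Agent.P084.WeakSymm

/-!
Almost every point outside the isometric ones has a second jet; such jets kill flat directions
uniformly on compact sets.
-/

namespace Vale.Agent.P084

open Filter Topology Metric MeasureTheory

/-- The algebraic properties of a second jet. -/
structure SecondJet {E : Type*} [NormedAddCommGroup E] [NormedSpace ℝ E] (φ : E →L[ℝ] ℝ) (x : E)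
    (H : E →L[ℝ] E →L[ℝ] ℝ) (q : E →L[ℝ] E →L[ℝ] E) : Prop where
  symm : ∀ u v, H u v = H v u
  nonneg : ∀ v, 0 ≤ H v v
  radial : ∀ u, H u x = 0
  qsymm : ∀ u v, q u v = q v u
  qmem : ∀ u v, φ (q u v) = 0
  qradial : ∀ u, q u x = 0
  cubic : ∀ z u w, H (q z u) w = H (q z w) u
  lower : ∀ u v, φ v = 0 → ∀ s : ℝ, ‖v‖ - 2 * |s| * |H u v| ≤ ‖v + s • q u v‖

lemma SecondJet.min {E : Type*} [NormedAddCommGroup E] [NormedSpace ℝ E] {φ : E →L[ℝ] ℝ} {x : E}
    {H : E →L[ℝ] E →L[ℝ] ℝ} {q : E →L[ℝ] E →L[ℝ] E} (h : SecondJet φ x H q) :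
    ∀ u v, φ v = 0 → H u v = 0 → ∀ s : ℝ, ‖v‖ ≤ ‖v + s • q u v‖ := fun u v hv hu s => by
  have := h.lower u v hv s
  rwa [hu, abs_zero, mul_zero, sub_zero] at this

lemma ae_differentiableAt_open {E F : Type*} [NormedAddCommGroup E] [NormedSpace ℝ E]
    [FiniteDimensional ℝ E] [MeasurableSpace E] [BorelSpace E] [NormedAddCommGroup F]
    [NormedSpace ℝ F] [FiniteDimensional ℝ F] (μ : Measure E) [μ.IsAddHaarMeasure] {s : Set E}
    (hs : IsOpen s) {f : E → F} (hf : LocallyLipschitzOn s f) :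
    ∀ᵐ x ∂μ, x ∈ s → DifferentiableAt ℝ f x := by
  rw [ae_iff]
  refine measure_null_of_locally_null _ fun x hx => ?_
  rw [Set.mem_ofPred_eq, Classical.not_imp] at hx
  obtain ⟨K, t, ht, hK⟩ := hf hx.1
  rw [hs.nhdsWithin_eq hx.1] at ht
  obtain ⟨u, hut, hu, hxu⟩ := _root_.mem_nhds_iff.1 ht
  refine ⟨_, inter_mem self_mem_nhdsWithin (mem_nhdsWithin_of_mem_nhds (hu.mem_nhds hxu)), ?_⟩
  refine measure_mono_null (fun y hy => ?_)
    (ae_iff.1 ((hK.mono hut).ae_differentiableWithinAt_of_mem (μ := μ)))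
  intro h
  exact (Set.mem_ofPred_eq ▸ hy.1 : ¬(y ∈ s → DifferentiableAt ℝ f y))
    fun _ => (h hy.2).differentiableAt (hu.mem_nhds hy.2)

/-- Derivatives of a locally Lipschitz map are bounded on compact sets. -/
lemma exists_fderiv_bound {E F : Type*} [NormedAddCommGroup E] [NormedSpace ℝ E]
    [NormedAddCommGroup F] [NormedSpace ℝ F] {s : Set E} (hs : IsOpen s) {f : E → F}
    (hf : LocallyLipschitzOn s f) {C : Set E} (hC : IsCompact C) (hCs : C ⊆ s) :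
    ∃ R : ℝ, ∀ x ∈ C, ‖fderiv ℝ f x‖ ≤ R := by
  refine hC.induction_on ⟨0, fun x hx => hx.elim⟩
    (fun u v huv ⟨R, hR⟩ => ⟨R, fun x hx => hR x (huv hx)⟩)
    (fun u v ⟨R, hR⟩ ⟨R', hR'⟩ => ⟨max R R', fun x hx => hx.elim
      (fun h => (hR x h).trans (le_max_left _ _)) (fun h => (hR' x h).trans (le_max_right _ _))⟩)
    fun x hx => ?_
  obtain ⟨K, t, ht, hK⟩ := hf (hCs hx)
  rw [hs.nhdsWithin_eq (hCs hx)] at ht
  obtain ⟨u, hut, hu, hxu⟩ := _root_.mem_nhds_iff.1 ht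
  exact ⟨u, mem_nhdsWithin_of_mem_nhds (hu.mem_nhds hxu), K, fun y hy =>
    norm_fderiv_le_of_lipschitzOn ℝ (hu.mem_nhds hy) (hK.mono hut)⟩

lemma exists_subseq_four {A B C D : Type*} [PseudoMetricSpace A] [PseudoMetricSpace B]
    [PseudoMetricSpace C] [PseudoMetricSpace D] {sa : Set A} {sb : Set B} {sc : Set C} {sd : Set D}
    (ha : IsCompact sa) (hb : IsCompact sb) (hc : IsCompact sc) (hd : IsCompact sd)
    {a : ℕ → A} {b : ℕ → B} {c : ℕ → C} {d : ℕ → D} (ha' : ∀ n, a n ∈ sa) (hb' : ∀ n, b n ∈ sb)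
    (hc' : ∀ n, c n ∈ sc) (hd' : ∀ n, d n ∈ sd) :
    ∃ a₀ b₀ c₀ d₀, ∃ φ : ℕ → ℕ, a₀ ∈ sa ∧ StrictMono φ ∧ Tendsto (fun n => a (φ n)) atTop (𝓝 a₀) ∧
      Tendsto (fun n => b (φ n)) atTop (𝓝 b₀) ∧ Tendsto (fun n => c (φ n)) atTop (𝓝 c₀) ∧
      Tendsto (fun n => d (φ n)) atTop (𝓝 d₀) := by
  obtain ⟨⟨⟨a₀, b₀⟩, c₀, d₀⟩, hmem, φ, hφ, hlim⟩ := ((ha.prod hb).prod (hc.prod hd)).tendsto_subseq
    (x := fun n => ((a n, b n), c n, d n)) fun n => ⟨⟨ha' n, hb' n⟩, hc' n, hd' n⟩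
  exact ⟨a₀, b₀, c₀, d₀, φ, hmem.1.1, hφ,
    ((continuous_fst.comp continuous_fst).tendsto _).comp hlim,
    ((continuous_snd.comp continuous_fst).tendsto _).comp hlim,
    ((continuous_fst.comp continuous_snd).tendsto _).comp hlim,
    ((continuous_snd.comp continuous_snd).tendsto _).comp hlim⟩

lemma clm_eq_of_basis {E : Type*} [NormedAddCommGroup E] [NormedSpace ℝ E] {ι : Type*}
    (b : Module.Basis ι ℝ E) {f g : E →L[ℝ] ℝ} (h : ∀ i, f (b i) = g (b i)) (x : E) : f x = g x :=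
  LinearMap.congr_fun (b.ext h : f.toLinearMap = g.toLinearMap) x

variable {X Y : Type*} [NormedAddCommGroup X] [NormedSpace ℝ X] [NormedAddCommGroup Y]
  [NormedSpace ℝ Y]

namespace IsTingley

variable {T : X → Y} {T' : Y → X} (hT : IsTingley T T') [FiniteDimensional ℝ X]
include hT

lemma locallyLipschitz_D1 : LocallyLipschitzOn (Uset T) (D1 (X := X)) := by
  intro x hx
  obtain ⟨r, hr, K, ⟨-, hK⟩, -⟩ := hT.c11_of_not_isoAt hx.1 hx.2
  exact ⟨K, ball x r, mem_nhdsWithin_of_mem_nhds (ball_mem_nhds x hr), hK⟩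

lemma locallyLipschitz_fderiv : LocallyLipschitzOn (Uset T) (fderiv ℝ T) := by
  intro x hx
  obtain ⟨r, hr, K, -, hK⟩ := hT.c11_of_not_isoAt hx.1 hx.2
  exact ⟨K, ball x r, mem_nhdsWithin_of_mem_nhds (ball_mem_nhds x hr), hK⟩

lemma continuousAt_D1 {x : X} (hx : x ∈ Uset T) : ContinuousAt (D1 (X := X)) x :=
  hT.locallyLipschitz_D1.continuousOn.continuousAt (hT.isOpen_Uset.mem_nhds hx)

variable [MeasurableSpace X] [BorelSpace X]

/-- Almost every non-isometric point is a point of twice differentiability. -/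
lemma ae_twice : ∀ᵐ x ∂(μH[Module.finrank ℝ X] : Measure X), x ∈ Uset T →
    HasFDerivAt (fderiv ℝ T) (fderiv ℝ (fderiv ℝ T) x) x ∧
      HessAt x (fderiv ℝ (D1 (X := X)) x) ∧ HessAt (T x) (fderiv ℝ (D1 (X := Y)) (T x)) := by
  have : FiniteDimensional ℝ Y := hT.finiteDimensional
  borelize Y
  have h1 := ae_differentiableAt_open (μH[Module.finrank ℝ X] : Measure X)
    hT.isOpen_Uset hT.locallyLipschitz_fderiv
  have h2 := ae_differentiableAt_open (μH[Module.finrank ℝ X] : Measure X)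
    hT.isOpen_Uset hT.locallyLipschitz_D1
  have h3 := ae_differentiableAt_open (μH[Module.finrank ℝ Y] : Measure Y)
    hT.symm.isOpen_Uset hT.symm.locallyLipschitz_D1
  obtain ⟨K, -, hK⟩ := lintegral_comp_antilipschitz (E := X) (E' := Y) hT.finrank_eq
    (c := (3 : ℝ)⁻¹) (by norm_num)
  have h4 : ∀ᵐ x ∂(μH[Module.finrank ℝ X] : Measure X), T x ∈ Uset T' →
      DifferentiableAt ℝ (D1 (X := Y)) (T x) := by
    have h := (hK T Set.univ Set.univ hT.lipschitz.continuous (fun x _ y _ => by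
      have := hT.symm.lipschitz.norm_sub_le (T x) (T y)
      rw [hT.left, hT.left, NNReal.coe_ofNat] at this
      linarith) (Set.mapsTo_univ _ _)).1 _ (ae_iff.1 h3)
    rw [Set.inter_univ] at h
    rw [ae_iff]
    exact h
  filter_upwards [h1, h2, h4] with x a1 a2 a4 hx
  exact ⟨(a1 hx).hasFDerivAt, (a2 hx).hasFDerivAt, (a4 (hT.mem_Uset hx)).hasFDerivAt⟩

/-- Symmetry of the cubic form almost everywhere. -/
lemma ae_cubic : ∀ᵐ x ∂(μH[Module.finrank ℝ X] : Measure X), x ∈ Uset T → ∀ z u w : X,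
    fderiv ℝ (D1 (X := Y)) (T x) (fderiv ℝ (fderiv ℝ T) x z u) (fderiv ℝ T x w)
      = fderiv ℝ (D1 (X := Y)) (T x) (fderiv ℝ (fderiv ℝ T) x z w) (fderiv ℝ T x u) := by
  have : FiniteDimensional ℝ Y := hT.finiteDimensional
  let b := Module.finBasis ℝ X
  have hS : ∀ z, LocallyLipschitzOn (Uset T) (fun y => fderiv ℝ T y z) := fun z x hx => by
    obtain ⟨K, t, ht, hK⟩ := hT.locallyLipschitz_fderiv hx
    exact ⟨_, t, ht, (ContinuousLinearMap.apply ℝ Y z).lipschitz.comp_lipschitzOnWith hK⟩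
  have hP : LocallyLipschitzOn (Uset T) (fun y => D1 (T y)) := fun x hx => by
    obtain ⟨r, hr, K, ⟨-, hK⟩, -⟩ :=
      hT.symm.c11_of_not_isoAt (hT.mem_Uset hx).1 (hT.mem_Uset hx).2
    refine ⟨K * 3, T ⁻¹' ball (T x) r, mem_nhdsWithin_of_mem_nhds
      (hT.lipschitz.continuous.continuousAt.preimage_mem_nhds (ball_mem_nhds _ hr)), ?_⟩
    exact hK.comp hT.lipschitz.lipschitzOnWith (Set.mapsTo_preimage _ _)
  have hjets := hT.ae_twice
  have hsd : ∀ᵐ x ∂(μH[Module.finrank ℝ X] : Measure X), x ∈ Uset T → ∀ u z : X,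
      fderiv ℝ (fun y => fderiv ℝ T y z) x u = fderiv ℝ (fderiv ℝ T) x u z := by
    filter_upwards [hjets] with x hx h0 u z
    rw [((hx h0).1.clm_apply (hasFDerivAt_const z x)).fderiv]
    simp
  have hb : ∀ᵐ x ∂(μH[Module.finrank ℝ X] : Measure X), ∀ i j k, x ∈ Uset T →
      fderiv ℝ (fun y => D1 (T y)) x (b j) (fderiv ℝ (fun y => fderiv ℝ T y (b k)) x (b i))
        = fderiv ℝ (fun y => D1 (T y)) x (b i)
          (fderiv ℝ (fun y => fderiv ℝ T y (b k)) x (b j)) := by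
    simp only [ae_all_iff]
    refine fun i j k => weak_symm _ hT.isOpen_Uset hP (hS (b k)) (b i) (b j) ?_
    filter_upwards [hjets, hsd] with x hx hs h0
    obtain ⟨q1, q2, q3⟩ := hx h0
    rw [hs h0, hs h0]
    exact ⟨(hT.hess_identity_gen h0 q1 q2 q3 _ _).2, (hT.hess_identity_gen h0 q1 q2 q3 _ _).2⟩
  filter_upwards [hjets, hsd, hb] with x hx hs hbx h0
  obtain ⟨q1, q2, q3⟩ := hx h0
  have hd : HasFDerivAt (fun y => D1 (T y)) _ x :=
    HasFDerivAt.comp x q3 (hT.differentiableAt_general h0.1).hasFDerivAt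
  set Q := fderiv ℝ (fderiv ℝ T) x
  set H' := fderiv ℝ (D1 (X := Y)) (T x)
  set L := fderiv ℝ T x
  have hy := hT.map_ne_zero h0.1
  have h3 : ∀ i j k, H' (Q (b k) (b i)) (L (b j)) = H' (Q (b k) (b j)) (L (b i)) := by
    intro i j k
    have h := hbx i j k h0
    rw [hs h0, hs h0, hd.fderiv, ContinuousLinearMap.comp_apply,
      ContinuousLinearMap.comp_apply] at h
    rw [hT.second_symm_gen h0.1 q1 (b k), hT.second_symm_gen h0.1 q1 (b k),
      hessAt_symm (hT.eventually_norm_diff_map h0) hy q3,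
      hessAt_symm (hT.eventually_norm_diff_map h0) hy q3 (Q (b j) (b k))]
    exact h
  have e1 : ∀ z i j, H' (Q z (b i)) (L (b j)) = H' (Q z (b j)) (L (b i)) := fun z i j =>
    clm_eq_of_basis b (f := (H'.flip (L (b j))).comp (Q.flip (b i)))
      (g := (H'.flip (L (b i))).comp (Q.flip (b j))) (fun k => h3 i j k) z
  have e2 : ∀ z u j, H' (Q z u) (L (b j)) = H' (Q z (b j)) (L u) := fun z u j =>
    clm_eq_of_basis b (f := (H'.flip (L (b j))).comp (Q z)) (g := (H' (Q z (b j))).comp L)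
      (fun i => e1 z i j) u
  exact fun z u w => clm_eq_of_basis b (f := (H' (Q z u)).comp L)
    (g := (H'.flip (L u)).comp (Q z)) (fun j => e2 z u j) w

/-- Almost every non-isometric point carries a second jet. -/
lemma ae_secondJet : ∀ᵐ x ∂(μH[Module.finrank ℝ X] : Measure X), x ∈ Uset T →
    HasFDerivAt (fderiv ℝ T) (fderiv ℝ (fderiv ℝ T) x) x ∧
    HessAt x (fderiv ℝ (D1 (X := X)) x) ∧
    SecondJet (D1 x) x (fderiv ℝ (D1 (X := X)) x)
      (pullQ T T' x (fderiv ℝ (fderiv ℝ T) x)) := by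
  have : FiniteDimensional ℝ Y := hT.finiteDimensional
  filter_upwards [hT.ae_twice, hT.ae_cubic] with x hx hC h0
  obtain ⟨q1, q2, q3⟩ := hx h0
  have hN := hT.eventually_norm_diff h0
  set Q := fderiv ℝ (fderiv ℝ T) x
  refine ⟨q1, q2, fun u v => hessAt_symm hN h0.1 q2 u v, hessAt_nonneg hN h0.1 q2,
    hessAt_self_right hN h0.1 q2, fun u v => ?_, hT.pullQ_mem h0 q1 q2 q3, fun u => ?_,
    fun z u w => ?_, fun u v hv => hT.norm_tangent_lower h0 q1 q2 q3 hv u⟩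
  · rw [pullQ_apply, pullQ_apply, hT.second_symm_gen h0.1 q1]
  · rw [pullQ_apply, hT.second_self_gen h0.1 q1]
    exact ContinuousLinearMap.map_zero _
  · rw [← (hT.hess_identity_gen h0 q1 q2 q3 _ _).1, ← (hT.hess_identity_gen h0 q1 q2 q3 _ _).1,
      pullQ_apply, pullQ_apply, hT.fderiv_right_general h0.1, hT.fderiv_right_general h0.1]
    exact hC h0 z u w

omit [MeasurableSpace X] [BorelSpace X] in
/-- Limits of second jets are second jets. -/
lemma secondJet_of_tendsto {y : ℕ → X} {H : ℕ → X →L[ℝ] X →L[ℝ] ℝ}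
    {q : ℕ → X →L[ℝ] X →L[ℝ] X} (hjet : ∀ n, SecondJet (D1 (y n)) (y n) (H n) (q n))
    (hU : ∀ n, y n ∈ Uset T) {y₀ : X} (hy0 : y₀ ∈ Uset T) {H₀ : X →L[ℝ] X →L[ℝ] ℝ}
    {q₀ : X →L[ℝ] X →L[ℝ] X} (l1 : Tendsto y atTop (𝓝 y₀)) (l2 : Tendsto H atTop (𝓝 H₀))
    (l3 : Tendsto q atTop (𝓝 q₀)) : SecondJet (D1 y₀) y₀ H₀ q₀ := by
  have lD : Tendsto (fun n => D1 (y n)) atTop (𝓝 (D1 y₀)) :=
    (hT.continuousAt_D1 hy0).tendsto.comp l1
  have lH : ∀ {u v : ℕ → X} {u₀ v₀ : X}, Tendsto u atTop (𝓝 u₀) → Tendsto v atTop (𝓝 v₀) →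
      Tendsto (fun n => H n (u n) (v n)) atTop (𝓝 (H₀ u₀ v₀)) := fun hu hv =>
    tendsto_apply (tendsto_apply l2 hu) hv
  have lq : ∀ {u v : ℕ → X} {u₀ v₀ : X}, Tendsto u atTop (𝓝 u₀) → Tendsto v atTop (𝓝 v₀) →
      Tendsto (fun n => q n (u n) (v n)) atTop (𝓝 (q₀ u₀ v₀)) := fun hu hv =>
    tendsto_apply (tendsto_apply l3 hu) hv
  have cst : ∀ u : X, Tendsto (fun _ : ℕ => u) atTop (𝓝 u) := fun u => tendsto_const_nhds
  refine ⟨fun u v => tendsto_nhds_unique (lH (cst u) (cst v))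
      ((lH (cst v) (cst u)).congr fun n => (hjet _).symm v u),
    fun v => ge_of_tendsto (lH (cst v) (cst v)) (Eventually.of_forall fun n => (hjet _).nonneg v),
    fun u => tendsto_nhds_unique (lH (cst u) l1)
      (tendsto_const_nhds.congr fun n => ((hjet _).radial u).symm),
    fun u v => tendsto_nhds_unique (lq (cst u) (cst v))
      ((lq (cst v) (cst u)).congr fun n => (hjet _).qsymm v u),
    fun u v => tendsto_nhds_unique (tendsto_apply lD (lq (cst u) (cst v)))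
      (tendsto_const_nhds.congr fun n => ((hjet _).qmem u v).symm),
    fun u => tendsto_nhds_unique (lq (cst u) l1)
      (tendsto_const_nhds.congr fun n => ((hjet _).qradial u).symm),
    fun z u w => tendsto_nhds_unique (lH (lq (cst z) (cst u)) (cst w))
      ((lH (lq (cst z) (cst w)) (cst u)).congr fun n => ((hjet _).cubic z u w).symm),
    fun u v hv s => ?_⟩
  let v' : ℕ → X := fun n => v - (D1 (y n) v / ‖y n‖) • y n
  have hv' : Tendsto v' atTop (𝓝 v) := by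
    have h := (cst v).sub
      ((((tendsto_apply lD (cst v)).div l1.norm (norm_ne_zero_iff.2 hy0.1))).smul l1)
    rwa [hv, zero_div, zero_smul, sub_zero] at h
  refine le_of_tendsto_of_tendsto (hv'.norm.sub (((lH (cst u) hv').abs).const_mul (2 * |s|)))
    (hv'.add ((lq (cst u) hv').const_smul s)).norm (Eventually.of_forall fun n => ?_)
  refine (hjet n).lower u (v' n) ?_ s
  have hyn := hU n
  rw [map_sub, map_smul, norm_D1_self (hT.norm_diff hyn), smul_eq_mul,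
    div_mul_cancel₀ _ (norm_ne_zero_iff.2 hyn.1), sub_self]

omit [MeasurableSpace X] [BorelSpace X] in
/-- Jets over a compact set kill nearly flat directions uniformly. -/
lemma exists_kernel_bound {C : Set X} (hC : IsCompact C) (hCU : C ⊆ Uset T) (R : ℝ) {ε : ℝ}
    (hε : 0 < ε) : ∃ M : ℝ, 0 ≤ M ∧ ∀ y ∈ C, ∀ H q, SecondJet (D1 y) y H q → ‖H‖ ≤ R → ‖q‖ ≤ R →
      ∀ k : X, ‖q k‖ ≤ ε * ‖k‖ + M * (‖H k‖ + |D1 y k|) := by
  by_contra hcon
  push Not at hcon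
  choose y hy H q hjet hH hq k hk using fun n : ℕ => hcon n (Nat.cast_nonneg n)
  have hk0 : ∀ n, k n ≠ 0 := fun n h => by
    have := hk n
    simp [h] at this
  let κ : ℕ → X := fun n => ‖k n‖⁻¹ • k n
  have hκ : ∀ n, ‖κ n‖ = 1 := fun n => by simp [κ, norm_smul, hk0 n]
  have hκ' : ∀ n, ε + n * (‖H n (κ n)‖ + |D1 (y n) (κ n)|) < ‖q n (κ n)‖ := fun n => by
    have h1 : 0 < ‖k n‖⁻¹ := inv_pos.2 (norm_pos_iff.2 (hk0 n))
    simp only [κ, map_smul, norm_smul, norm_inv, norm_norm, smul_eq_mul, abs_mul, abs_inv, abs_norm]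
    have h := mul_lt_mul_of_pos_left (hk n) h1
    rw [mul_add, mul_left_comm, inv_mul_cancel₀ (norm_ne_zero_iff.2 (hk0 n)), mul_one,
      mul_left_comm, mul_add] at h
    exact h
  have : ProperSpace X := FiniteDimensional.proper ℝ X
  have := FiniteDimensional.proper ℝ (X →L[ℝ] X →L[ℝ] ℝ)
  have := FiniteDimensional.proper ℝ (X →L[ℝ] X →L[ℝ] X)
  obtain ⟨y₀, H₀, q₀, κ₀, φ, hy₀, hφ, l1, l2, l3, l4⟩ := exists_subseq_four hC
    (isCompact_closedBall (0 : X →L[ℝ] X →L[ℝ] ℝ) R) (isCompact_closedBall (0 : X →L[ℝ] X →L[ℝ] X) R)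
    (isCompact_sphere (0 : X) 1) hy (b := H) (c := q)
    (fun n => (mem_closedBall_zero_iff (a := H n)).2 (hH n)) (fun n => (mem_closedBall_zero_iff (a := q n)).2 (hq n)) (fun n => mem_sphere_zero_iff_norm.2 (hκ n))
  have hy0 : y₀ ∈ Uset T := hCU hy₀
  have lD : Tendsto (fun n => D1 (y (φ n))) atTop (𝓝 (D1 y₀)) :=
    (hT.continuousAt_D1 hy0).tendsto.comp l1
  have hjet0 : SecondJet (D1 y₀) y₀ H₀ q₀ :=
    hT.secondJet_of_tendsto (fun n => hjet (φ n)) (fun n => hCU (hy (φ n))) hy0 l1 l2 l3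
  have hqR : ∀ n, ‖q n (κ n)‖ ≤ R := fun n =>
    (((q n).le_opNorm _).trans (le_of_eq (by rw [hκ n, mul_one]))).trans (hq n)
  have lsmall : Tendsto (fun n => ‖H (φ n) (κ (φ n))‖ + |D1 (y (φ n)) (κ (φ n))|) atTop (𝓝 0) := by
    refine squeeze_zero' (Eventually.of_forall fun n => by positivity) ?_
      (((tendsto_const_div_atTop_nhds_zero_nat R)).comp hφ.tendsto_atTop)
    filter_upwards [hφ.tendsto_atTop.eventually (eventually_ge_atTop 1)] with n hn
    show _ ≤ R / (φ n : ℝ)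
    rw [le_div_iff₀ (by exact_mod_cast hn)]
    nlinarith [hκ' (φ n), hqR (φ n)]
  have e0 := tendsto_nhds_unique ((tendsto_apply l2 l4).norm.add (tendsto_apply lD l4).abs) lsmall
  have hκH : H₀ κ₀ = 0 := norm_eq_zero.1 (by linarith [norm_nonneg (H₀ κ₀), abs_nonneg (D1 y₀ κ₀)])
  have hκD : D1 y₀ κ₀ = 0 := abs_eq_zero.1 (by linarith [norm_nonneg (H₀ κ₀), abs_nonneg (D1 y₀ κ₀)])
  have hφy : D1 y₀ y₀ ≠ 0 := by
    rw [norm_D1_self (hT.norm_diff hy0)]
    exact norm_ne_zero_iff.2 hy0.1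
  have h0 := jet_kernel (D1 y₀) hφy H₀ q₀ hjet0.symm hjet0.nonneg hjet0.radial hjet0.qsymm
    hjet0.qmem hjet0.qradial hjet0.cubic hjet0.min hκD hκH
  have hge : ε ≤ ‖q₀ κ₀‖ := ge_of_tendsto (tendsto_apply l3 l4).norm
    (Eventually.of_forall fun n => by
      have := hκ' (φ n)
      nlinarith [norm_nonneg (H (φ n) (κ (φ n))), abs_nonneg (D1 (y (φ n)) (κ (φ n))),
        (Nat.cast_nonneg (φ n) : (0 : ℝ) ≤ φ n)])
  rw [h0, norm_zero] at hge
  linarith

end IsTingley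

end Vale.Agent.P084
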