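import Mathlib.Analysis.Normed.Module.FiniteDimension
import Mathlib.LinearAlgebra.Dual.Lemmas
import Vale.Agent.P084.JetBound

/-!
The gradient of half the squared norm as a monotone relation.
-/

namespace Vale.Agent.P084

open Filter Topology Metric

variable {X : Type*} [NormedAddCommGroup X] [NormedSpace ℝ X]

/-- The gradient of half the squared norm, as a covector. -/
noncomputable def halfGrad (x : X) : X →L[ℝ] ℝ := ‖x‖ • D1 x

/-- `y` represents, through `J`, a subgradient of half the squared norm at `x`. -/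
def SubGrad (J : X →L[ℝ] X →L[ℝ] ℝ) (x y : X) : Prop :=
  ∀ z, ‖x‖ ^ 2 / 2 + J y (z - x) ≤ ‖z‖ ^ 2 / 2

variable {J : X →L[ℝ] X →L[ℝ] ℝ}

lemma isClosed_subGrad : IsClosed {p : X × X | SubGrad J p.1 p.2} := by
  simp only [SubGrad, Set.ofPred_forall]
  exact isClosed_iInter fun z => isClosed_le
    (((continuous_norm.comp continuous_fst).pow 2 |>.div_const 2).add
      ((J.continuous.comp continuous_snd).clm_apply (continuous_const.sub continuous_fst)))
    continuous_const

lemma SubGrad.smul {x y : X} (h : SubGrad J x y) {s : ℝ} (hs : 0 < s) :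
    SubGrad J (s • x) (s • y) := by
  intro z
  have h1 := h (s⁻¹ • z)
  have e : s⁻¹ • z - x = s⁻¹ • (z - s • x) := by rw [smul_sub, inv_smul_smul₀ hs.ne']
  rw [e, map_smul, smul_eq_mul, norm_smul, norm_inv, Real.norm_of_nonneg hs.le] at h1
  rw [map_smul, smul_apply, smul_eq_mul, norm_smul, Real.norm_of_nonneg hs.le]
  have h2 := mul_le_mul_of_nonneg_left h1 (sq_nonneg s)
  field_simp at h2 ⊢
  linarith

lemma SubGrad.eq_zero_left {y : X} (h : SubGrad J 0 y) (hJp : ∀ v, v ≠ 0 → 0 < J v v) : y = 0 := by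
  by_contra hy
  have hy' := hJp y hy
  set c := J y y
  have hn : 0 < ‖y‖ := norm_pos_iff.2 hy
  have h1 := h ((c / ‖y‖ ^ 2) • y)
  rw [norm_zero, sub_zero, map_smul, smul_eq_mul, norm_smul,
    Real.norm_of_nonneg (by positivity)] at h1
  field_simp at h1
  nlinarith [mul_pos hy' hy']

lemma SubGrad.eq_zero_right {x : X} (h : SubGrad J x 0) : x = 0 := by
  have h1 := h 0
  simp only [map_zero, zero_apply, norm_zero] at h1
  exact norm_eq_zero.1 (by nlinarith [norm_nonneg x])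

lemma SubGrad.mono {x y x' y' : X} (h : SubGrad J x y) (h' : SubGrad J x' y') :
    0 ≤ J (y - y') (x - x') := by
  have h1 := h x'
  have h2 := h' x
  simp only [map_sub, sub_apply] at h1 h2 ⊢
  linarith

lemma SubGrad.segment {x x' y : X} (h : SubGrad J x y) (h' : SubGrad J x' y) {t : ℝ}
    (ht : t ∈ Set.Icc (0 : ℝ) 1) : SubGrad J ((1 - t) • x + t • x') y := by
  intro z
  have h1 := h z
  have h2 := h' z
  have hn : ‖(1 - t) • x + t • x'‖ ≤ (1 - t) * ‖x‖ + t * ‖x'‖ := by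
    refine (norm_add_le _ _).trans (le_of_eq ?_)
    rw [norm_smul, norm_smul, Real.norm_of_nonneg ht.1, Real.norm_of_nonneg (sub_nonneg.2 ht.2)]
  have hn2 := pow_le_pow_left₀ (norm_nonneg _) hn 2
  simp only [map_sub, map_add, map_smul, smul_eq_mul] at h1 h2 ⊢
  nlinarith [mul_nonneg (mul_nonneg ht.1 (sub_nonneg.2 ht.2)) (sq_nonneg (‖x‖ - ‖x'‖)),
    mul_le_mul_of_nonneg_left h1 (sub_nonneg.2 ht.2), mul_le_mul_of_nonneg_left h2 ht.1]

lemma exists_subGrad_add [FiniteDimensional ℝ X] (hJs : ∀ u v, J u v = J v u)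
    (hJn : ∀ v, 0 ≤ J v v) {δ : ℝ} (hδ : 0 ≤ δ) (w : X) :
    ∃ x y, SubGrad J x y ∧ y + δ • x = w := by
  have : ProperSpace X := FiniteDimensional.proper ℝ X
  let φ : X → ℝ := fun z => ‖z‖ ^ 2 / 2 + δ / 2 * J z z - J w z
  have hφc : Continuous φ := by
    show Continuous fun z => ‖z‖ ^ 2 / 2 + δ / 2 * J z z - J w z
    fun_prop
  set R := 2 * ‖J w‖ + 1 with hR
  have hR0 : 0 < R := by positivity
  obtain ⟨x, hx, hmin⟩ := (isCompact_closedBall (0 : X) R).exists_isMinOn
    (nonempty_closedBall.2 hR0.le) hφc.continuousOn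
  have hglob : ∀ z, φ x ≤ φ z := by
    intro z
    rcases le_or_gt ‖z‖ R with h | h
    · exact hmin (mem_closedBall_zero_iff.2 h)
    · have h1 : φ x ≤ φ 0 := hmin (mem_closedBall_self hR0.le)
      have h2 := (le_abs_self _).trans ((J w).le_opNorm z)
      have h3 : 0 ≤ δ / 2 * J z z := mul_nonneg (by linarith) (hJn z)
      simp only [φ, norm_zero, map_zero, zero_apply] at h1 ⊢
      nlinarith
  refine ⟨x, w - δ • x, fun z => ?_, sub_add_cancel _ _⟩
  by_contra hcon
  push Not at hcon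
  set d := z - x with hd
  set Δ := ‖x‖ ^ 2 / 2 + J (w - δ • x) d - ‖z‖ ^ 2 / 2 with hΔ
  have hΔ0 : 0 < Δ := by linarith
  set c := δ / 2 * J d d with hc
  have hc0 : 0 ≤ c := mul_nonneg (by linarith) (hJn d)
  set τ := min 1 (Δ / (2 * (c + 1))) with hτdef
  have hτ : 0 < τ := lt_min one_pos (by positivity)
  have hτ1 : τ ≤ 1 := min_le_left _ _
  have h1 := hglob (x + τ • d)
  have hn : ‖x + τ • d‖ ≤ (1 - τ) * ‖x‖ + τ * ‖z‖ := by
    rw [show x + τ • d = (1 - τ) • x + τ • z by rw [hd]; module]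
    refine (norm_add_le _ _).trans (le_of_eq ?_)
    rw [norm_smul, norm_smul, Real.norm_of_nonneg hτ.le, Real.norm_of_nonneg (sub_nonneg.2 hτ1)]
  have hn2 := pow_le_pow_left₀ (norm_nonneg _) hn 2
  have h2 : τ * (c + 1) ≤ Δ / 2 := by
    have := min_le_right (1 : ℝ) (Δ / (2 * (c + 1)))
    rw [← hτdef, le_div_iff₀ (by positivity)] at this
    linarith
  simp only [φ, map_add, map_smul, add_apply, smul_apply, smul_eq_mul, hJs d x] at h1
  simp only [map_sub, map_smul, sub_apply, smul_apply, smul_eq_mul] at hΔ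
  have h3 : τ * Δ ≤ τ * τ * c := by
    nlinarith [mul_nonneg (mul_nonneg hτ.le (sub_nonneg.2 hτ1)) (sq_nonneg (‖x‖ - ‖z‖))]
  nlinarith [mul_pos hτ hτ, mul_le_mul_of_nonneg_left h2 hτ.le]

lemma subGrad_iff {x y : X} (hd : DifferentiableAt ℝ (fun z : X => ‖z‖) x) :
    SubGrad J x y ↔ J y = halfGrad x := by
  constructor
  · intro h
    have hh : HasFDerivAt (fun z : X => ‖z‖ ^ 2 / 2 - J y z) (halfGrad x - J y) x := by
      have h1 : HasFDerivAt (fun z : X => (2⁻¹ : ℝ) * ‖z‖ ^ 2 - J y z) (halfGrad x - J y) x := by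
        refine (((hd.hasFDerivAt.pow 2).const_mul (2⁻¹ : ℝ)).sub (J y).hasFDerivAt).congr_fderiv ?_
        ext a
        simp [halfGrad]
        ring
      simpa [div_eq_inv_mul] using h1
    have hmin : IsLocalMin (fun z : X => ‖z‖ ^ 2 / 2 - J y z) x := Eventually.of_forall fun z => by
      have := h z
      rw [map_sub] at this
      linarith
    exact (sub_eq_zero.1 (hmin.hasFDerivAt_eq_zero hh)).symm
  · intro h z
    rw [h, map_sub]
    have h1 : halfGrad x z ≤ ‖x‖ * ‖z‖ := mul_le_mul_of_nonneg_left (D1_le x z) (norm_nonneg x)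
    have h2 : halfGrad x x = ‖x‖ * ‖x‖ := by
      show ‖x‖ * D1 x x = _
      rw [norm_D1_self hd]
    nlinarith [sq_nonneg (‖x‖ - ‖z‖)]

/-- An inner product and the identification of the dual space given by it. -/
lemma exists_innerForm [FiniteDimensional ℝ X] :
    ∃ J : X →L[ℝ] X →L[ℝ] ℝ, ∃ e : X ≃L[ℝ] X →L[ℝ] ℝ, (∀ u, e u = J u) ∧
      (∀ u v, J u v = J v u) ∧ (∀ v, 0 ≤ J v v) ∧ ∀ v, v ≠ 0 → 0 < J v v := by
  let b := Module.finBasis ℝ X
  let c : Fin (Module.finrank ℝ X) → (X →L[ℝ] ℝ) := fun i =>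
    LinearMap.toContinuousLinearMap (b.coord i)
  let JL : X →L[ℝ] X →L[ℝ] ℝ := ∑ i, (c i).smulRight (c i)
  have hJL : ∀ u v, JL u v = ∑ i, c i u * c i v := fun u v => by simp [JL]
  have hJn : ∀ v, 0 ≤ JL v v := fun v => by
    rw [hJL]
    exact Finset.sum_nonneg fun i _ => mul_self_nonneg _
  have hJp : ∀ v, v ≠ 0 → 0 < JL v v := fun v hv => by
    refine (hJn v).lt_of_ne' fun h => hv (b.forall_coord_eq_zero_iff.1 fun i => ?_)
    rw [hJL, Finset.sum_eq_zero_iff_of_nonneg fun i _ => mul_self_nonneg _] at h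
    exact mul_self_eq_zero.1 (h i (Finset.mem_univ i))
  have hinj : Function.Injective JL.toLinearMap := by
    refine LinearMap.ker_eq_bot.1 (LinearMap.ker_eq_bot'.2 fun v hv => ?_)
    by_contra h
    exact (hJp v h).ne' (by rw [show JL v = 0 from hv]; rfl)
  have hfr : Module.finrank ℝ X = Module.finrank ℝ (X →L[ℝ] ℝ) := by
    rw [← LinearMap.toContinuousLinearMap.finrank_eq]
    exact Subspace.dual_finrank_eq.symm
  exact ⟨JL, (LinearEquiv.ofBijective JL.toLinearMap ⟨hinj,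
    (LinearMap.injective_iff_surjective_of_finrank_eq_finrank hfr).1 hinj⟩).toContinuousLinearEquiv,
    fun u => rfl, fun u v => by simp only [hJL, mul_comm], hJn, hJp⟩

end Vale.Agent.P084
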